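import Mathlib

namespace Vale.Agent.P026.H517

open Complex

/-- The Vinogradov-Korobov bound for (shifted) zeta sums. -/
def VKSum (C c : ℝ) : Prop :=
  ∀ t : ℝ, 2 ≤ t → ∀ a : ℝ, 0 ≤ a → a ≤ 1 → ∀ N : ℕ, 1 ≤ N → (N : ℝ) ≤ t ^ 2 →
    ∀ N' : ℕ, N ≤ N' → N' ≤ 2 * N →
      ‖∑ n ∈ Finset.Ioc N N', (((n : ℝ) + a : ℝ) : ℂ) ^ (I * (t : ℂ))‖
        ≤ C * N * Real.exp (-c * (Real.log N) ^ 3 / (Real.log t) ^ 2)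

end Vale.Agent.P026.H517
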