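import Vale.Agent.P026.H517.VBound
import Vale.Agent.P026.H517.Iface

/-!
# The Vinogradov–Korobov bound for `∑ (n+a)^{it}`
-/

namespace Vale.Agent.P026.H517

open Finset ComplexConjugate

lemma cpow_eq_EI (u t : ℝ) (hu : 0 < u) :
    ((u : ℝ) : ℂ) ^ (Complex.I * (t : ℂ)) = EI (t * Real.log u) := by
  rw [Complex.cpow_def_of_ne_zero (by exact_mod_cast hu.ne'), EI, ← Complex.ofReal_log hu.le]
  congr 1
  push_cast
  ring

lemma inner_bound (A : ℕ)
    (hA : ∀ k : ℕ, 2 ≤ k → ∀ l : ℕ, 1 ≤ l → l ≤ 20 * k → ∀ P : ℕ, 1 ≤ P →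
      (J k (l * k) (range P) : ℝ) ≤ (k : ℝ) ^ (A * k ^ 3) * (P : ℝ) ^ (EE k l))
    (M : ℕ) (l θ t u : ℝ) (hθ : 1 / 2 ≤ θ) (hl : 10 ≤ l)
    (ht : t = Real.exp (θ * l)) (hu1 : Real.exp l ≤ u) (hu2 : u ≤ Real.exp (l + 2))
    (hM1 : 1 ≤ M) (hM : Real.exp (0.45 * l - 1) ≤ M) (hM' : (M : ℝ) ≤ Real.exp (0.45 * l)) :
    ‖∑ x ∈ range M, ∑ y ∈ range M, EI (t * Real.log (u + (x : ℝ) * y))‖
      ≤ (M : ℝ) ^ 2 * (Real.exp ((A + 1) - 1 / 10 ^ 10 * (l / θ ^ 2)) + 2 * Real.exp (-l)) := by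
  have hu0 : 0 < u := lt_of_lt_of_le (Real.exp_pos _) hu1
  have ht0 : 0 < t := by rw [ht]; exact Real.exp_pos _
  obtain ⟨K, hKdef⟩ : ∃ K : ℕ, K = ⌈10 * θ⌉₊ + 10 := ⟨_, rfl⟩
  have hK1 : 10 * θ + 10 ≤ K := by
    rw [hKdef]
    push_cast
    have := Nat.le_ceil (10 * θ)
    linarith
  have hK2 : (K : ℝ) ≤ 32 * θ := by
    rw [hKdef]
    push_cast
    have := Nat.ceil_lt_add_one (show 0 ≤ 10 * θ by linarith)
    linarith
  have hK3 : 2 ≤ K := by omega
  have hV := V_bound A hA K M l θ t u hθ (by linarith) (by linarith) hK2 hK3 ht hu1 hu2 hM1 hM hM'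
  have hfac : ∀ x y : ℕ, EI (t * Real.log (u + (x : ℝ) * y))
      = EI (t * Real.log u) * EI (t * Real.log (1 + (x : ℝ) * y / u)) := by
    intro x y
    rw [← EI_add, ← mul_add, ← Real.log_mul hu0.ne' (by positivity)]
    congr 3
    field_simp
  simp_rw [hfac]
  simp_rw [← mul_sum]
  rw [norm_mul, norm_EI, one_mul]
  have hle : ∀ x ∈ range M, ∀ y ∈ range M, ((x : ℝ) * y) / u ≤ Real.exp (-(0.1 * l)) := by
    intro x hx y hy
    have hx' : (x : ℝ) ≤ M := by exact_mod_cast (mem_range.1 hx).le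
    have hy' : (y : ℝ) ≤ M := by exact_mod_cast (mem_range.1 hy).le
    have h1 : (x : ℝ) * y ≤ Real.exp (0.45 * l) * Real.exp (0.45 * l) :=
      mul_le_mul (hx'.trans hM') (hy'.trans hM') (by positivity) (by positivity)
    rw [div_le_iff₀ hu0]
    refine h1.trans ?_
    calc Real.exp (0.45 * l) * Real.exp (0.45 * l) = Real.exp (-(0.1 * l)) * Real.exp l := by
          rw [← Real.exp_add, ← Real.exp_add]
          congr 1
          ring
      _ ≤ Real.exp (-(0.1 * l)) * u := mul_le_mul_of_nonneg_left hu1 (Real.exp_pos _).le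
  have hhalf : Real.exp (-(0.1 * l)) ≤ 1 / 2 := by
    have h1 : Real.exp (-(0.1 * l)) ≤ Real.exp (-1) := Real.exp_le_exp.2 (by linarith)
    have := Real.exp_neg_one_lt_d9
    linarith
  have hterm : ∀ x ∈ range M, ∀ y ∈ range M,
      ‖EI (t * Real.log (1 + (x : ℝ) * y / u))
        - EI (Bf (fun i : Fin K => gam t u i.1) (nz K x) (nz K y))‖ ≤ 2 * Real.exp (-l) := by
    intro x hx y hy
    have h1 := hle x hx y hy
    refine (taylor t u ht0.le hu0 K x y (h1.trans hhalf)).trans ?_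
    calc 2 * t * ((x : ℝ) * y / u) ^ (K + 1)
        ≤ 2 * t * (Real.exp (-(0.1 * l))) ^ (K + 1) := by
          refine mul_le_mul_of_nonneg_left (pow_le_pow_left₀ (by positivity) h1 _) (by positivity)
      _ = 2 * Real.exp (θ * l + ((K + 1 : ℕ) : ℝ) * (-(0.1 * l))) := by
          rw [← Real.exp_nat_mul, ht, mul_assoc, ← Real.exp_add]
      _ ≤ 2 * Real.exp (-l) := by
          refine mul_le_mul_of_nonneg_left (Real.exp_le_exp.2 ?_) (by norm_num)
          push_cast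
          have h2 : (10 * θ + 11) * (0.1 * l) ≤ ((K : ℝ) + 1) * (0.1 * l) :=
            mul_le_mul_of_nonneg_right (by linarith) (by linarith)
          nlinarith
  have hdiff : ‖∑ x ∈ range M, ∑ y ∈ range M, EI (t * Real.log (1 + (x : ℝ) * y / u))
      - ∑ x ∈ range M, ∑ y ∈ range M,
        EI (Bf (fun i : Fin K => gam t u i.1) (nz K x) (nz K y))‖
      ≤ (M : ℝ) ^ 2 * (2 * Real.exp (-l)) := by
    rw [← sum_sub_distrib]
    refine (norm_sum_le _ _).trans ?_
    calc ∑ x ∈ range M, ‖∑ y ∈ range M, EI (t * Real.log (1 + (x : ℝ) * y / u))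
          - ∑ y ∈ range M, EI (Bf (fun i : Fin K => gam t u i.1) (nz K x) (nz K y))‖
        ≤ ∑ _x ∈ range M, (M : ℝ) * (2 * Real.exp (-l)) := by
          refine sum_le_sum fun x hx => ?_
          rw [← sum_sub_distrib]
          refine (norm_sum_le _ _).trans ?_
          refine (sum_le_sum fun y hy => hterm x hx y hy).trans ?_
          rw [sum_const, card_range, nsmul_eq_mul]
      _ = (M : ℝ) ^ 2 * (2 * Real.exp (-l)) := by
          rw [sum_const, card_range, nsmul_eq_mul]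
          ring
  calc ‖∑ x ∈ range M, ∑ y ∈ range M, EI (t * Real.log (1 + (x : ℝ) * y / u))‖
      ≤ ‖∑ x ∈ range M, ∑ y ∈ range M,
          EI (Bf (fun i : Fin K => gam t u i.1) (nz K x) (nz K y))‖
        + ‖∑ x ∈ range M, ∑ y ∈ range M, EI (t * Real.log (1 + (x : ℝ) * y / u))
          - ∑ x ∈ range M, ∑ y ∈ range M,
            EI (Bf (fun i : Fin K => gam t u i.1) (nz K x) (nz K y))‖ := by
        refine le_trans (le_of_eq ?_) (norm_add_le _ _)
        congr 1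
        ring
    _ ≤ (M : ℝ) ^ 2 * Real.exp ((A + 1) - 1 / 10 ^ 10 * (l / θ ^ 2))
        + (M : ℝ) ^ 2 * (2 * Real.exp (-l)) := add_le_add hV hdiff
    _ = _ := by ring

lemma big_range (A : ℕ)
    (hA : ∀ k : ℕ, 2 ≤ k → ∀ l : ℕ, 1 ≤ l → l ≤ 20 * k → ∀ P : ℕ, 1 ≤ P →
      (J k (l * k) (range P) : ℝ) ≤ (k : ℝ) ^ (A * k ^ 3) * (P : ℝ) ^ (EE k l))
    (t : ℝ) (ht : 2 ≤ t) (a : ℝ) (ha0 : 0 ≤ a) (ha1 : a ≤ 1) (N : ℕ) (hN : 1 ≤ N)
    (hNt : (N : ℝ) ≤ t ^ 2) (N' : ℕ) (hNN : N ≤ N') (hN2 : N' ≤ 2 * N)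
    (hl10 : 10 ≤ Real.log N) :
    ‖∑ n ∈ Ioc N N', EI (t * Real.log ((n : ℝ) + a))‖
      ≤ (Real.exp (A + 1) + 4) * N
        * Real.exp (-(1 / 10 ^ 10) * (Real.log N) ^ 3 / (Real.log t) ^ 2) := by
  have hN0 : (0 : ℝ) < N := by exact_mod_cast hN
  have hN1 : (1 : ℝ) ≤ N := by exact_mod_cast hN
  have ht0 : 0 < t := by linarith
  set l : ℝ := Real.log N with hl
  have hl0 : 0 < l := by linarith
  have hlt0 : 0 < Real.log t := Real.log_pos (by linarith)
  set θ : ℝ := Real.log t / l with hθdef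
  have hθl : θ * l = Real.log t := by rw [hθdef]; field_simp
  have hθ : 1 / 2 ≤ θ := by
    rw [hθdef, le_div_iff₀ hl0]
    have h1 : l ≤ Real.log (t ^ 2) := Real.log_le_log hN0 hNt
    rw [Real.log_pow] at h1
    push_cast at h1
    linarith
  have hθ0 : 0 < θ := by linarith
  have htexp : t = Real.exp (θ * l) := by rw [hθl, Real.exp_log ht0]
  have hNexp : Real.exp l = N := by rw [hl, Real.exp_log hN0]
  set D : ℝ := Real.exp (0.45 * l) with hD
  have hD5 : 5.5 ≤ D := by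
    have h1 := Real.add_one_le_exp (0.45 * l)
    rw [← hD] at h1
    linarith
  obtain ⟨M, hMdef⟩ : ∃ M : ℕ, M = ⌊D⌋₊ := ⟨_, rfl⟩
  have hM' : (M : ℝ) ≤ D := by rw [hMdef]; exact Nat.floor_le (by linarith)
  have hM2 : D - 1 < M := by
    rw [hMdef]
    have := Nat.lt_floor_add_one D
    linarith
  have hM1 : 1 ≤ M := by
    have : (0 : ℝ) < M := by linarith
    exact_mod_cast this
  have hM : Real.exp (0.45 * l - 1) ≤ M := by
    have h1 : Real.exp (0.45 * l - 1) = D * Real.exp (-1) := by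
      rw [hD, ← Real.exp_add]
      congr 1
    have h2 := Real.exp_neg_one_lt_d9
    rw [h1]
    nlinarith
  set B : ℝ := Real.exp ((A + 1) - 1 / 10 ^ 10 * (l / θ ^ 2)) + 2 * Real.exp (-l) with hB
  have hB0 : 0 ≤ B := by positivity
  have hmain := avg_bound (fun n => EI (t * Real.log ((n : ℝ) + a))) (fun n => (norm_EI _).le)
    hNN M hM1 B ?_
  · refine hmain.trans ?_
    have h1 : ((N' : ℝ) - N) * B ≤ N * B := by
      refine mul_le_mul_of_nonneg_right ?_ hB0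
      have : (N' : ℝ) ≤ 2 * N := by exact_mod_cast hN2
      linarith
    have h2 : -(1 / 10 ^ 10) * l ^ 3 / (Real.log t) ^ 2 = -(1 / 10 ^ 10 * (l / θ ^ 2)) := by
      rw [← hθl]
      field_simp
    rw [h2]
    set E0 : ℝ := Real.exp (-(1 / 10 ^ 10 * (l / θ ^ 2))) with hE0
    have h3 : (N : ℝ) * B = Real.exp (A + 1) * N * E0 + 2 := by
      have e1 : Real.exp ((A + 1) - 1 / 10 ^ 10 * (l / θ ^ 2)) = Real.exp (A + 1) * E0 := by
        rw [hE0, ← Real.exp_add]
        congr 1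
      have e2 : (N : ℝ) * Real.exp (-l) = 1 := by
        rw [← hNexp, ← Real.exp_add]
        simp
      rw [hB, e1]
      linear_combination 2 * e2
    have h4 : (M : ℝ) ^ 2 ≤ N * E0 := by
      calc (M : ℝ) ^ 2 ≤ D ^ 2 := pow_le_pow_left₀ (by positivity) hM' 2
        _ = Real.exp (0.9 * l) := by
            rw [hD, ← Real.exp_nat_mul]
            congr 1
            push_cast
            ring
        _ ≤ Real.exp (l + -(1 / 10 ^ 10 * (l / θ ^ 2))) := by
            apply Real.exp_le_exp.2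
            have h5 : l / θ ^ 2 ≤ 4 * l := by
              rw [div_le_iff₀ (by positivity)]
              have : 1 / 4 ≤ θ ^ 2 := by nlinarith
              nlinarith
            linarith
        _ = N * E0 := by rw [Real.exp_add, hNexp]
    have h5 : (1 : ℝ) ≤ (M : ℝ) ^ 2 := one_le_pow₀ (by exact_mod_cast hM1)
    calc ((N' : ℝ) - N) * B + 2 * (M : ℝ) ^ 2 ≤ N * B + 2 * (M : ℝ) ^ 2 := by linarith
      _ = Real.exp (A + 1) * N * E0 + 2 + 2 * (M : ℝ) ^ 2 := by rw [h3]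
      _ ≤ Real.exp (A + 1) * N * E0 + 4 * (N * E0) := by linarith
      _ = (Real.exp (A + 1) + 4) * N * E0 := by ring
  · intro n hn
    rw [mem_Ioc] at hn
    have hn1 : (N : ℝ) ≤ n := by exact_mod_cast hn.1.le
    have hn2 : (n : ℝ) ≤ 2 * N := by exact_mod_cast hn.2.trans hN2
    have hu1 : Real.exp l ≤ (n : ℝ) + a := by rw [hNexp]; linarith
    have hu2 : (n : ℝ) + a ≤ Real.exp (l + 2) := by
      rw [Real.exp_add, hNexp]
      have h3 : (3 : ℝ) ≤ Real.exp 2 := by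
        have := Real.add_one_le_exp (2 : ℝ)
        linarith
      nlinarith
    have hin := inner_bound A hA M l θ t ((n : ℝ) + a) hθ hl10 htexp hu1 hu2 hM1 hM hM'
    refine le_trans (le_of_eq ?_) hin
    congr 1
    refine sum_congr rfl fun x _ => sum_congr rfl fun y _ => ?_
    congr 2
    push_cast
    ring_nf

theorem exists_VKSum : ∃ C c : ℝ, 0 < C ∧ 0 < c ∧ VKSum C c := by
  obtain ⟨A, hA⟩ := vmvt 20
  refine ⟨Real.exp (A + 1) + 4, 1 / 10 ^ 10, by positivity, by norm_num, ?_⟩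
  intro t ht a ha0 ha1 N hN hNt N' hNN hN2
  have hN0 : (0 : ℝ) < N := by exact_mod_cast hN
  have hsum : ∑ n ∈ Ioc N N', (((n : ℝ) + a : ℝ) : ℂ) ^ (Complex.I * (t : ℂ))
      = ∑ n ∈ Ioc N N', EI (t * Real.log ((n : ℝ) + a)) := by
    refine sum_congr rfl fun n hn => ?_
    rw [mem_Ioc] at hn
    have hn1 : (0 : ℝ) < n := by exact_mod_cast (by omega : 0 < n)
    exact cpow_eq_EI _ _ (by linarith)
  rw [hsum]
  rcases le_or_gt 10 (Real.log N) with hl | hl
  · exact big_range A hA t ht a ha0 ha1 N hN hNt N' hNN hN2 hl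
  · have h1 : ‖∑ n ∈ Ioc N N', EI (t * Real.log ((n : ℝ) + a))‖ ≤ N := by
      refine (norm_sum_le _ _).trans ?_
      simp_rw [norm_EI]
      rw [sum_const, Nat.card_Ioc, nsmul_eq_mul, mul_one]
      exact_mod_cast (by omega : N' - N ≤ N)
    refine h1.trans ?_
    have hlN0 : 0 ≤ Real.log N := Real.log_natCast_nonneg N
    have hlt : 0.69 ≤ Real.log t := by
      have h2 := Real.log_two_gt_d9
      have h3 : Real.log 2 ≤ Real.log t := Real.log_le_log (by norm_num) ht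
      linarith
    have h2 : (Real.log N) ^ 3 / (Real.log t) ^ 2 ≤ 2500 := by
      have h3 : (Real.log N) ^ 3 ≤ 10 ^ 3 := pow_le_pow_left₀ hlN0 hl.le 3
      have h4 : (0.69 : ℝ) ^ 2 ≤ (Real.log t) ^ 2 := pow_le_pow_left₀ (by norm_num) hlt 2
      rw [div_le_iff₀ (by positivity)]
      linarith [show (0.69 : ℝ) ^ 2 = 0.4761 by norm_num]
    have h3 : Real.exp (-1) ≤ Real.exp (-(1 / 10 ^ 10) * (Real.log N) ^ 3 / (Real.log t) ^ 2) := by
      apply Real.exp_le_exp.2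
      have : -(1 / 10 ^ 10) * (Real.log N) ^ 3 / (Real.log t) ^ 2
          = -(1 / 10 ^ 10) * ((Real.log N) ^ 3 / (Real.log t) ^ 2) := by ring
      rw [this]
      linarith
    have h4 : (0.36 : ℝ) ≤ Real.exp (-1) := by
      have := Real.exp_neg_one_gt_d9
      linarith
    have h5 : (1 : ℝ) ≤ (Real.exp (A + 1) + 4)
        * Real.exp (-(1 / 10 ^ 10) * (Real.log N) ^ 3 / (Real.log t) ^ 2) := by
      have : 0 < Real.exp ((A : ℝ) + 1) := Real.exp_pos _
      nlinarith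
    calc (N : ℝ) = N * 1 := (mul_one _).symm
      _ ≤ N * ((Real.exp (A + 1) + 4)
        * Real.exp (-(1 / 10 ^ 10) * (Real.log N) ^ 3 / (Real.log t) ^ 2)) :=
          mul_le_mul_of_nonneg_left h5 hN0.le
      _ = _ := by ring

end Vale.Agent.P026.H517
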