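import Vale.Agent.P026.H517.DkSeries

/-!
# Positivity for the four L-functions (P3 of the Deuring–Heilbronn plan)
-/

namespace Vale.Agent.P026.H517

open Complex Filter Topology Nat

/-- product of two characters, as a character modulo the product of the moduli -/
noncomputable def prodChar {q q₁ : ℕ} (χ : DirichletCharacter ℂ q)
    (χ₁ : DirichletCharacter ℂ q₁) : DirichletCharacter ℂ (q * q₁) :=
  DirichletCharacter.changeLevel (dvd_mul_right q q₁) χ
    * DirichletCharacter.changeLevel (dvd_mul_left q₁ q) χ₁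

lemma changeLevel_natCast {q N : ℕ} (h : q ∣ N) (χ : DirichletCharacter ℂ q) {n : ℕ}
    (hn : Nat.Coprime n N) : DirichletCharacter.changeLevel h χ n = χ n := by
  have hu : IsUnit (n : ZMod N) := (ZMod.isUnit_iff_coprime n N).2 hn
  obtain ⟨u, hu⟩ := hu
  rw [← hu, DirichletCharacter.changeLevel_eq_cast_of_dvd χ h, hu, ZMod.cast_natCast h]

lemma prodChar_apply {q q₁ : ℕ} (χ : DirichletCharacter ℂ q) (χ₁ : DirichletCharacter ℂ q₁)
    (n : ℕ) : prodChar χ χ₁ n = χ n * χ₁ n := by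
  rw [prodChar, MulChar.mul_apply]
  by_cases hn : Nat.Coprime n (q * q₁)
  · rw [changeLevel_natCast _ χ hn, changeLevel_natCast _ χ₁ hn]
  · have h1 : ¬ IsUnit (n : ZMod (q * q₁)) := by
      rwa [ZMod.isUnit_iff_coprime]
    rw [MulChar.map_nonunit _ h1, zero_mul]
    rw [Nat.coprime_mul_iff_right, not_and_or] at hn
    rcases hn with h | h
    · have : ¬ IsUnit (n : ZMod q) := by rwa [ZMod.isUnit_iff_coprime]
      rw [MulChar.map_nonunit _ this, zero_mul]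
    · have : ¬ IsUnit (n : ZMod q₁) := by rwa [ZMod.isUnit_iff_coprime]
      rw [MulChar.map_nonunit _ this, mul_zero]

lemma analyticAt_zeta {s : ℂ} (hs : s ≠ 1) : AnalyticAt ℂ riemannZeta s := by
  have : DifferentiableOn ℂ riemannZeta {1}ᶜ := fun z hz =>
    (differentiableAt_riemannZeta hz).differentiableWithinAt
  exact this.analyticAt (isOpen_compl_singleton.mem_nhds hs)

lemma Dk_zeta_mul (k : ℕ) (hk : 1 ≤ k) {s : ℂ} (hs : 1 < s.re) :
    Dk k (fun z => (z - 1) * riemannZeta z) s = 1 / (s - 1) ^ k + Dk k riemannZeta s := by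
  have hs1 : s ≠ 1 := by
    rintro rfl
    simp at hs
  have h1 : AnalyticAt ℂ (fun z : ℂ => z - 1) s := by fun_prop
  rw [Dk_mul k h1 (analyticAt_zeta hs1) (sub_ne_zero.2 hs1)
    (riemannZeta_ne_zero_of_one_lt_re hs), Dk_sub k hk]

/-- **P3, generic case.** -/
theorem pos_generic {q q₁ : ℕ} [NeZero q] [NeZero q₁] (χ : DirichletCharacter ℂ q)
    (χ₁ : DirichletCharacter ℂ q₁) (hreal : ∀ n : ℕ, ∃ r : ℝ, -1 ≤ r ∧ χ₁ n = r)
    (k : ℕ) (hk : 1 ≤ k) (κ g : ℝ) (hκ : 0 < κ) :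
    (Dk k (fun s => (s - 1) * riemannZeta s) (1 + κ)
      + Dk k (DirichletCharacter.LFunction χ₁) (1 + κ)
      + Dk k (fun s => DirichletCharacter.LFunction χ (s + g * I)) (1 + κ)
      + Dk k (fun s => DirichletCharacter.LFunction (prodChar χ χ₁) (s + g * I)) (1 + κ)).re
      ≤ 1 / κ ^ k := by
  have : NeZero (q * q₁) := ⟨Nat.mul_ne_zero (NeZero.ne q) (NeZero.ne q₁)⟩
  have h := re_Dk_four_nonpos χ χ₁ (prodChar χ χ₁) hreal (prodChar_apply χ χ₁) k κ g hκ
  rw [Dk_zeta_mul k hk (by simp [hκ]), Dk_shift k (DirichletCharacter.LFunction χ),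
    Dk_shift k (DirichletCharacter.LFunction (prodChar χ χ₁))]
  have h2 : (1 / ((1 : ℂ) + κ - 1) ^ k).re = 1 / κ ^ k := by
    have : (1 / ((1 : ℂ) + κ - 1) ^ k) = ((1 / κ ^ k : ℝ) : ℂ) := by
      push_cast
      ring_nf
    rw [this, ofReal_re]
  simp only [add_re] at h ⊢
  rw [h2]
  linarith

/-- **P3, special case** (`χ` trivial or equal to `χ₁`). -/
theorem pos_special {q₁ : ℕ} [NeZero q₁]
    (χ₁ : DirichletCharacter ℂ q₁) (hreal : ∀ n : ℕ, ∃ r : ℝ, -1 ≤ r ∧ χ₁ n = r)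
    (k : ℕ) (hk : 1 ≤ k) (κ g : ℝ) (hκ : 0 < κ) :
    (Dk k (fun s => (s - 1) * riemannZeta s) (1 + κ)
      + Dk k (DirichletCharacter.LFunction χ₁) (1 + κ)
      + Dk k (fun s => (s + g * I - 1) * riemannZeta (s + g * I)) (1 + κ)
      + Dk k (fun s => DirichletCharacter.LFunction χ₁ (s + g * I)) (1 + κ)).re
      ≤ 1 / κ ^ k + (1 / ((κ : ℂ) + g * I) ^ k).re := by
  have h := re_Dk_four_nonpos (1 : DirichletCharacter ℂ 1) χ₁ χ₁ hreal
    (fun n => by
      have h1 : (1 : DirichletCharacter ℂ 1) n = 1 := by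
        rw [Subsingleton.elim ((n : ℕ) : ZMod 1) 1, map_one]
      rw [h1, one_mul]) k κ g hκ
  rw [DirichletCharacter.LFunction_modOne_eq] at h
  have h5 : Dk k (fun s => (s + g * I - 1) * riemannZeta (s + g * I)) (1 + κ)
      = Dk k (fun s => (s - 1) * riemannZeta s) (1 + κ + g * I) :=
    Dk_shift k (fun s => (s - 1) * riemannZeta s) (g * I) (1 + κ)
  rw [h5, Dk_zeta_mul k hk (by simp [hκ]), Dk_zeta_mul k hk (by simp [hκ]),
    Dk_shift k (DirichletCharacter.LFunction χ₁)]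
  have h2 : (1 / ((1 : ℂ) + κ - 1) ^ k).re = 1 / κ ^ k := by
    have : (1 / ((1 : ℂ) + κ - 1) ^ k) = ((1 / κ ^ k : ℝ) : ℂ) := by
      push_cast
      ring_nf
    rw [this, ofReal_re]
  have h3 : (1 / ((1 : ℂ) + κ + g * I - 1) ^ k).re = (1 / ((κ : ℂ) + g * I) ^ k).re := by
    congr 3
    ring
  simp only [add_re] at h ⊢
  rw [h2, h3]
  linarith

/-- real-valuedness from quadraticity -/
lemma real_of_isQuadratic {q₁ : ℕ} (χ₁ : DirichletCharacter ℂ q₁) (h : χ₁.IsQuadratic) :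
    ∀ n : ℕ, ∃ r : ℝ, -1 ≤ r ∧ χ₁ n = r := by
  intro n
  rcases h n with h | h | h
  · exact ⟨0, by norm_num, by rw [h]; simp⟩
  · exact ⟨1, by norm_num, by rw [h]; simp⟩
  · exact ⟨-1, by norm_num, by rw [h]; simp⟩

/-- real-valuedness from `χ₁ ^ 2 = 1` -/
lemma real_of_sq_eq_one {q₁ : ℕ} (χ₁ : DirichletCharacter ℂ q₁) (h : χ₁ ^ 2 = 1) :
    ∀ n : ℕ, ∃ r : ℝ, -1 ≤ r ∧ χ₁ n = r := by
  intro n
  by_cases hn : IsUnit (n : ZMod q₁)
  · have h1 : (χ₁ n) ^ 2 = 1 := by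
      rw [← MulChar.pow_apply' _ (by norm_num), h, MulChar.one_apply hn]
    have h1' : (χ₁ n - 1) * (χ₁ n + 1) = 0 := by linear_combination h1
    rcases mul_eq_zero.1 h1' with h2 | h2
    · exact ⟨1, by norm_num, by rw [sub_eq_zero.1 h2]; simp⟩
    · exact ⟨-1, by norm_num, by rw [eq_neg_of_add_eq_zero_left h2]; simp⟩
  · exact ⟨0, by norm_num, by rw [MulChar.map_nonunit _ hn]; simp⟩

end Vale.Agent.P026.H517
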