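import Vale.Agent.P026.H517.M3d
import Vale.Agent.P026.H392.SieveB

/-!
# The positive part of the Deuring-Heilbronn argument
-/

namespace Vale.Agent.P026.H517

open Finset Vale.Agent.P026.H392

lemma pw_nat_mul {s : ℂ} (hs : s ≠ 0) (m n : ℕ) :
    pw s ((m * n : ℕ) : ℝ) = pw s m * pw s n := by
  have h0 : pw s ((0 : ℕ) : ℝ) = 0 := by
    simp [pw, hs]
  rcases Nat.eq_zero_or_pos m with rfl | hm
  · rw [zero_mul, h0, zero_mul]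
  rcases Nat.eq_zero_or_pos n with rfl | hn
  · rw [mul_zero, h0, mul_zero]
  push_cast
  exact pw_mul (by exact_mod_cast hm) (by exact_mod_cast hn)

/-- sieve sum at the exceptional zero -/
theorem pos_sum {q : ℕ} [NeZero q] {χ : DirichletCharacter ℂ q} (hχ : χ ≠ 1)
    (hχ2 : χ ^ 2 = 1) {δ : ℝ} (hδ0 : 0 < δ) (hδ : δ ≤ 1 / 8)
    (hz : DirichletCharacter.LFunction χ ((1 - δ : ℝ) : ℂ) = 0)
    {N : ℕ} (hN : 1 ≤ N) {w : ℕ → ℝ} (hw : ∀ d, |w d| ≤ 1)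
    (hws : ∀ d, w d ≠ 0 → Squarefree d ∧ d ≤ N) {Y₀ X : ℝ} (hY : 1 ≤ Y₀)
    (hX : (N : ℝ) ^ 4 * Y₀ ≤ X) :
    |∑ n ∈ Icc 1 ⌊X⌋₊, (∑ d ∈ n.divisors, w d) ^ 2 * ((n : ℝ) ^ (δ - 1) * fE (rchar χ) n)
      - (DirichletCharacter.LFunction χ 1).re / δ * X ^ δ
        * ∑ d ∈ Icc 1 N, ∑ e ∈ Icc 1 N, w d * w e * nuE (rchar χ) (Nat.lcm d e)|
      ≤ 218 * q * Y₀ ^ (-(1 / 8) : ℝ) * (N : ℝ) ^ (2 * δ) * (1 + 2 * Real.log N) ^ 16 := by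
  have hs0 : ((1 - δ : ℝ) : ℂ) ≠ 0 := by
    have : (1 - δ : ℝ) ≠ 0 := by linarith
    exact_mod_cast this
  have hN1 : (1 : ℝ) ≤ N := by exact_mod_cast hN
  have hX1 : 1 ≤ X := by
    refine le_trans ?_ hX
    have : 1 ≤ (N : ℝ) ^ 4 := one_le_pow₀ hN1
    nlinarith
  have hX0 : 0 < X := by linarith
  have hpos : ∀ n : ℕ, 1 ≤ n → ‖pw ((1 - δ : ℝ) : ℂ) n‖ ≤ (n : ℝ) ^ (-(1 - δ)) := by
    intro n hn
    rw [norm_pw (by exact_mod_cast hn), Complex.ofReal_re]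
  have h := sieve_sum (u := fun a : ℕ => pw ((1 - δ : ℝ) : ℂ) a)
    (v := fun b : ℕ => χ (b : ZMod q) * pw ((1 - δ : ℝ) : ℂ) b)
    (fun m n => pw_nat_mul hs0 m n)
    (fun m n => by
      rw [pw_nat_mul hs0 m n, Nat.cast_mul, map_mul]
      ring)
    (x := rchar χ) (rchar_one χ) (rchar_mul hχ2) hN hw hws (s := ((1 - δ : ℝ) : ℂ))
    (c := DirichletCharacter.LFunction χ 1 / δ) (δ := δ)
    (E := 218 * q * Y₀ ^ (-(1 / 8) : ℝ)) (Y₀ := Y₀) (X := X) hδ0.le (by linarith) hpos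
    (fun n hn => by
      rw [norm_mul]
      calc ‖χ (n : ZMod q)‖ * ‖pw ((1 - δ : ℝ) : ℂ) n‖ ≤ 1 * ‖pw ((1 - δ : ℝ) : ℂ) n‖ :=
            mul_le_mul_of_nonneg_right (χ.norm_le_one _) (norm_nonneg _)
        _ ≤ (n : ℝ) ^ (-(1 - δ)) := by rw [one_mul]; exact hpos n hn)
    (Or.inr fun n _ => ⟨rfl, by rw [char_real hχ2 n]⟩)
    (by positivity) hY
    (fun y hy1 _ => by
      have h1 := conv_beta hχ hδ0 hδ hz (y := y) (hY.trans hy1)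
      have hy0 : 0 < y := by linarith
      have e1 : pw (((1 - δ : ℝ) : ℂ) - 1) y = ((y ^ δ : ℝ) : ℂ) := by
        have : ((1 - δ : ℝ) : ℂ) - 1 = ((-δ : ℝ) : ℂ) := by push_cast; ring
        rw [this, pw_real _ hy0.le, neg_neg]
      rw [e1]
      refine h1.trans ?_
      refine mul_le_mul_of_nonneg_left ?_ (by positivity)
      exact Real.rpow_le_rpow_of_nonpos (by linarith) hy1 (by norm_num))
    hX
  have e1 : pw (((1 - δ : ℝ) : ℂ) - 1) X = ((X ^ δ : ℝ) : ℂ) := by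
    have : ((1 - δ : ℝ) : ℂ) - 1 = ((-δ : ℝ) : ℂ) := by push_cast; ring
    rw [this, pw_real _ hX0.le, neg_neg]
  rw [e1] at h
  refine le_trans ?_ h
  refine le_trans (le_of_eq ?_) (Complex.abs_re_le_norm _)
  congr 1
  rw [Complex.sub_re, Complex.re_mul_ofReal, Complex.re_mul_ofReal, Complex.div_ofReal_re]
  congr 1
  rw [Complex.re_sum]
  refine sum_congr rfl fun n hn => ?_
  rw [mem_Icc] at hn
  have hn0 : (0 : ℝ) < n := by exact_mod_cast hn.1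
  have e2 : ∑ d ∈ n.divisors, pw ((1 - δ : ℝ) : ℂ) (d : ℝ)
      * (χ ((n / d : ℕ) : ZMod q) * pw ((1 - δ : ℝ) : ℂ) ((n / d : ℕ) : ℝ))
      = (((n : ℝ) ^ (δ - 1) * fE (rchar χ) n : ℝ) : ℂ) := by
    rw [fE, ← Nat.sum_div_divisors n (rchar χ), mul_sum, Complex.ofReal_sum]
    refine sum_congr rfl fun d hd => ?_
    have hdn := Nat.dvd_of_mem_divisors hd
    have hd0 : 0 < d := Nat.pos_of_dvd_of_pos hdn (by omega)
    have hdr : (0 : ℝ) < d := by exact_mod_cast hd0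
    have hnd : 0 < n / d := Nat.div_pos (Nat.le_of_dvd (by omega) hdn) hd0
    have hndr : (0 : ℝ) < ((n / d : ℕ) : ℝ) := by exact_mod_cast hnd
    have e1 : (n : ℝ) ^ (δ - 1) = (d : ℝ) ^ (δ - 1) * ((n / d : ℕ) : ℝ) ^ (δ - 1) := by
      rw [← Real.mul_rpow hdr.le hndr.le, ← Nat.cast_mul, Nat.mul_div_cancel' hdn]
    rw [pw_real' δ hdr.le, pw_real' δ hndr.le, char_real hχ2 (n / d), e1]
    push_cast
    ring
  rw [e2, ← Complex.ofReal_mul, Complex.ofReal_re]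

/-- The positive part. -/
theorem pos_part {q : ℕ} [NeZero q] {χ : DirichletCharacter ℂ q} (hχ : χ ≠ 1)
    (hχ2 : χ ^ 2 = 1) {δ : ℝ} (hδ0 : 0 < δ) (hδ : δ ≤ 1 / 8)
    (hz : DirichletCharacter.LFunction χ ((1 - δ : ℝ) : ℂ) = 0)
    {N : ℕ} (hN : 1 ≤ N) {w : ℕ → ℝ} (hw1 : w 1 = 1) (hw : ∀ d, |w d| ≤ 1)
    (hws : ∀ d, w d ≠ 0 → Squarefree d ∧ d ≤ N)
    (hG : ∑ d ∈ Icc 1 N, ∑ e ∈ Icc 1 N, w d * w e * nuE (rchar χ) (Nat.lcm d e)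
      = 1 / GS (nuE (rchar χ)) N)
    {Y₀ X : ℝ} (hY : 1 ≤ Y₀) (hX : (N : ℝ) ^ 4 * Y₀ ≤ X)
    (hN2 : 218 * 872 * (q : ℝ) ^ 2 * (N : ℝ) ^ (-(1 / 8) : ℝ) ≤ 1 / 2) :
    ∑ n ∈ Icc 2 ⌊X⌋₊, (∑ d ∈ n.divisors, w d) ^ 2 * ((n : ℝ) ^ (δ - 1) * fE (rchar χ) n)
      ≤ (X ^ δ - 1) + X ^ δ * (2 * (218 * 872 * (q : ℝ) ^ 2 * (N : ℝ) ^ (-(1 / 8) : ℝ)))
        + 218 * q * Y₀ ^ (-(1 / 8) : ℝ) * (N : ℝ) ^ (2 * δ) * (1 + 2 * Real.log N) ^ 16 := by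
  have hq1 : (1 : ℝ) ≤ q := by exact_mod_cast Nat.pos_of_ne_zero (NeZero.ne q)
  have hN1 : (1 : ℝ) ≤ N := by exact_mod_cast hN
  have hX1 : 1 ≤ X := by
    refine le_trans ?_ hX
    have : 1 ≤ (N : ℝ) ^ 4 := one_le_pow₀ hN1
    nlinarith
  have hX0 : 0 < X := by linarith
  have hXδ : 0 < X ^ δ := Real.rpow_pos_of_pos hX0 δ
  have h1 := (abs_le.1 (pos_sum hχ hχ2 hδ0 hδ hz hN hw hws hY hX)).2
  rw [hG] at h1
  set LAM := (DirichletCharacter.LFunction χ 1).re / δ with hLAM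
  set G := GS (nuE (rchar χ)) N with hGdef
  set κ := 218 * 872 * (q : ℝ) ^ 2 * (N : ℝ) ^ (-(1 / 8) : ℝ) with hκ
  have hκ0 : 0 ≤ κ := by positivity
  -- lower bound for LAM
  have hL := LAM_lower hχ hχ2 hδ0 hδ hz
  rw [← hLAM] at hL
  have hpow : (436 * (q : ℝ)) ^ (8 * δ) ≤ 436 * q := by
    calc (436 * (q : ℝ)) ^ (8 * δ) ≤ (436 * (q : ℝ)) ^ (1 : ℝ) :=
          Real.rpow_le_rpow_of_exponent_le (by linarith) (by linarith)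
      _ = 436 * q := Real.rpow_one _
  have hpow0 : 0 < (436 * (q : ℝ)) ^ (8 * δ) := Real.rpow_pos_of_pos (by linarith) _
  have hLAM0 : 0 < LAM := by
    by_contra hneg
    push Not at hneg
    have : LAM * (436 * (q : ℝ)) ^ (8 * δ) ≤ 0 :=
      mul_nonpos_of_nonpos_of_nonneg hneg hpow0.le
    linarith
  have hLAM1 : 1 ≤ LAM * (872 * q) := by
    have : LAM * (436 * (q : ℝ)) ^ (8 * δ) ≤ LAM * (436 * q) :=
      mul_le_mul_of_nonneg_left hpow hLAM0.le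
    linarith
  -- lower bound for G
  have hGl := GS_lower hχ hχ2 hδ0 hδ hz hN1
  rw [Nat.floor_natCast, ← hLAM, ← hGdef] at hGl
  have hη : 218 * (q : ℝ) * (N : ℝ) ^ (-(1 / 8) : ℝ) ≤ LAM * κ := by
    have h2 : 218 * (q : ℝ) * (N : ℝ) ^ (-(1 / 8) : ℝ) * 1
        ≤ 218 * (q : ℝ) * (N : ℝ) ^ (-(1 / 8) : ℝ) * (LAM * (872 * q)) :=
      mul_le_mul_of_nonneg_left hLAM1 (by positivity)
    rw [hκ]
    linarith
  have hG1 : LAM * (1 - κ) ≤ G := by linarith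
  have hG0 : 0 < G := lt_of_lt_of_le (mul_pos hLAM0 (by linarith)) hG1
  have hratio : LAM * (1 / G) ≤ 1 + 2 * κ := by
    rw [mul_one_div, div_le_iff₀ hG0]
    have h2 : (1 + 2 * κ) * (LAM * (1 - κ)) ≤ (1 + 2 * κ) * G :=
      mul_le_mul_of_nonneg_left hG1 (by linarith)
    have h3 : LAM ≤ (1 + 2 * κ) * (LAM * (1 - κ)) := by
      have : 0 ≤ LAM * (κ * (1 - 2 * κ)) := by
        have : 0 ≤ 1 - 2 * κ := by linarith
        positivity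
      linarith
    linarith
  have h2 : LAM * X ^ δ * (1 / G) ≤ X ^ δ * (1 + 2 * κ) := by
    calc LAM * X ^ δ * (1 / G) = X ^ δ * (LAM * (1 / G)) := by ring
      _ ≤ X ^ δ * (1 + 2 * κ) := mul_le_mul_of_nonneg_left hratio hXδ.le
  -- split off `n = 1`
  have hsplit : Icc 1 ⌊X⌋₊ = insert 1 (Icc 2 ⌊X⌋₊) := by
    have : 1 ≤ ⌊X⌋₊ := (Nat.one_le_floor_iff _).2 hX1
    ext n
    simp only [mem_Icc, mem_insert]
    omega
  have hnot : 1 ∉ Icc 2 ⌊X⌋₊ := by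
    rw [mem_Icc]
    omega
  rw [hsplit, sum_insert hnot] at h1
  have e1 : (∑ d ∈ Nat.divisors 1, w d) ^ 2 * (((1 : ℕ) : ℝ) ^ (δ - 1) * fE (rchar χ) 1) = 1 := by
    rw [fE_one (rchar_one χ), Nat.divisors_one, sum_singleton, hw1]
    simp
  rw [e1] at h1
  linarith

end Vale.Agent.P026.H517
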