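import Mathlib

/-!
# Counting solutions: finite Fourier analysis and elementary lemmas
-/

namespace Vale.Agent.P026.H517

open Finset

/-- tuples with entries in `X` -/
abbrev Tup (n : ℕ) (X : Finset ℕ) : Finset (Fin n → ℕ) := Fintype.piFinset fun _ => X

/-- The number of solutions of the Vinogradov system of degree `k` with `m` variables on each
side, all in `X`. -/
def J (k m : ℕ) (X : Finset ℕ) : ℕ :=
  ((Tup m X ×ˢ Tup m X).filter fun z =>
    ∀ j ∈ Icc 1 k, ∑ i, z.1 i ^ j = ∑ i, z.2 i ^ j).card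

/-! ### shifted count -/

lemma card_pairs_eq {ι G : Type*} [DecidableEq G] (A : Finset ι) (Φ : ι → G) :
    ((A ×ˢ A).filter fun z => Φ z.1 = Φ z.2).card
      = ∑ g ∈ A.image Φ, (A.filter fun a => Φ a = g).card ^ 2 := by
  classical
  have h1 : ((A ×ˢ A).filter fun z => Φ z.1 = Φ z.2).card
      = ∑ a ∈ A, (A.filter fun b => Φ a = Φ b).card := by
    rw [card_filter, sum_product]
    refine sum_congr rfl fun a _ => ?_
    rw [card_filter]
  rw [h1, ← sum_fiberwise_of_maps_to (t := A.image Φ) (g := Φ)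
    (fun a ha => mem_image_of_mem Φ ha)]
  refine sum_congr rfl fun g _ => ?_
  rw [sq, ← smul_eq_mul, ← sum_const]
  refine sum_congr rfl fun a ha => ?_
  rw [mem_filter] at ha
  rw [ha.2]
  congr 1
  ext b
  simp only [mem_filter, and_congr_right_iff]
  intro _
  exact eq_comm

lemma card_shift_le {ι G : Type*} [DecidableEq G] [AddCommGroup G] (A : Finset ι) (Φ : ι → G)
    (h : G) :
    ((A ×ˢ A).filter fun z => Φ z.1 + h = Φ z.2).card
      ≤ ((A ×ˢ A).filter fun z => Φ z.1 = Φ z.2).card := by
  classical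
  set r : G → ℕ := fun g => (A.filter fun a => Φ a = g).card with hr
  have h1 : ((A ×ˢ A).filter fun z => Φ z.1 + h = Φ z.2).card
      = ∑ g ∈ A.image Φ, r g * r (g + h) := by
    have : ((A ×ˢ A).filter fun z => Φ z.1 + h = Φ z.2).card
        = ∑ a ∈ A, (A.filter fun b => Φ a + h = Φ b).card := by
      rw [card_filter, sum_product]
      refine sum_congr rfl fun a _ => ?_
      rw [card_filter]
    rw [this, ← sum_fiberwise_of_maps_to (t := A.image Φ) (g := Φ)
      (fun a ha => mem_image_of_mem Φ ha)]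
    refine sum_congr rfl fun g _ => ?_
    rw [hr, ← smul_eq_mul, ← sum_const]
    refine sum_congr rfl fun a ha => ?_
    rw [mem_filter] at ha
    rw [ha.2]
    congr 1
    ext b
    simp only [mem_filter, and_congr_right_iff]
    intro _
    exact eq_comm
  rw [h1, card_pairs_eq]
  change _ ≤ ∑ g ∈ A.image Φ, r g ^ 2
  have h2 : ∑ g ∈ A.image Φ, r (g + h) ^ 2 ≤ ∑ g ∈ A.image Φ, r g ^ 2 := by
    calc ∑ g ∈ A.image Φ, r (g + h) ^ 2
        = ∑ g ∈ (A.image Φ).image (fun g => g + h), r g ^ 2 := by
          refine (sum_image (s := A.image Φ) (g := fun g => g + h) (f := fun g => r g ^ 2)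
            ?_).symm
          intro a _ b _ hab
          exact add_right_cancel hab
      _ = ∑ g ∈ ((A.image Φ).image (fun g => g + h)).filter (fun g => g ∈ A.image Φ), r g ^ 2 := by
          rw [sum_filter_of_ne]
          intro g _ hne
          by_contra hg
          apply hne
          have : r g = 0 := by
            rw [hr]
            simp only [card_eq_zero]
            rw [filter_eq_empty_iff]
            intro a ha hag
            exact hg (mem_image.2 ⟨a, ha, hag⟩)
          rw [this]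
          rfl
      _ ≤ ∑ g ∈ A.image Φ, r g ^ 2 := by
          refine sum_le_sum_of_subset ?_
          intro g hg
          exact (mem_filter.1 hg).2
  have h3 : 2 * ∑ g ∈ A.image Φ, r g * r (g + h)
      ≤ ∑ g ∈ A.image Φ, r g ^ 2 + ∑ g ∈ A.image Φ, r (g + h) ^ 2 := by
    rw [mul_sum, ← sum_add_distrib]
    refine sum_le_sum fun g _ => ?_
    nlinarith [sq_nonneg ((r g : ℤ) - r (g + h)), two_mul_le_add_sq (r g) (r (g + h))]
  omega

/-! ### translation invariance -/

lemma psum_translate {ι : Type*} [Fintype ι] (k : ℕ) (x y : ι → ℤ) (c : ℤ)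
    (h : ∀ j ∈ Icc 1 k, ∑ i, x i ^ j = ∑ i, y i ^ j) :
    ∀ j ∈ Icc 1 k, ∑ i, (x i + c) ^ j = ∑ i, (y i + c) ^ j := by
  intro j hj
  rw [mem_Icc] at hj
  have key : ∀ z : ι → ℤ, ∑ i, (z i + c) ^ j
      = ∑ l ∈ range (j + 1), (∑ i, z i ^ l) * (c ^ (j - l) * (j.choose l)) := by
    intro z
    simp_rw [add_pow]
    rw [sum_comm]
    refine sum_congr rfl fun l _ => ?_
    rw [sum_mul]
    refine sum_congr rfl fun i _ => ?_
    ring
  rw [key x, key y]
  refine sum_congr rfl fun l hl => ?_
  rcases Nat.eq_zero_or_pos l with rfl | hpos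
  · simp
  · rw [h l (mem_Icc.2 ⟨hpos, by have := mem_range.1 hl; omega⟩)]

end Vale.Agent.P026.H517
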