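import Mathlib

/-!
# Dirichlet series of the higher derivatives of `-L'/L`, and positivity
-/

namespace Vale.Agent.P026.H517

open Complex Filter Topology Nat ArithmeticFunction LSeries

/-- normalised higher derivatives of the logarithmic derivative -/
noncomputable def Dk (k : ℕ) (G : ℂ → ℂ) (s₀ : ℂ) : ℂ :=
  (-1) ^ (k - 1) / ((k - 1)! : ℂ) * iteratedDeriv (k - 1) (logDeriv G) s₀

lemma Dk_congr_logDeriv {k : ℕ} {G H : ℂ → ℂ} {s₀ : ℂ}
    (h : logDeriv G =ᶠ[𝓝 s₀] logDeriv H) : Dk k G s₀ = Dk k H s₀ := by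
  rw [Dk, Dk, (h.iteratedDeriv (k - 1)).eq_of_nhds]

lemma Dk_congr {k : ℕ} {G H : ℂ → ℂ} {s₀ : ℂ} (h : G =ᶠ[𝓝 s₀] H) : Dk k G s₀ = Dk k H s₀ := by
  refine Dk_congr_logDeriv ?_
  have h1 := h.deriv
  filter_upwards [h, h1] with z hz hz1
  rw [logDeriv_apply, logDeriv_apply, hz, hz1]

lemma Dk_shift (k : ℕ) (G : ℂ → ℂ) (c s₀ : ℂ) :
    Dk k (fun s => G (s + c)) s₀ = Dk k G (s₀ + c) := by
  have h : logDeriv (fun s => G (s + c)) = fun s => logDeriv G (s + c) := by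
    funext s
    rw [logDeriv_apply, logDeriv_apply, deriv_comp_add_const]
  rw [Dk, Dk, h, iteratedDeriv_comp_add_const]

lemma iteratedDeriv_inv_sub (m : ℕ) (r s₀ : ℂ) :
    iteratedDeriv m (fun s => (s - r)⁻¹) s₀ = (-1) ^ m * (m ! : ℂ) / (s₀ - r) ^ (m + 1) := by
  have h := iter_deriv_inv_linear_sub m (1 : ℂ) r
  simp only [one_mul, one_pow, mul_one] at h
  rw [iteratedDeriv_eq_iterate, h]
  simp only
  rw [show (-1 - m : ℤ) = -((m + 1 : ℕ) : ℤ) by push_cast; ring, zpow_neg, zpow_natCast,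
    div_eq_mul_inv]

lemma Dk_sub (k : ℕ) (hk : 1 ≤ k) (r s₀ : ℂ) : Dk k (fun s => s - r) s₀ = 1 / (s₀ - r) ^ k := by
  have h : logDeriv (fun s : ℂ => s - r) = fun s => (s - r)⁻¹ := by
    funext s
    rw [logDeriv_apply, deriv_sub_const, deriv_id'', one_div]
  rw [Dk, h, iteratedDeriv_inv_sub, Nat.sub_add_cancel hk]
  have h2 : ((k - 1)! : ℂ) ≠ 0 := by exact_mod_cast (Nat.factorial_pos (k - 1)).ne'
  have h3 : ((-1 : ℂ) ^ (k - 1)) * (-1) ^ (k - 1) = 1 := by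
    rw [← pow_add, ← two_mul, pow_mul]
    norm_num
  calc (-1 : ℂ) ^ (k - 1) / ((k - 1)! : ℂ) * ((-1) ^ (k - 1) * ((k - 1)! : ℂ) / (s₀ - r) ^ k)
      = ((-1 : ℂ) ^ (k - 1) * (-1) ^ (k - 1)) * (((k - 1)! : ℂ) / ((k - 1)! : ℂ))
        / (s₀ - r) ^ k := by ring
    _ = 1 / (s₀ - r) ^ k := by rw [h3, div_self h2, one_mul]

lemma Dk_mul (k : ℕ) {G H : ℂ → ℂ} {s₀ : ℂ} (hG : AnalyticAt ℂ G s₀) (hH : AnalyticAt ℂ H s₀)
    (hG0 : G s₀ ≠ 0) (hH0 : H s₀ ≠ 0) :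
    Dk k (fun s => G s * H s) s₀ = Dk k G s₀ + Dk k H s₀ := by
  have h : logDeriv (fun s => G s * H s) =ᶠ[𝓝 s₀] fun s => logDeriv G s + logDeriv H s := by
    filter_upwards [hG.eventually_analyticAt, hH.eventually_analyticAt,
      hG.continuousAt.eventually_ne hG0, hH.continuousAt.eventually_ne hH0] with z h1 h2 h3 h4
    exact logDeriv_mul z h3 h4 h1.differentiableAt h2.differentiableAt
  have hGl : AnalyticAt ℂ (logDeriv G) s₀ := by
    have : logDeriv G = fun s => deriv G s / G s := by funext s; rw [logDeriv_apply]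
    rw [this]
    exact hG.deriv.div hG hG0
  have hHl : AnalyticAt ℂ (logDeriv H) s₀ := by
    have : logDeriv H = fun s => deriv H s / H s := by funext s; rw [logDeriv_apply]
    rw [this]
    exact hH.deriv.div hH hH0
  rw [Dk, (h.iteratedDeriv (k - 1)).eq_of_nhds, iteratedDeriv_fun_add hGl.contDiffAt
    hHl.contDiffAt, Dk, Dk]
  ring

/-- twisted von Mangoldt function -/
noncomputable def tw {q : ℕ} (χ : DirichletCharacter ℂ q) : ℕ → ℂ :=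
  (fun n : ℕ => (χ n : ℂ)) * (fun n : ℕ => ((Λ n : ℝ) : ℂ))

lemma tw_apply {q : ℕ} (χ : DirichletCharacter ℂ q) (n : ℕ) : tw χ n = χ n * Λ n := rfl

lemma abscissa_tw {q : ℕ} (χ : DirichletCharacter ℂ q) : abscissaOfAbsConv (tw χ) ≤ 1 := by
  refine abscissaOfAbsConv_le_of_forall_lt_LSeriesSummable' fun s hs => ?_
  have : 1 < ((s : ℂ)).re := by
    rw [ofReal_re]
    exact_mod_cast hs
  exact DirichletCharacter.LSeriesSummable_twist_vonMangoldt χ this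

lemma logMul_iter (f : ℕ → ℂ) (m n : ℕ) : (logMul^[m] f) n = (Complex.log n) ^ m * f n := by
  induction m with
  | zero => simp
  | succ m ih =>
    rw [Function.iterate_succ', Function.comp_apply, logMul, ih]
    ring

lemma abscissa_lt {q : ℕ} (χ : DirichletCharacter ℂ q) {s : ℂ} (hs : 1 < s.re) :
    abscissaOfAbsConv (tw χ) < s.re := by
  refine lt_of_le_of_lt (abscissa_tw χ) ?_
  exact_mod_cast hs

lemma logDeriv_LFunction_eq {q : ℕ} [NeZero q] (χ : DirichletCharacter ℂ q) {s : ℂ}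
    (hs : 1 < s.re) : logDeriv (DirichletCharacter.LFunction χ) s = -LSeries (tw χ) s := by
  rw [logDeriv_apply, DirichletCharacter.deriv_LFunction_eq_deriv_LSeries χ hs,
    DirichletCharacter.LFunction_eq_LSeries χ hs]
  have h := DirichletCharacter.LSeries_twist_vonMangoldt_eq χ hs
  have h2 : LSeries (tw χ) s = -deriv (LSeries (fun n : ℕ => (χ n : ℂ))) s /
      LSeries (fun n : ℕ => (χ n : ℂ)) s := h
  rw [h2]
  ring

lemma Dk_LFunction {q : ℕ} [NeZero q] (χ : DirichletCharacter ℂ q) (k : ℕ) {s : ℂ}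
    (hs : 1 < s.re) : Dk k (DirichletCharacter.LFunction χ) s
      = -(1 / ((k - 1)! : ℂ) * LSeries (logMul^[k - 1] (tw χ)) s) := by
  have h : logDeriv (DirichletCharacter.LFunction χ) =ᶠ[𝓝 s] fun z => -LSeries (tw χ) z := by
    have hmem : {z : ℂ | 1 < z.re} ∈ 𝓝 s :=
      (isOpen_lt continuous_const continuous_re).mem_nhds hs
    filter_upwards [hmem] with z hz
    exact logDeriv_LFunction_eq χ hz
  rw [Dk, (h.iteratedDeriv (k - 1)).eq_of_nhds, iteratedDeriv_fun_neg,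
    LSeries_iteratedDeriv (k - 1) (abscissa_lt χ hs)]
  have h3 : ((-1 : ℂ) ^ (k - 1)) * (-1) ^ (k - 1) = 1 := by
    rw [← pow_add, ← two_mul, pow_mul]
    norm_num
  calc (-1 : ℂ) ^ (k - 1) / ((k - 1)! : ℂ) *
        -((-1) ^ (k - 1) * LSeries (logMul^[k - 1] (tw χ)) s)
      = -(((-1 : ℂ) ^ (k - 1) * (-1) ^ (k - 1)) / ((k - 1)! : ℂ) *
        LSeries (logMul^[k - 1] (tw χ)) s) := by ring
    _ = _ := by rw [h3]

lemma summable_logMul_tw {q : ℕ} (χ : DirichletCharacter ℂ q) (m : ℕ) {s : ℂ} (hs : 1 < s.re) :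
    Summable (fun n => LSeries.term (logMul^[m] (tw χ)) s n) := by
  have h : abscissaOfAbsConv (logMul^[m] (tw χ)) < s.re := by
    rw [absicssaOfAbsConv_logPowMul]
    exact abscissa_lt χ hs
  exact LSeriesSummable_of_abscissaOfAbsConv_lt_re h

/-- the nonnegative weight -/
noncomputable def wt (m : ℕ) (κ : ℝ) (n : ℕ) : ℝ :=
  (Real.log n) ^ m * Λ n * (n : ℝ) ^ (-(1 + κ))

lemma wt_nonneg (m : ℕ) (κ : ℝ) (n : ℕ) : 0 ≤ wt m κ n := by
  rw [wt]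
  have h1 : 0 ≤ Real.log n := Real.log_natCast_nonneg n
  have h2 : 0 ≤ Λ n := vonMangoldt_nonneg
  positivity

lemma term_eq {q : ℕ} (χ : DirichletCharacter ℂ q) (m : ℕ) (κ g : ℝ) (n : ℕ) :
    LSeries.term (logMul^[m] (tw χ)) ((1 : ℂ) + κ + g * I) n
      = (wt m κ n : ℂ) * (χ n * (n : ℂ) ^ (-(g * I) : ℂ)) := by
  rcases Nat.eq_zero_or_pos n with rfl | hn
  · simp [wt]
  · have hn0 : (n : ℂ) ≠ 0 := by exact_mod_cast hn.ne'
    rw [LSeries.term_of_ne_zero hn.ne', logMul_iter, tw_apply, wt, div_eq_mul_inv,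
      ← cpow_neg]
    have h1 : Complex.log n = (Real.log n : ℂ) := by
      rw [← Complex.ofReal_natCast, Complex.ofReal_log (Nat.cast_nonneg n)]
    have h2 : (n : ℂ) ^ (-((1 : ℂ) + κ + g * I))
        = ((n : ℝ) ^ (-(1 + κ)) : ℝ) * (n : ℂ) ^ (-(g * I) : ℂ) := by
      rw [Complex.ofReal_cpow (Nat.cast_nonneg n), ← Complex.ofReal_natCast, ← Complex.cpow_add _ _ (by exact_mod_cast hn0)]
      congr 1
      push_cast
      ring
    rw [h1, h2]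
    push_cast
    ring

/-- the Dirichlet series attached to `Dk` -/
lemma Dk_LFunction_eq {q : ℕ} [NeZero q] (χ : DirichletCharacter ℂ q) (k : ℕ) (κ g : ℝ)
    (hκ : 0 < κ) : Dk k (DirichletCharacter.LFunction χ) ((1 : ℂ) + κ + g * I)
      = -(1 / ((k - 1)! : ℂ) * ∑' n : ℕ, (wt (k - 1) κ n : ℂ) * (χ n * (n : ℂ) ^ (-(g * I) : ℂ))) := by
  have hs : 1 < ((1 : ℂ) + κ + g * I).re := by simp [hκ]
  rw [Dk_LFunction χ k hs, LSeries]
  simp_rw [term_eq]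

lemma summable_wt {q : ℕ} (χ : DirichletCharacter ℂ q) (m : ℕ) (κ g : ℝ) (hκ : 0 < κ) :
    Summable fun n : ℕ => (wt m κ n : ℂ) * (χ n * (n : ℂ) ^ (-(g * I) : ℂ)) := by
  have hs : 1 < ((1 : ℂ) + κ + g * I).re := by simp [hκ]
  have h := summable_logMul_tw χ m hs
  simp_rw [term_eq] at h
  exact h

lemma norm_twist_le {q : ℕ} (χ : DirichletCharacter ℂ q) (g : ℝ) {n : ℕ} (hn : 0 < n) :
    ‖χ n * (n : ℂ) ^ (-(g * I) : ℂ)‖ ≤ 1 := by
  rw [norm_mul, Complex.norm_natCast_cpow_of_pos hn]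
  have : (-(g * I) : ℂ).re = 0 := by simp
  rw [this, Real.rpow_zero, mul_one]
  exact χ.norm_le_one _

lemma one_add_mul_re_nonneg (r : ℝ) (hr : -1 ≤ r) (z : ℂ) (hz : ‖z‖ ≤ 1) :
    0 ≤ ((1 + (r : ℂ)) * (1 + z)).re := by
  have h1 : (1 + (r : ℂ)) = ((1 + r : ℝ) : ℂ) := by push_cast; ring
  rw [h1, Complex.re_ofReal_mul]
  have h2 : -1 ≤ z.re := by
    have := (abs_le.1 ((Complex.abs_re_le_norm z).trans hz)).1
    exact this
  simp only [add_re, one_re]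
  exact mul_nonneg (by linarith) (by linarith)

/-- Positivity: the general form. `χ₂` is the pointwise product of `χ` and `χ₁`. -/
theorem re_Dk_four_nonpos {q q₁ q₂ : ℕ} [NeZero q] [NeZero q₁] [NeZero q₂]
    (χ : DirichletCharacter ℂ q) (χ₁ : DirichletCharacter ℂ q₁) (χ₂ : DirichletCharacter ℂ q₂)
    (hreal : ∀ n : ℕ, ∃ r : ℝ, -1 ≤ r ∧ χ₁ n = r) (hprod : ∀ n : ℕ, χ₂ n = χ n * χ₁ n)
    (k : ℕ) (κ g : ℝ) (hκ : 0 < κ) :
    (Dk k riemannZeta (1 + κ) + Dk k (DirichletCharacter.LFunction χ₁) (1 + κ)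
      + Dk k (DirichletCharacter.LFunction χ) (1 + κ + g * I)
      + Dk k (DirichletCharacter.LFunction χ₂) (1 + κ + g * I)).re ≤ 0 := by
  have hz : riemannZeta = DirichletCharacter.LFunction (1 : DirichletCharacter ℂ 1) :=
    DirichletCharacter.LFunction_modOne_eq.symm
  have e0 : ((1 : ℂ) + κ) = (1 : ℂ) + κ + (0 : ℝ) * I := by simp
  have h1 := Dk_LFunction_eq (1 : DirichletCharacter ℂ 1) k κ 0 hκ
  have h2 := Dk_LFunction_eq χ₁ k κ 0 hκ
  have h3 := Dk_LFunction_eq χ k κ g hκ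
  have h4 := Dk_LFunction_eq χ₂ k κ g hκ
  rw [← e0] at h1 h2
  rw [hz, h1, h2, h3, h4]
  have s1 := summable_wt (1 : DirichletCharacter ℂ 1) (k - 1) κ 0 hκ
  have s2 := summable_wt χ₁ (k - 1) κ 0 hκ
  have s3 := summable_wt χ (k - 1) κ g hκ
  have s4 := summable_wt χ₂ (k - 1) κ g hκ
  have hsum : ∑' n : ℕ, (wt (k - 1) κ n : ℂ) *
        ((1 : DirichletCharacter ℂ 1) n * (n : ℂ) ^ (-((0 : ℝ) * I) : ℂ))
      + ∑' n : ℕ, (wt (k - 1) κ n : ℂ) * (χ₁ n * (n : ℂ) ^ (-((0 : ℝ) * I) : ℂ))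
      + ∑' n : ℕ, (wt (k - 1) κ n : ℂ) * (χ n * (n : ℂ) ^ (-(g * I) : ℂ))
      + ∑' n : ℕ, (wt (k - 1) κ n : ℂ) * (χ₂ n * (n : ℂ) ^ (-(g * I) : ℂ))
      = ∑' n : ℕ, ((wt (k - 1) κ n : ℂ) * ((1 + χ₁ n) * (1 + χ n * (n : ℂ) ^ (-(g * I) : ℂ)))) := by
    rw [← s1.tsum_add s2, ← (s1.add s2).tsum_add s3, ← ((s1.add s2).add s3).tsum_add s4]
    refine tsum_congr fun n => ?_
    have h1 : (1 : DirichletCharacter ℂ 1) n = 1 := by
      rw [Subsingleton.elim ((n : ℕ) : ZMod 1) 1, map_one]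
    rw [hprod n, h1]
    simp only [ofReal_zero, zero_mul, neg_zero, cpow_zero, mul_one]
    ring
  have hs5 : Summable fun n : ℕ =>
      ((wt (k - 1) κ n : ℂ) * ((1 + χ₁ n) * (1 + χ n * (n : ℂ) ^ (-(g * I) : ℂ)))) := by
    refine (((s1.add s2).add s3).add s4).congr fun n => ?_
    have h1 : (1 : DirichletCharacter ℂ 1) n = 1 := by
      rw [Subsingleton.elim ((n : ℕ) : ZMod 1) 1, map_one]
    rw [hprod n, h1]
    simp only [ofReal_zero, zero_mul, neg_zero, cpow_zero, mul_one]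
    ring
  have hre : 0 ≤ (∑' n : ℕ,
      ((wt (k - 1) κ n : ℂ) * ((1 + χ₁ n) * (1 + χ n * (n : ℂ) ^ (-(g * I) : ℂ))))).re := by
    rw [Complex.re_tsum hs5]
    refine tsum_nonneg fun n => ?_
    rcases Nat.eq_zero_or_pos n with rfl | hn
    · have : wt (k - 1) κ 0 = 0 := by
        rw [wt]; simp
      rw [this]; simp
    · rw [Complex.re_ofReal_mul]
      refine mul_nonneg (wt_nonneg _ _ _) ?_
      obtain ⟨r, hr, hr2⟩ := hreal n
      rw [hr2]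
      exact one_add_mul_re_nonneg r hr _ (norm_twist_le χ g hn)
  have hfinal : -(1 / ((k - 1)! : ℂ) * ∑' n : ℕ, (wt (k - 1) κ n : ℂ) *
        ((1 : DirichletCharacter ℂ 1) n * (n : ℂ) ^ (-((0 : ℝ) * I) : ℂ)))
      + -(1 / ((k - 1)! : ℂ) * ∑' n : ℕ, (wt (k - 1) κ n : ℂ) *
        (χ₁ n * (n : ℂ) ^ (-((0 : ℝ) * I) : ℂ)))
      + -(1 / ((k - 1)! : ℂ) * ∑' n : ℕ, (wt (k - 1) κ n : ℂ) *
        (χ n * (n : ℂ) ^ (-(g * I) : ℂ)))
      + -(1 / ((k - 1)! : ℂ) * ∑' n : ℕ, (wt (k - 1) κ n : ℂ) *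
        (χ₂ n * (n : ℂ) ^ (-(g * I) : ℂ)))
      = ((-(1 / ((k - 1)! : ℝ)) : ℝ) : ℂ) * ∑' n : ℕ,
        ((wt (k - 1) κ n : ℂ) * ((1 + χ₁ n) * (1 + χ n * (n : ℂ) ^ (-(g * I) : ℂ)))) := by
    rw [← hsum]
    push_cast
    ring
  rw [hfinal, Complex.re_ofReal_mul]
  have hf : (0 : ℝ) < ((k - 1)! : ℝ) := by exact_mod_cast Nat.factorial_pos _
  have : -(1 / ((k - 1)! : ℝ)) ≤ 0 := by
    rw [neg_nonpos]; positivity
  exact mul_nonpos_of_nonpos_of_nonneg this hre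

end Vale.Agent.P026.H517
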