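import Vale.Agent.P026.H517.Count

/-!
# Finite Fourier analysis on `(ZMod R)^k`
-/

namespace Vale.Agent.P026.H517

open Finset ComplexConjugate

set_option linter.unusedSectionVars false

lemma addChar_sum {A M ι : Type*} [AddCommMonoid A] [CommMonoid M] (ψ : AddChar A M)
    (s : Finset ι) (f : ι → A) : ψ (∑ i ∈ s, f i) = ∏ i ∈ s, ψ (f i) := by
  classical
  induction s using Finset.induction_on with
  | empty => simp
  | insert a s ha ih => rw [sum_insert ha, prod_insert ha, AddChar.map_add_eq_mul, ih]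

variable {k R : ℕ} [NeZero R]

def dotp (α h : Fin k → ZMod R) : ZMod R := ∑ j, α j * h j

lemma dotp_add (α h h' : Fin k → ZMod R) : dotp α (h + h') = dotp α h + dotp α h' := by
  simp [dotp, mul_add, sum_add_distrib]

lemma dotp_sum {ι : Type*} (s : Finset ι) (α : Fin k → ZMod R) (h : ι → Fin k → ZMod R) :
    dotp α (∑ i ∈ s, h i) = ∑ i ∈ s, dotp α (h i) := by
  simp only [dotp, Finset.sum_apply, mul_sum]
  rw [sum_comm]

noncomputable def ex (α h : Fin k → ZMod R) : ℂ := ZMod.stdAddChar (dotp α h)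

lemma ex_add (α h h' : Fin k → ZMod R) : ex α (h + h') = ex α h * ex α h' := by
  rw [ex, dotp_add, AddChar.map_add_eq_mul]; rfl

lemma ex_sum {ι : Type*} (s : Finset ι) (α : Fin k → ZMod R) (h : ι → Fin k → ZMod R) :
    ex α (∑ i ∈ s, h i) = ∏ i ∈ s, ex α (h i) := by
  rw [ex, dotp_sum, addChar_sum]; rfl

lemma ex_neg (α h : Fin k → ZMod R) : ex α (-h) = conj (ex α h) := by
  rw [ex, ex, ← AddChar.map_neg_eq_conj]
  congr 1
  simp [dotp]

lemma ex_sub (α h h' : Fin k → ZMod R) : ex α (h - h') = ex α h * conj (ex α h') := by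
  rw [sub_eq_add_neg, ex_add, ex_neg]

lemma norm_ex (α h : Fin k → ZMod R) : ‖ex α h‖ = 1 := AddChar.norm_apply _ _

lemma sum_ex (h : Fin k → ZMod R) :
    ∑ α : Fin k → ZMod R, ex α h = if h = 0 then (R : ℂ) ^ k else 0 := by
  have h1 : ∑ α : Fin k → ZMod R, ex α h
      = ∏ j : Fin k, ∑ a : ZMod R, ZMod.stdAddChar (a * h j) := by
    rw [Finset.prod_univ_sum]
    rw [Fintype.piFinset_univ]
    refine sum_congr rfl fun α _ => ?_
    rw [ex, dotp, addChar_sum]
  rw [h1]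
  have h2 : ∀ j : Fin k, ∑ a : ZMod R, ZMod.stdAddChar (a * h j)
      = if h j = 0 then (R : ℂ) else 0 := by
    intro j
    have := AddChar.sum_mulShift (h j) (ZMod.isPrimitive_stdAddChar R)
    simpa [ZMod.card] using this
  simp_rw [h2]
  by_cases hh : h = 0
  · simp [hh]
  · rw [if_neg hh]
    obtain ⟨j, hj⟩ := Function.ne_iff.1 hh
    exact prod_eq_zero (mem_univ j) (if_neg hj)

/-- exponential sum over a finite family -/
noncomputable def FS {ι : Type*} (A : Finset ι) (u : ι → Fin k → ZMod R)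
    (α : Fin k → ZMod R) : ℂ := ∑ a ∈ A, ex α (u a)

lemma sum_FS_mul_conj {ι κ : Type*} (A : Finset ι) (B : Finset κ) (u : ι → Fin k → ZMod R)
    (v : κ → Fin k → ZMod R) :
    ∑ α : Fin k → ZMod R, FS A u α * conj (FS B v α)
      = (R : ℂ) ^ k * (((A ×ˢ B).filter fun z => u z.1 = v z.2).card : ℂ) := by
  have h1 : ∀ α : Fin k → ZMod R, FS A u α * conj (FS B v α)
      = ∑ z ∈ A ×ˢ B, ex α (u z.1 - v z.2) := by
    intro α
    rw [FS, FS, map_sum, sum_mul_sum, sum_product]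
    refine sum_congr rfl fun a _ => sum_congr rfl fun b _ => ?_
    rw [ex_sub]
  simp_rw [h1]
  rw [sum_comm]
  simp_rw [sum_ex]
  rw [← sum_filter, sum_const, nsmul_eq_mul, mul_comm]
  congr 3
  ext z
  simp only [mem_filter, sub_eq_zero]

lemma sum_norm_FS_sq {ι : Type*} (A : Finset ι) (u : ι → Fin k → ZMod R) :
    ∑ α : Fin k → ZMod R, ‖FS A u α‖ ^ 2
      = (R : ℝ) ^ k * (((A ×ˢ A).filter fun z => u z.1 = u z.2).card : ℝ) := by
  have h := sum_FS_mul_conj A A u u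
  have h2 : ∑ α : Fin k → ZMod R, FS A u α * conj (FS A u α)
      = ((∑ α : Fin k → ZMod R, ‖FS A u α‖ ^ 2 : ℝ) : ℂ) := by
    push_cast
    refine sum_congr rfl fun α _ => ?_
    rw [Complex.mul_conj, Complex.normSq_eq_norm_sq]
    push_cast
    rfl
  rw [h2] at h
  exact_mod_cast h

lemma FS_prod {ι κ : Type*} (A : Finset ι) (B : Finset κ) (u : ι → Fin k → ZMod R)
    (v : κ → Fin k → ZMod R) (α : Fin k → ZMod R) :
    FS (A ×ˢ B) (fun z => u z.1 + v z.2) α = FS A u α * FS B v α := by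
  rw [FS, FS, FS, sum_mul_sum, sum_product]
  refine sum_congr rfl fun a _ => sum_congr rfl fun b _ => ?_
  rw [ex_add]

/-- moment curve -/
def nu (k R : ℕ) (x : ℕ) : Fin k → ZMod R := fun j => (x : ZMod R) ^ (j.1 + 1)

lemma FS_tup (m : ℕ) (X : Finset ℕ) (α : Fin k → ZMod R) :
    FS (Tup m X) (fun x => ∑ i, nu k R (x i)) α = (FS X (nu k R) α) ^ m := by
  rw [FS, FS]
  have : (∑ x ∈ X, ex α (nu k R x)) ^ m = ∏ _i : Fin m, ∑ x ∈ X, ex α (nu k R x) := by
    rw [prod_const, card_univ, Fintype.card_fin]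
  rw [this, Finset.prod_univ_sum]
  refine sum_congr rfl fun x _ => ?_
  rw [ex_sum]

lemma natCast_eq_iff_of_lt {a b : ℕ} (ha : a < R) (hb : b < R) :
    ((a : ZMod R) = (b : ZMod R)) ↔ a = b := by
  constructor
  · intro h
    have := congrArg ZMod.val h
    rwa [ZMod.val_cast_of_lt ha, ZMod.val_cast_of_lt hb] at this
  · rintro rfl; rfl

lemma sum_nu_eq_iff {m m' : ℕ} {P : ℕ} {x : Fin m → ℕ} {y : Fin m' → ℕ}
    (hx : ∀ i, x i < P) (hy : ∀ i, y i < P) (hR : m * P ^ k < R) (hR' : m' * P ^ k < R) :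
    (∑ i, nu k R (x i) = ∑ i, nu k R (y i)) ↔
      ∀ j ∈ Icc 1 k, ∑ i, x i ^ j = ∑ i, y i ^ j := by
  have hb : ∀ (n : ℕ) (z : Fin n → ℕ), (∀ i, z i < P) → n * P ^ k < R →
      ∀ j ∈ Icc 1 k, ∑ i, z i ^ j < R := by
    intro n z hz hn j hj
    rw [mem_Icc] at hj
    refine lt_of_le_of_lt ?_ hn
    calc ∑ i, z i ^ j ≤ ∑ _i : Fin n, P ^ k := by
          refine sum_le_sum fun i _ => ?_
          calc z i ^ j ≤ P ^ j := Nat.pow_le_pow_left (hz i).le j
            _ ≤ P ^ k := Nat.pow_le_pow_right (by have := hz i; omega) hj.2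
      _ = n * P ^ k := by simp
  have key : ∀ (n : ℕ) (z : Fin n → ℕ) (j : Fin k),
      (∑ i, nu k R (z i)) j = ((∑ i, z i ^ (j.1 + 1) : ℕ) : ZMod R) := by
    intro n z j
    rw [Finset.sum_apply]
    push_cast
    rfl
  constructor
  · intro h j hj
    have hj' := mem_Icc.1 hj
    have h1 := congrFun h ⟨j - 1, by omega⟩
    rw [key, key] at h1
    simp only [Nat.sub_add_cancel hj'.1] at h1
    exact (natCast_eq_iff_of_lt (hb _ x hx hR j hj) (hb _ y hy hR' j hj)).1 h1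
  · intro h
    funext j
    rw [key, key, h (j.1 + 1) (mem_Icc.2 ⟨by omega, by omega⟩)]

lemma J_eq {m P : ℕ} {X : Finset ℕ} (hX : ∀ x ∈ X, x < P) (hR : m * P ^ k < R) :
    (R : ℝ) ^ k * (J k m X : ℝ) = ∑ α : Fin k → ZMod R, ‖FS X (nu k R) α‖ ^ (2 * m) := by
  have h := sum_norm_FS_sq (Tup m X) (fun x => ∑ i, nu k R (x i))
  simp_rw [FS_tup] at h
  have h2 : ∀ α : Fin k → ZMod R, ‖FS X (nu k R) α ^ m‖ ^ 2 = ‖FS X (nu k R) α‖ ^ (2 * m) := by
    intro α
    rw [norm_pow, ← pow_mul, mul_comm]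
  simp_rw [h2] at h
  rw [h, J]
  congr 3
  ext z
  simp only [mem_filter, mem_product, and_congr_right_iff, Fintype.mem_piFinset]
  intro hz
  exact (sum_nu_eq_iff (fun i => hX _ (hz.1 i)) (fun i => hX _ (hz.2 i)) hR hR).symm

end Vale.Agent.P026.H517
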