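import Vale.Agent.P026.H517.StepA

/-!
# The double Hölder inequality (Vinogradov–Korobov)
-/

namespace Vale.Agent.P026.H517

open Finset ComplexConjugate

/-- `e^{ix}` -/
noncomputable def EI (x : ℝ) : ℂ := Complex.exp (x * Complex.I)

lemma norm_EI (x : ℝ) : ‖EI x‖ = 1 := Complex.norm_exp_ofReal_mul_I x

lemma EI_add (x y : ℝ) : EI (x + y) = EI x * EI y := by
  rw [EI, EI, EI, ← Complex.exp_add]
  congr 1
  push_cast
  ring

lemma EI_zero : EI 0 = 1 := by simp [EI]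

lemma EI_neg (x : ℝ) : EI (-x) = conj (EI x) := by
  rw [EI, EI, ← Complex.exp_conj]
  congr 1
  simp

lemma EI_sum {ι : Type*} (s : Finset ι) (f : ι → ℝ) : EI (∑ i ∈ s, f i) = ∏ i ∈ s, EI (f i) := by
  classical
  induction s using Finset.induction_on with
  | empty => simp [EI_zero]
  | insert a s ha ih => rw [sum_insert ha, prod_insert ha, EI_add, ih]

lemma EI_sub (x y : ℝ) : EI (x - y) = EI x * conj (EI y) := by
  rw [sub_eq_add_neg, EI_add, EI_neg]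

variable {K : ℕ}

/-- the bilinear form -/
noncomputable def Bf (γ : Fin K → ℝ) (l m : Fin K → ℤ) : ℝ := ∑ j, γ j * l j * m j

lemma Bf_comm (γ : Fin K → ℝ) (l m : Fin K → ℤ) : Bf γ l m = Bf γ m l := by
  refine sum_congr rfl fun j _ => ?_
  ring

lemma Bf_sub (γ : Fin K → ℝ) (l m m' : Fin K → ℤ) : Bf γ l (m - m') = Bf γ l m - Bf γ l m' := by
  rw [Bf, Bf, Bf, ← sum_sub_distrib]
  refine sum_congr rfl fun j _ => ?_
  rw [Pi.sub_apply]
  push_cast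
  ring

lemma Bf_sum {ι : Type*} (s : Finset ι) (γ : Fin K → ℝ) (l : Fin K → ℤ) (m : ι → Fin K → ℤ) :
    Bf γ l (∑ i ∈ s, m i) = ∑ i ∈ s, Bf γ l (m i) := by
  simp only [Bf]
  rw [sum_comm]
  refine sum_congr rfl fun j _ => ?_
  rw [Finset.sum_apply, Int.cast_sum, mul_sum]

/-- moment curve over `ℤ` -/
def nz (K : ℕ) (x : ℕ) : Fin K → ℤ := fun j => (x : ℤ) ^ (j.1 + 1)

/-- the inner exponential sum -/
noncomputable def GG (γ : Fin K → ℝ) (X : Finset ℕ) (l : Fin K → ℤ) : ℂ :=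
  ∑ y ∈ X, EI (Bf γ l (nz K y))

/-- difference of power sums -/
def DD (K s : ℕ) (z : (Fin s → ℕ) × (Fin s → ℕ)) : Fin K → ℤ := Phi K s z.1 - Phi K s z.2

lemma Phi_eq (s : ℕ) (w : Fin s → ℕ) : Phi K s w = ∑ i, nz K (w i) := by
  funext j
  rw [Finset.sum_apply]
  rfl

lemma GG_pow (γ : Fin K → ℝ) (X : Finset ℕ) (l : Fin K → ℤ) (s : ℕ) :
    GG γ X l ^ s = ∑ w ∈ Tup s X, EI (Bf γ l (Phi K s w)) := by
  have : (GG γ X l) ^ s = ∏ _i : Fin s, ∑ x ∈ X, EI (Bf γ l (nz K x)) := by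
    rw [prod_const, card_univ, Fintype.card_fin]
    rfl
  rw [this, Finset.prod_univ_sum]
  refine sum_congr rfl fun x _ => ?_
  rw [Phi_eq, Bf_sum, EI_sum]

lemma norm_GG_pow (γ : Fin K → ℝ) (X : Finset ℕ) (l : Fin K → ℤ) (s : ℕ) :
    ((‖GG γ X l‖ ^ (2 * s) : ℝ) : ℂ) = ∑ z ∈ Tup s X ×ˢ Tup s X, EI (Bf γ l (DD K s z)) := by
  have h1 : ((‖GG γ X l‖ ^ (2 * s) : ℝ) : ℂ) = (GG γ X l) ^ s * conj ((GG γ X l) ^ s) := by
    rw [Complex.mul_conj, Complex.normSq_eq_norm_sq, norm_pow, ← pow_mul, mul_comm s 2]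
  rw [h1, GG_pow, map_sum, sum_mul_sum, sum_product]
  refine sum_congr rfl fun a _ => sum_congr rfl fun b _ => ?_
  rw [DD, Bf_sub, EI_sub]

/-- the box -/
noncomputable def Box (K s M : ℕ) : Finset (Fin K → ℤ) :=
  Fintype.piFinset fun j : Fin K => Icc (-((s * M ^ (j.1 + 1) : ℕ) : ℤ)) ((s * M ^ (j.1 + 1) : ℕ) : ℤ)

lemma DD_mem_Box {s M : ℕ} {z : (Fin s → ℕ) × (Fin s → ℕ)}
    (hz : z ∈ Tup s (range M) ×ˢ Tup s (range M)) : DD K s z ∈ Box K s M := by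
  rw [mem_product] at hz
  rw [Box, Fintype.mem_piFinset]
  intro j
  have key : ∀ w ∈ Tup s (range M), (0 : ℤ) ≤ Phi K s w j ∧ Phi K s w j ≤ ((s * M ^ (j.1 + 1) : ℕ) : ℤ) := by
    intro w hw
    rw [Fintype.mem_piFinset] at hw
    constructor
    · exact sum_nonneg fun i _ => by positivity
    · rw [Phi]
      push_cast
      calc ∑ i, (w i : ℤ) ^ (j.1 + 1) ≤ ∑ _i : Fin s, (M : ℤ) ^ (j.1 + 1) := by
            refine sum_le_sum fun i _ => ?_
            have := mem_range.1 (hw i)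
            exact pow_le_pow_left₀ (by positivity) (by exact_mod_cast this.le) _
        _ = s * (M : ℤ) ^ (j.1 + 1) := by simp
  have h1 := key z.1 hz.1
  have h2 := key z.2 hz.2
  rw [mem_Icc, DD, Pi.sub_apply]
  constructor <;> linarith [h1.1, h1.2, h2.1, h2.2]

/-- multiplicity -/
noncomputable def rr (K s M : ℕ) (l : Fin K → ℤ) : ℕ :=
  ((Tup s (range M) ×ˢ Tup s (range M)).filter fun z => DD K s z = l).card

lemma sum_DD {s M : ℕ} (F : (Fin K → ℤ) → ℝ) :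
    ∑ z ∈ Tup s (range M) ×ˢ Tup s (range M), F (DD K s z)
      = ∑ l ∈ Box K s M, (rr K s M l : ℝ) * F l := by
  rw [← sum_fiberwise_of_maps_to (t := Box K s M) (g := DD K s) (fun z hz => DD_mem_Box hz)]
  refine sum_congr rfl fun l _ => ?_
  rw [rr, ← nsmul_eq_mul, ← sum_const]
  refine sum_congr rfl fun z hz => ?_
  rw [(mem_filter.1 hz).2]

lemma rr_le (s M : ℕ) (l : Fin K → ℤ) : rr K s M l ≤ J K s (range M) := by
  refine le_trans (le_of_eq ?_) (card_Phi_shift K s (range M) (-l))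
  rw [rr]
  congr 1
  ext z
  simp only [mem_filter, and_congr_right_iff]
  intro _
  rw [DD]
  constructor
  · intro h
    rw [← h]
    abel
  · intro h
    rw [← h]
    abel

lemma sum_rr_sq (s M : ℕ) :
    ∑ l ∈ Box K s M, (rr K s M l : ℝ) ^ 2 ≤ (J K (s + s) (range M) : ℝ) := by
  have h1 : ∑ l ∈ Box K s M, (rr K s M l : ℝ) ^ 2
      = ∑ z ∈ Tup s (range M) ×ˢ Tup s (range M), (rr K s M (DD K s z) : ℝ) := by
    rw [sum_DD (fun l => (rr K s M l : ℝ))]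
    refine sum_congr rfl fun l _ => ?_
    ring
  rw [h1]
  have h2 : ∑ z ∈ Tup s (range M) ×ˢ Tup s (range M), rr K s M (DD K s z)
      = (((Tup s (range M) ×ˢ Tup s (range M)) ×ˢ (Tup s (range M) ×ˢ Tup s (range M))).filter
          fun w => DD K s w.2 = DD K s w.1).card := by
    rw [card_filter, sum_product (Tup s (range M) ×ˢ Tup s (range M))
      (Tup s (range M) ×ˢ Tup s (range M))]
    refine sum_congr rfl fun z _ => ?_
    rw [rr, card_filter]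
  have h3 : (((Tup s (range M) ×ˢ Tup s (range M)) ×ˢ (Tup s (range M) ×ˢ Tup s (range M))).filter
          fun w => DD K s w.2 = DD K s w.1).card ≤ J K (s + s) (range M) := by
    refine card_le_card_of_injOn
      (fun w => (Fin.append w.1.1 w.2.2, Fin.append w.2.1 w.1.2)) ?_ ?_
    · intro w hw
      rw [mem_coe, mem_filter, mem_product, mem_product, mem_product] at hw
      rw [mem_coe, mem_filter, mem_product]
      have hmem : ∀ a ∈ Tup s (range M), ∀ b ∈ Tup s (range M),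
          Fin.append a b ∈ Tup (s + s) (range M) := by
        intro a ha b hb
        rw [Fintype.mem_piFinset] at ha hb ⊢
        intro i
        refine Fin.addCases (fun i => ?_) (fun i => ?_) i
        · rw [Fin.append_left]; exact ha i
        · rw [Fin.append_right]; exact hb i
      refine ⟨⟨hmem _ hw.1.1.1 _ hw.1.2.2, hmem _ hw.1.2.1 _ hw.1.1.2⟩, ?_⟩
      intro j hj
      rw [mem_Icc] at hj
      simp only [Fin.sum_univ_add, Fin.append_left, Fin.append_right]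
      have h4 := congrFun hw.2 ⟨j - 1, by omega⟩
      simp only [DD, Pi.sub_apply, Phi, Nat.sub_add_cancel hj.1] at h4
      have h5 : ∑ i, (w.1.1 i : ℤ) ^ j + ∑ i, (w.2.2 i : ℤ) ^ j
          = ∑ i, (w.2.1 i : ℤ) ^ j + ∑ i, (w.1.2 i : ℤ) ^ j := by linarith
      exact_mod_cast h5
    · intro w _ w' _ h
      have happ : ∀ a b a' b' : Fin s → ℕ, Fin.append a b = Fin.append a' b' → a = a' ∧ b = b' := by
        intro a b a' b' h
        constructor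
        · funext i
          have := congrFun h (Fin.castAdd s i)
          rwa [Fin.append_left, Fin.append_left] at this
        · funext i
          have := congrFun h (Fin.natAdd s i)
          rwa [Fin.append_right, Fin.append_right] at this
      have h1 := congrArg Prod.fst h
      have h2 := congrArg Prod.snd h
      obtain ⟨e1, e2⟩ := happ _ _ _ _ h1
      obtain ⟨e3, e4⟩ := happ _ _ _ _ h2
      exact Prod.ext (Prod.ext e1 e4) (Prod.ext e3 e2)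
  rw [← h2] at h3
  exact_mod_cast h3

/-- the linear sums -/
noncomputable def WW (g : ℝ) (L : ℕ) : ℝ :=
  ∑ m ∈ Icc (-(L : ℤ)) L, ‖∑ l ∈ Icc (-(L : ℤ)) L, EI (g * l * m)‖

lemma sum_box_norm (γ : Fin K → ℝ) (s M : ℕ) :
    ∑ m ∈ Box K s M, ‖∑ l ∈ Box K s M, EI (Bf γ l m)‖
      = ∏ j : Fin K, WW (γ j) (s * M ^ (j.1 + 1)) := by
  have h1 : ∀ m : Fin K → ℤ, ∑ l ∈ Box K s M, EI (Bf γ l m)
      = ∏ j : Fin K, ∑ l ∈ Icc (-((s * M ^ (j.1 + 1) : ℕ) : ℤ)) ((s * M ^ (j.1 + 1) : ℕ) : ℤ),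
        EI (γ j * l * m j) := by
    intro m
    rw [Finset.prod_univ_sum]
    refine sum_congr rfl fun l _ => ?_
    rw [Bf, EI_sum]
  simp_rw [h1, norm_prod]
  simp only [WW]
  rw [Finset.prod_univ_sum]
  rfl

lemma pow_sum_le {ι : Type*} (A : Finset ι) (f : ι → ℝ) (hf : ∀ a ∈ A, 0 ≤ f a) (n : ℕ)
    (hn : 1 ≤ n) : (∑ a ∈ A, f a) ^ n ≤ (A.card : ℝ) ^ (n - 1) * ∑ a ∈ A, f a ^ n := by
  rcases A.eq_empty_or_nonempty with rfl | hA
  · simp [show n ≠ 0 by omega]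
  · have h := pow_sum_div_card_le_sum_pow hf (n - 1)
    rw [Nat.sub_add_cancel hn] at h
    have hc : (0 : ℝ) < (A.card : ℝ) ^ (n - 1) := by
      have := hA.card_pos
      positivity
    rw [div_le_iff₀ hc] at h
    linarith

theorem double_holder (γ : Fin K → ℝ) (s M : ℕ) (hs : 1 ≤ s) :
    ‖∑ x ∈ range M, ∑ y ∈ range M, EI (Bf γ (nz K x) (nz K y))‖ ^ (2 * s * (2 * s))
      ≤ ((M : ℝ) ^ (2 * s - 1)) ^ (2 * s) * (((M : ℝ) ^ (2 * s)) ^ (s - 1)) ^ 2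
        * (J K (s + s) (range M) : ℝ) * ((J K s (range M) : ℝ)
          * ∏ j : Fin K, WW (γ j) (s * M ^ (j.1 + 1))) := by
  set X := range M with hX
  have hcX : (X.card : ℝ) = M := by rw [hX, card_range]
  -- step 1
  have h1 : ‖∑ x ∈ X, ∑ y ∈ X, EI (Bf γ (nz K x) (nz K y))‖ ^ (2 * s)
      ≤ (M : ℝ) ^ (2 * s - 1) * ∑ x ∈ X, ‖GG γ X (nz K x)‖ ^ (2 * s) := by
    rw [← hcX]
    refine le_trans (pow_le_pow_left₀ (norm_nonneg _) (norm_sum_le _ _) _) ?_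
    exact pow_sum_le X (fun x => ‖GG γ X (nz K x)‖) (fun _ _ => norm_nonneg _) (2 * s) (by omega)
  -- step 2, 3
  have h3 : ∑ x ∈ X, ‖GG γ X (nz K x)‖ ^ (2 * s)
      ≤ ∑ z ∈ Tup s X ×ˢ Tup s X, ‖GG γ X (DD K s z)‖ := by
    have h2 : ((∑ x ∈ X, ‖GG γ X (nz K x)‖ ^ (2 * s) : ℝ) : ℂ)
        = ∑ z ∈ Tup s X ×ˢ Tup s X, GG γ X (DD K s z) := by
      rw [Complex.ofReal_sum]
      simp_rw [norm_GG_pow]
      rw [sum_comm]
      refine sum_congr rfl fun z _ => ?_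
      rw [GG]
      refine sum_congr rfl fun x _ => ?_
      rw [Bf_comm]
    have h2' : ∑ x ∈ X, ‖GG γ X (nz K x)‖ ^ (2 * s)
        = ‖((∑ x ∈ X, ‖GG γ X (nz K x)‖ ^ (2 * s) : ℝ) : ℂ)‖ := by
      rw [Complex.norm_real, Real.norm_of_nonneg]
      exact sum_nonneg fun _ _ => by positivity
    rw [h2', h2]
    exact norm_sum_le _ _
  -- step 4
  have hcT : ((Tup s X ×ˢ Tup s X).card : ℝ) = (M : ℝ) ^ (2 * s) := by
    rw [card_product, Fintype.card_piFinset, prod_const, card_univ, Fintype.card_fin, hX,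
      card_range]
    push_cast
    rw [← pow_add]
    congr 1
    ring
  have h4 : (∑ z ∈ Tup s X ×ˢ Tup s X, ‖GG γ X (DD K s z)‖) ^ s
      ≤ ((M : ℝ) ^ (2 * s)) ^ (s - 1) * ∑ z ∈ Tup s X ×ˢ Tup s X, ‖GG γ X (DD K s z)‖ ^ s := by
    rw [← hcT]
    exact pow_sum_le _ _ (fun _ _ => norm_nonneg _) s hs
  have h5 : (∑ z ∈ Tup s X ×ˢ Tup s X, ‖GG γ X (DD K s z)‖ ^ s) ^ 2
      ≤ (J K (s + s) X : ℝ) * ∑ l ∈ Box K s M, ‖GG γ X l‖ ^ (2 * s) := by
    rw [hX, sum_DD (fun l => ‖GG γ (range M) l‖ ^ s)]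
    refine (sum_mul_sq_le_sq_mul_sq _ _ _).trans ?_
    refine mul_le_mul (sum_rr_sq s M) (le_of_eq ?_) (by positivity) (by positivity)
    refine sum_congr rfl fun l _ => ?_
    rw [← pow_mul, mul_comm s 2]
  -- step 5
  have h6 : ∑ l ∈ Box K s M, ‖GG γ X l‖ ^ (2 * s)
      ≤ (J K s X : ℝ) * ∏ j : Fin K, WW (γ j) (s * M ^ (j.1 + 1)) := by
    have h7 : ((∑ l ∈ Box K s M, ‖GG γ X l‖ ^ (2 * s) : ℝ) : ℂ)
        = ∑ z ∈ Tup s X ×ˢ Tup s X, ∑ l ∈ Box K s M, EI (Bf γ l (DD K s z)) := by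
      rw [Complex.ofReal_sum]
      simp_rw [norm_GG_pow]
      rw [sum_comm]
    have h7' : ∑ l ∈ Box K s M, ‖GG γ X l‖ ^ (2 * s)
        = ‖((∑ l ∈ Box K s M, ‖GG γ X l‖ ^ (2 * s) : ℝ) : ℂ)‖ := by
      rw [Complex.norm_real, Real.norm_of_nonneg]
      exact sum_nonneg fun _ _ => by positivity
    rw [h7', h7]
    refine (norm_sum_le _ _).trans ?_
    rw [hX, sum_DD (fun m => ‖∑ l ∈ Box K s M, EI (Bf γ l m)‖), ← sum_box_norm, mul_sum]
    refine sum_le_sum fun m _ => ?_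
    refine mul_le_mul_of_nonneg_right ?_ (norm_nonneg _)
    exact_mod_cast rr_le s M m
  set V := ‖∑ x ∈ X, ∑ y ∈ X, EI (Bf γ (nz K x) (nz K y))‖ with hV
  set Z := ∑ z ∈ Tup s X ×ˢ Tup s X, ‖GG γ X (DD K s z)‖ with hZ
  have hZ0 : 0 ≤ Z := sum_nonneg fun _ _ => norm_nonneg _
  have hV0 : 0 ≤ V := norm_nonneg _
  have h8 : V ^ (2 * s) ≤ (M : ℝ) ^ (2 * s - 1) * Z :=
    h1.trans (mul_le_mul_of_nonneg_left h3 (by positivity))
  have h9 : Z ^ (2 * s) ≤ (((M : ℝ) ^ (2 * s)) ^ (s - 1)) ^ 2 * ((J K (s + s) X : ℝ)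
      * ((J K s X : ℝ) * ∏ j : Fin K, WW (γ j) (s * M ^ (j.1 + 1)))) := by
    calc Z ^ (2 * s) = (Z ^ s) ^ 2 := by rw [← pow_mul, mul_comm]
      _ ≤ (((M : ℝ) ^ (2 * s)) ^ (s - 1) *
            ∑ z ∈ Tup s X ×ˢ Tup s X, ‖GG γ X (DD K s z)‖ ^ s) ^ 2 :=
          pow_le_pow_left₀ (by positivity) h4 2
      _ = (((M : ℝ) ^ (2 * s)) ^ (s - 1)) ^ 2 *
            (∑ z ∈ Tup s X ×ˢ Tup s X, ‖GG γ X (DD K s z)‖ ^ s) ^ 2 := by ring
      _ ≤ _ := by
          refine mul_le_mul_of_nonneg_left ?_ (by positivity)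
          refine h5.trans ?_
          exact mul_le_mul_of_nonneg_left h6 (by positivity)
  calc V ^ (2 * s * (2 * s)) = (V ^ (2 * s)) ^ (2 * s) := by rw [← pow_mul]
    _ ≤ ((M : ℝ) ^ (2 * s - 1) * Z) ^ (2 * s) := pow_le_pow_left₀ (by positivity) h8 _
    _ = ((M : ℝ) ^ (2 * s - 1)) ^ (2 * s) * Z ^ (2 * s) := by rw [mul_pow]
    _ ≤ ((M : ℝ) ^ (2 * s - 1)) ^ (2 * s) * ((((M : ℝ) ^ (2 * s)) ^ (s - 1)) ^ 2 *
        ((J K (s + s) X : ℝ)
          * ((J K s X : ℝ) * ∏ j : Fin K, WW (γ j) (s * M ^ (j.1 + 1))))) :=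
        mul_le_mul_of_nonneg_left h9 (by positivity)
    _ = _ := by ring

end Vale.Agent.P026.H517
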