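import Mathlib

/-!
# Linnik's lemma

Number of solutions of a triangular system of congruences.
-/

namespace Vale.Agent.P026.H517

open Finset

/-- Newton: equal power sums up to `k` imply equal elementary symmetric functions, when
`1, …, k` are units. -/
lemma esymm_eq_of_psum_eq {A : Type*} [CommRing A] {k : ℕ} (x y : Fin k → A)
    (hu : ∀ j : ℕ, 1 ≤ j → j ≤ k → IsUnit (j : A))
    (h : ∀ j : ℕ, 1 ≤ j → j ≤ k → ∑ i, x i ^ j = ∑ i, y i ^ j) :
    ∀ j : ℕ, j ≤ k → MvPolynomial.aeval x (MvPolynomial.esymm (Fin k) ℤ j)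
      = MvPolynomial.aeval y (MvPolynomial.esymm (Fin k) ℤ j) := by
  intro j
  induction j using Nat.strong_induction_on with
  | _ j ih =>
    intro hj
    rcases Nat.eq_zero_or_pos j with rfl | hpos
    · simp
    · have key : ∀ z : Fin k → A, (j : A) * MvPolynomial.aeval z (MvPolynomial.esymm (Fin k) ℤ j)
          = (-1) ^ (j + 1) * ∑ a ∈ (antidiagonal j).filter (fun a => a.1 < j),
            (-1) ^ a.1 * MvPolynomial.aeval z (MvPolynomial.esymm (Fin k) ℤ a.1)
              * ∑ i, z i ^ a.2 := by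
        intro z
        have := congrArg (MvPolynomial.aeval z) (MvPolynomial.mul_esymm_eq_sum (Fin k) ℤ j)
        simpa [MvPolynomial.psum, map_sum, map_mul, map_pow] using this
      have e : (j : A) * MvPolynomial.aeval x (MvPolynomial.esymm (Fin k) ℤ j)
          = (j : A) * MvPolynomial.aeval y (MvPolynomial.esymm (Fin k) ℤ j) := by
        rw [key x, key y]
        congr 1
        refine sum_congr rfl fun a ha => ?_
        rw [mem_filter, Finset.HasAntidiagonal.mem_antidiagonal] at ha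
        rw [ih a.1 ha.2 (by omega), h a.2 (by omega) (by omega)]
      exact (hu j hpos hj).mul_left_cancel e

lemma prod_eq_of_psum_eq {A : Type*} [CommRing A] {k : ℕ} (x y : Fin k → A)
    (hu : ∀ j : ℕ, 1 ≤ j → j ≤ k → IsUnit (j : A))
    (h : ∀ j : ℕ, 1 ≤ j → j ≤ k → ∑ i, x i ^ j = ∑ i, y i ^ j) (T : A) :
    ∏ i, (T - x i) = ∏ i, (T - y i) := by
  have h1 := esymm_eq_of_psum_eq x y hu h
  have key : ∀ z : Fin k → A, ∏ i, (T - z i)
      = ∑ j ∈ range (k + 1), (-1) ^ j * (MvPolynomial.aeval z (MvPolynomial.esymm (Fin k) ℤ j)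
          * T ^ (k - j)) := by
    intro z
    have := congrArg (Polynomial.eval T)
      (Multiset.prod_X_sub_X_eq_sum_esymm ((univ : Finset (Fin k)).val.map z))
    simp only [Multiset.map_map, Polynomial.eval_multiset_prod, Polynomial.eval_finsetSum,
      Function.comp_apply, Polynomial.eval_sub, Polynomial.eval_X, Polynomial.eval_C,
      Multiset.card_map, card_val, card_univ, Fintype.card_fin, Polynomial.eval_mul,
      Polynomial.eval_pow, Polynomial.eval_neg, Polynomial.eval_one] at this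
    simp only [MvPolynomial.aeval_esymm_eq_multiset_esymm]
    exact this
  rw [key x, key y]
  refine sum_congr rfl fun j hj => ?_
  rw [h1 j (by have := mem_range.1 hj; omega)]

/-- reduction mod `p` -/
noncomputable def red (p k : ℕ) (hk : 0 < k) : ZMod (p ^ k) →+* ZMod p :=
  ZMod.castHom (dvd_pow_self p hk.ne') (ZMod p)

lemma isUnit_of_red_ne_zero {p k : ℕ} [Fact p.Prime] (hk : 0 < k) (a : ZMod (p ^ k))
    (ha : red p k hk a ≠ 0) : IsUnit a := by
  have hpp : p.Prime := Fact.out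
  have hne : NeZero (p ^ k) := ⟨(pow_pos hpp.pos k).ne'⟩
  obtain ⟨n, rfl⟩ : ∃ n : ℕ, (n : ZMod (p ^ k)) = a := ⟨a.val, ZMod.natCast_zmod_val a⟩
  rw [ZMod.isUnit_iff_coprime]
  have h1 : ((n : ℕ) : ZMod p) ≠ 0 := by
    simpa [red] using ha
  have h2 : ¬ p ∣ n := fun h => h1 ((ZMod.natCast_eq_zero_iff n p).2 h)
  exact Nat.Coprime.pow_right k ((Nat.coprime_comm.1 ((hpp.coprime_iff_not_dvd).2 h2)))

lemma red_zero_of_not_isUnit {p k : ℕ} [Fact p.Prime] (hk : 0 < k) (a : ZMod (p ^ k))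
    (ha : ¬ IsUnit a) : red p k hk a = 0 := by
  by_contra h
  exact ha (isUnit_of_red_ne_zero hk a h)

lemma isUnit_natCast_of_lt {p k j : ℕ} [Fact p.Prime] (h1 : 1 ≤ j) (h2 : j < p) :
    IsUnit (j : ZMod (p ^ k)) := by
  have hpp : p.Prime := Fact.out
  rw [ZMod.isUnit_iff_coprime]
  refine Nat.Coprime.pow_right k ?_
  rw [Nat.coprime_comm, hpp.coprime_iff_not_dvd]
  exact fun h => absurd (Nat.le_of_dvd (by omega) h) (by omega)

/-- If `x` is pairwise distinct mod `p`, and `y` has the same power sums mod `p^k`,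
then all `y i` are among the `x j`. -/
lemma mem_range_of_psum_eq {p k : ℕ} [Fact p.Prime] (hk : 0 < k) (x y : Fin k → ZMod (p ^ k))
    (hp : k < p)
    (hx : ∀ i j, i ≠ j → red p k hk (x i) ≠ red p k hk (x j))
    (h : ∀ j : ℕ, 1 ≤ j → j ≤ k → ∑ i, x i ^ j = ∑ i, y i ^ j) (i : Fin k) :
    ∃ j, y i = x j := by
  have hpp : p.Prime := Fact.out
  have hu : ∀ j : ℕ, 1 ≤ j → j ≤ k → IsUnit (j : ZMod (p ^ k)) := fun j h1 h2 =>
    isUnit_natCast_of_lt h1 (by omega)
  have h0 : ∏ l, (y i - x l) = 0 := by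
    rw [prod_eq_of_psum_eq x y hu h (y i)]
    exact prod_eq_zero (mem_univ i) (sub_self _)
  by_cases hall : ∀ l, IsUnit (y i - x l)
  · exfalso
    have hunit : IsUnit (∏ l, (y i - x l)) := by
      rw [IsUnit.prod_univ_iff]
      exact hall
    rw [h0] at hunit
    have hnt : Nontrivial (ZMod (p ^ k)) := by
      have : Fact (1 < p ^ k) := ⟨Nat.one_lt_pow hk.ne' hpp.one_lt⟩
      infer_instance
    exact not_isUnit_zero hunit
  · push Not at hall
    obtain ⟨l0, hl0⟩ := hall
    refine ⟨l0, ?_⟩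
    have hr0 := red_zero_of_not_isUnit hk _ hl0
    rw [map_sub, sub_eq_zero] at hr0
    have hother : ∀ l, l ≠ l0 → IsUnit (y i - x l) := by
      intro l hl
      refine isUnit_of_red_ne_zero hk _ ?_
      rw [map_sub, hr0]
      exact sub_ne_zero.2 (hx l0 l hl.symm)
    rw [← mul_prod_erase univ _ (mem_univ l0)] at h0
    have hunit : IsUnit (∏ l ∈ univ.erase l0, (y i - x l)) := by
      rw [IsUnit.prod_iff]
      intro l hl
      exact hother l (ne_of_mem_erase hl)
    have := (hunit.mul_left_eq_zero).1 h0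
    exact sub_eq_zero.1 this

lemma card_annihilated {p k m : ℕ} [Fact p.Prime] (hm : m ≤ k) (c : ZMod (p ^ k)) :
    (univ.filter fun z : ZMod (p ^ k) => (p : ZMod (p ^ k)) ^ m * (z - c) = 0).card ≤ p ^ m := by
  classical
  have hpp : p.Prime := Fact.out
  have hne : NeZero (p ^ k) := ⟨(pow_pos hpp.pos k).ne'⟩
  have hsub : (univ.filter fun z : ZMod (p ^ k) => (p : ZMod (p ^ k)) ^ m * (z - c) = 0)
      ⊆ (range (p ^ m)).image (fun u : ℕ => c + ((p ^ (k - m) * u : ℕ) : ZMod (p ^ k))) := by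
    intro z hz
    rw [mem_filter] at hz
    obtain ⟨v, hv, hvlt⟩ : ∃ v : ℕ, (v : ZMod (p ^ k)) = z - c ∧ v < p ^ k :=
      ⟨(z - c).val, ZMod.natCast_zmod_val _, ZMod.val_lt _⟩
    have h1 : p ^ k ∣ p ^ m * v := by
      rw [← ZMod.natCast_eq_zero_iff]
      push_cast
      rw [hv]
      exact hz.2
    have h2 : p ^ (k - m) ∣ v := by
      have : p ^ m * p ^ (k - m) ∣ p ^ m * v := by
        rw [← pow_add, Nat.add_sub_cancel' hm]
        exact h1
      exact Nat.dvd_of_mul_dvd_mul_left (pow_pos hpp.pos m) this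
    obtain ⟨u, rfl⟩ := h2
    rw [mem_image]
    refine ⟨u, ?_, ?_⟩
    · rw [mem_range]
      have h3 : p ^ (k - m) * u < p ^ (k - m) * p ^ m := by
        rw [← pow_add, Nat.sub_add_cancel hm]
        exact hvlt
      exact lt_of_mul_lt_mul_left h3 (Nat.zero_le _)
    · rw [hv]
      ring
  refine (card_le_card hsub).trans (card_image_le.trans ?_)
  rw [card_range]

open Classical in
/-- **Linnik's lemma**: the number of `x ∈ (ℤ/p^k)^k`, distinct mod `p`, with
`∑ x_i^j ≡ c_j mod p^j`, `1 ≤ j ≤ k`, is at most `k^k p^(k(k-1)/2)`. Here the congruence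
mod `p^j` is expressed by `p^(k-j) * (∑ x_i^j - c_j) = 0`. -/
lemma linnik {p k : ℕ} [Fact p.Prime] (hk : 0 < k) (hp : k < p) (c : Fin k → ZMod (p ^ k)) :
    (univ.filter fun x : Fin k → ZMod (p ^ k) =>
      (∀ i j, i ≠ j → red p k hk (x i) ≠ red p k hk (x j)) ∧
      ∀ j : Fin k, (p : ZMod (p ^ k)) ^ (k - (j.1 + 1)) * (∑ i, x i ^ (j.1 + 1) - c j) = 0).card
      ≤ k ^ k * p ^ (k * (k - 1) / 2) := by
  have hpp : p.Prime := Fact.out
  set S := (univ.filter fun x : Fin k → ZMod (p ^ k) =>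
      (∀ i j, i ≠ j → red p k hk (x i) ≠ red p k hk (x j)) ∧
      ∀ j : Fin k, (p : ZMod (p ^ k)) ^ (k - (j.1 + 1)) * (∑ i, x i ^ (j.1 + 1) - c j) = 0)
    with hS
  let T : Finset (Fin k → ZMod (p ^ k)) := Fintype.piFinset fun j : Fin k =>
    univ.filter fun z : ZMod (p ^ k) => (p : ZMod (p ^ k)) ^ (k - (j.1 + 1)) * (z - c j) = 0
  let Φ : (Fin k → ZMod (p ^ k)) → (Fin k → ZMod (p ^ k)) := fun x j => ∑ i, x i ^ (j.1 + 1)
  have hmaps : ∀ x ∈ S, Φ x ∈ T := by
    intro x hx
    rw [hS, mem_filter] at hx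
    rw [Fintype.mem_piFinset]
    intro j
    rw [mem_filter]
    exact ⟨mem_univ _, hx.2.2 j⟩
  have hfib : ∀ z ∈ T, (S.filter fun x => Φ x = z).card ≤ k ^ k := by
    intro z _
    by_cases hne : (S.filter fun x => Φ x = z).Nonempty
    · obtain ⟨x0, hx0⟩ := hne
      rw [mem_filter, hS, mem_filter] at hx0
      have hsub : (S.filter fun x => Φ x = z) ⊆
          Fintype.piFinset fun _ : Fin k => (univ : Finset (Fin k)).image x0 := by
        intro y hy
        rw [mem_filter, hS, mem_filter] at hy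
        rw [Fintype.mem_piFinset]
        intro i
        have hpow : ∀ j : ℕ, 1 ≤ j → j ≤ k → ∑ i, x0 i ^ j = ∑ i, y i ^ j := by
          intro j h1 h2
          have e1 := congrFun hx0.2 ⟨j - 1, by omega⟩
          have e2 := congrFun hy.2 ⟨j - 1, by omega⟩
          simp only [Φ] at e1 e2
          rw [Nat.sub_add_cancel h1] at e1 e2
          rw [e1, e2]
        obtain ⟨j, hj⟩ := mem_range_of_psum_eq hk x0 y hp hx0.1.2.1 hpow i
        rw [mem_image]
        exact ⟨j, mem_univ _, hj.symm⟩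
      refine (card_le_card hsub).trans ?_
      rw [Fintype.card_piFinset, prod_const, card_univ, Fintype.card_fin]
      exact Nat.pow_le_pow_left (card_image_le.trans (by simp)) k
    · rw [not_nonempty_iff_eq_empty] at hne
      rw [hne, card_empty]
      exact Nat.zero_le _
  have h1 := card_le_mul_card_image_of_maps_to hmaps (k ^ k) hfib
  refine h1.trans (Nat.mul_le_mul_left _ ?_)
  rw [Fintype.card_piFinset]
  calc ∏ j : Fin k, (univ.filter fun z : ZMod (p ^ k) =>
          (p : ZMod (p ^ k)) ^ (k - (j.1 + 1)) * (z - c j) = 0).card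
      ≤ ∏ j : Fin k, p ^ (k - (j.1 + 1)) :=
        prod_le_prod' fun j _ => card_annihilated (by omega) (c j)
    _ = p ^ (∑ j : Fin k, (k - (j.1 + 1))) := (prod_pow_eq_pow_sum _ _ _)
    _ = p ^ (k * (k - 1) / 2) := by
        congr 1
        rw [Fin.sum_univ_eq_sum_range (fun j => k - (j + 1)) k, ← Finset.sum_range_id]
        rw [← Finset.sum_range_reflect]
        refine sum_congr rfl fun j hj => ?_
        have := mem_range.1 hj
        omega

end Vale.Agent.P026.H517
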