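import Vale.Agent.P026.H392.Link

/-!
# M3: the summatory function of `f = 1 * χ₁` at the exceptional zero, preliminaries
-/

namespace Vale.Agent.P026.H517

open Finset Filter Topology Vale.Agent.P026.H392

/-! ### hyperbola method -/

lemma sum_divisors_eq (u v : ℕ → ℂ) (Y : ℕ) :
    ∑ n ∈ Icc 1 Y, ∑ d ∈ n.divisors, v d * u (n / d)
      = ∑ b ∈ Icc 1 Y, ∑ a ∈ Icc 1 (Y / b), v b * u a := by
  rw [sum_sigma', sum_sigma']
  refine sum_bij' (fun x _ => ⟨x.2, x.1 / x.2⟩) (fun x _ => ⟨x.1 * x.2, x.1⟩) ?_ ?_ ?_ ?_ ?_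
  · rintro ⟨n, d⟩ h
    simp only [mem_sigma, mem_Icc, Nat.mem_divisors] at h ⊢
    obtain ⟨⟨h1, h2⟩, h3, h4⟩ := h
    have hd : 0 < d := Nat.pos_of_dvd_of_pos h3 (by omega)
    have hdn : d ≤ n := Nat.le_of_dvd (by omega) h3
    refine ⟨⟨hd, by omega⟩, Nat.div_pos hdn hd, Nat.div_le_div_right h2⟩
  · rintro ⟨b, a⟩ h
    simp only [mem_sigma, mem_Icc, Nat.mem_divisors] at h ⊢
    obtain ⟨⟨h1, h2⟩, h3, h4⟩ := h
    rw [Nat.le_div_iff_mul_le (by omega)] at h4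
    refine ⟨⟨Nat.mul_pos (by omega) (by omega), by rw [mul_comm]; exact h4⟩, dvd_mul_right _ _, ?_⟩
    exact (Nat.mul_pos (by omega) (by omega)).ne'
  · rintro ⟨n, d⟩ h
    simp only [mem_sigma, mem_Icc, Nat.mem_divisors] at h ⊢
    obtain ⟨_, h3, _⟩ := h
    rw [Nat.mul_div_cancel' h3]
  · rintro ⟨b, a⟩ h
    simp only [mem_sigma, mem_Icc] at h ⊢
    rw [Nat.mul_div_cancel_left _ (by omega)]
  · rintro ⟨n, d⟩ _
    rfl

lemma hyperbola (u v : ℕ → ℂ) (Y V : ℕ) (hV : V ≤ Y) :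
    ∑ n ∈ Icc 1 Y, ∑ d ∈ n.divisors, v d * u (n / d)
      = ∑ b ∈ Icc 1 V, v b * ∑ a ∈ Icc 1 (Y / b), u a
        + ∑ a ∈ Icc 1 (Y / (V + 1)), u a * ∑ b ∈ Ioc V (Y / a), v b := by
  rw [sum_divisors_eq]
  have hsplit : Icc 1 Y = Icc 1 V ∪ Ioc V Y := by
    ext x; simp only [mem_Icc, mem_union, mem_Ioc]; omega
  have hdis : Disjoint (Icc 1 V) (Ioc V Y) := by
    rw [disjoint_left]
    intro x hx hx2
    rw [mem_Icc] at hx
    rw [mem_Ioc] at hx2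
    omega
  rw [hsplit, sum_union hdis]
  congr 1
  · refine sum_congr rfl fun b _ => ?_
    rw [mul_sum]
  · rw [sum_comm' (t' := Icc 1 (Y / (V + 1))) (s' := fun a => Ioc V (Y / a))]
    · refine sum_congr rfl fun a _ => ?_
      rw [mul_sum]
      refine sum_congr rfl fun b _ => ?_
      ring
    · intro b a
      simp only [mem_Ioc, mem_Icc]
      constructor
      · rintro ⟨⟨h1, h2⟩, h3, h4⟩
        rw [Nat.le_div_iff_mul_le (by omega)] at h4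
        refine ⟨⟨h1, ?_⟩, h3, ?_⟩
        · rw [Nat.le_div_iff_mul_le (by omega), mul_comm]; exact h4
        · rw [Nat.le_div_iff_mul_le (by omega)]
          exact (Nat.mul_le_mul_left a h1).trans h4
      · rintro ⟨⟨h1, h2⟩, h3, h4⟩
        rw [Nat.le_div_iff_mul_le (by omega)] at h2
        refine ⟨⟨h1, ?_⟩, h3, ?_⟩
        · calc b = b * 1 := (mul_one b).symm
            _ ≤ b * a := Nat.mul_le_mul_left b h3
            _ ≤ Y := h2
        · rw [Nat.le_div_iff_mul_le (by omega), mul_comm]; exact h2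

/-! ### the weights -/

/-- `x^{-β} ((y/x)^δ - 1)/δ`, `β = 1 - δ` -/
noncomputable def wf (δ y x : ℝ) : ℝ := (y ^ δ * x⁻¹ - x ^ (δ - 1)) / δ

noncomputable def Fb (δ x : ℝ) : ℝ := x ^ (δ - 1) * (Real.log x / (1 - δ) + 1 / (1 - δ) ^ 2)

noncomputable def Fa (δ y x : ℝ) : ℝ := wf δ y x + Fb δ x

lemma hasDerivAt_Fb (δ x : ℝ) (hδ : δ < 1) (hx : 0 < x) :
    HasDerivAt (Fb δ) (-(x ^ (δ - 2) * Real.log x)) x := by
  have h1 : HasDerivAt (fun x : ℝ => x ^ (δ - 1)) ((δ - 1) * x ^ (δ - 1 - 1)) x :=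
    Real.hasDerivAt_rpow_const (Or.inl hx.ne')
  have h2 : HasDerivAt (fun x : ℝ => Real.log x / (1 - δ) + 1 / (1 - δ) ^ 2)
      (x⁻¹ / (1 - δ)) x := ((Real.hasDerivAt_log hx.ne').div_const _).add_const _
  have h3 := h1.mul h2
  refine h3.congr_deriv ?_
  have e1 : δ - 1 - 1 = δ - 2 := by ring
  have e2 : x ^ (δ - 1) = x ^ (δ - 2) * x := by
    rw [← Real.rpow_add_one hx.ne']
    congr 1
    ring
  rw [e1, e2]
  have hd : 1 - δ ≠ 0 := by linarith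
  field_simp
  ring

lemma hasDerivAt_wf (δ y x : ℝ) (hx : 0 < x) :
    HasDerivAt (wf δ y) ((-(y ^ δ * (x ^ 2)⁻¹) - (δ - 1) * x ^ (δ - 2)) / δ) x := by
  have h1 : HasDerivAt (fun x : ℝ => x ^ (δ - 1)) ((δ - 1) * x ^ (δ - 1 - 1)) x :=
    Real.hasDerivAt_rpow_const (Or.inl hx.ne')
  have h2 : HasDerivAt (fun x : ℝ => y ^ δ * x⁻¹) (y ^ δ * (-(x ^ 2)⁻¹)) x :=
    (hasDerivAt_inv hx.ne').const_mul _
  have h3 := (h2.sub h1).div_const δ
  refine h3.congr_deriv ?_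
  rw [show δ - 1 - 1 = δ - 2 by ring]
  ring

lemma pow_sub_le (δ x y : ℝ) (hδ : 0 < δ) (hx : 1 ≤ x) (hy : 1 ≤ y) :
    (x ^ δ - y ^ δ) / δ ≤ x ^ δ * Real.log x := by
  have hx0 : 0 < x := by linarith
  have h1 : 1 ≤ y ^ δ := Real.one_le_rpow hy hδ.le
  have h2 : 1 - δ * Real.log x ≤ Real.exp (-(δ * Real.log x)) := by
    have := Real.add_one_le_exp (-(δ * Real.log x))
    linarith
  have h3 : x ^ δ * Real.exp (-(δ * Real.log x)) = 1 := by
    rw [Real.rpow_def_of_pos hx0, ← Real.exp_add]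
    have : Real.log x * δ + -(δ * Real.log x) = 0 := by ring
    rw [this, Real.exp_zero]
  have h4 : 0 < x ^ δ := Real.rpow_pos_of_pos hx0 δ
  rw [div_le_iff₀ hδ]
  have h5 : x ^ δ * (1 - δ * Real.log x) ≤ 1 := by
    calc x ^ δ * (1 - δ * Real.log x) ≤ x ^ δ * Real.exp (-(δ * Real.log x)) :=
          mul_le_mul_of_nonneg_left h2 h4.le
      _ = 1 := h3
  nlinarith

lemma antitoneOn_Fb (δ : ℝ) (hδ : δ < 1) : AntitoneOn (Fb δ) (Set.Ici 1) := by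
  refine antitoneOn_of_deriv_nonpos (convex_Ici 1) ?_ ?_ ?_
  · intro x hx
    exact (hasDerivAt_Fb δ x hδ (lt_of_lt_of_le one_pos hx)).continuousAt.continuousWithinAt
  · intro x hx
    rw [interior_Ici] at hx
    exact (hasDerivAt_Fb δ x hδ (one_pos.trans hx)).differentiableAt.differentiableWithinAt
  · intro x hx
    rw [interior_Ici] at hx
    have hx0 : 0 < x := one_pos.trans hx
    rw [(hasDerivAt_Fb δ x hδ hx0).deriv, neg_nonpos]
    have : 0 ≤ Real.log x := Real.log_nonneg (le_of_lt hx)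
    positivity

lemma antitoneOn_Fa (δ y : ℝ) (hδ0 : 0 < δ) (hδ : δ < 1) (hy : 1 ≤ y) :
    AntitoneOn (Fa δ y) (Set.Ici 1) := by
  have hd : ∀ x : ℝ, 0 < x → HasDerivAt (Fa δ y)
      ((-(y ^ δ * (x ^ 2)⁻¹) - (δ - 1) * x ^ (δ - 2)) / δ + -(x ^ (δ - 2) * Real.log x)) x :=
    fun x hx => (hasDerivAt_wf δ y x hx).add (hasDerivAt_Fb δ x hδ hx)
  refine antitoneOn_of_deriv_nonpos (convex_Ici 1) ?_ ?_ ?_
  · intro x hx
    exact (hd x (lt_of_lt_of_le one_pos hx)).continuousAt.continuousWithinAt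
  · intro x hx
    rw [interior_Ici] at hx
    exact (hd x (one_pos.trans hx)).differentiableAt.differentiableWithinAt
  · intro x hx
    rw [interior_Ici] at hx
    have hx0 : 0 < x := one_pos.trans hx
    have hx1 : 1 ≤ x := le_of_lt hx
    rw [(hd x hx0).deriv]
    have e1 : x ^ (δ - 2) = x ^ δ * (x ^ 2)⁻¹ := by
      rw [Real.rpow_sub hx0, div_eq_mul_inv]
      norm_num
    have h1 := pow_sub_le δ x y hδ0 hx1 hy
    have hi : 0 < (x ^ 2)⁻¹ := by positivity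
    have e2 : (-(y ^ δ * (x ^ 2)⁻¹) - (δ - 1) * x ^ (δ - 2)) / δ + -(x ^ (δ - 2) * Real.log x)
        = (x ^ 2)⁻¹ * ((x ^ δ - y ^ δ) / δ - x ^ δ * Real.log x - x ^ δ) := by
      rw [e1]
      field_simp
      ring
    rw [e2]
    have h2 : 0 < x ^ δ := Real.rpow_pos_of_pos hx0 δ
    exact mul_nonpos_of_nonneg_of_nonpos hi.le (by linarith)

lemma Fb_nonneg (δ x : ℝ) (hδ : δ < 1) (hx : 1 ≤ x) : 0 ≤ Fb δ x := by
  rw [Fb]
  have h1 : 0 ≤ Real.log x := Real.log_nonneg hx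
  have h2 : 0 < 1 - δ := by linarith
  have h3 : 0 < x := by linarith
  positivity

lemma Fa_nonneg (δ y x : ℝ) (hδ0 : 0 < δ) (hδ : δ < 1) (hx : 1 ≤ x) (hy : 1 ≤ y) :
    0 ≤ Fa δ y x := by
  have hx0 : 0 < x := by linarith
  have h1 := pow_sub_le δ x y hδ0 hx hy
  have hlog : 0 ≤ Real.log x := Real.log_nonneg hx
  have e1 : x ^ (δ - 1) = x ^ δ * x⁻¹ := by
    rw [Real.rpow_sub hx0, Real.rpow_one, div_eq_mul_inv]
  have h2 : 0 < x ^ δ := Real.rpow_pos_of_pos hx0 δ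
  have hd : 0 < 1 - δ := by linarith
  have h3 : Real.log x ≤ Real.log x / (1 - δ) + 1 / (1 - δ) ^ 2 := by
    have : Real.log x ≤ Real.log x / (1 - δ) := by
      rw [le_div_iff₀ hd]
      nlinarith
    have h5 : 0 < 1 / (1 - δ) ^ 2 := by positivity
    linarith
  have h4 : wf δ y x = -(x⁻¹ * ((x ^ δ - y ^ δ) / δ)) := by
    rw [wf, e1]
    field_simp
    ring
  rw [Fa, h4, Fb, e1]
  have h5 : x⁻¹ * ((x ^ δ - y ^ δ) / δ) ≤ x⁻¹ * (x ^ δ * Real.log x) :=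
    mul_le_mul_of_nonneg_left h1 (by positivity)
  have h6 : x ^ δ * x⁻¹ * Real.log x ≤ x ^ δ * x⁻¹ * (Real.log x / (1 - δ) + 1 / (1 - δ) ^ 2) :=
    mul_le_mul_of_nonneg_left h3 (by positivity)
  nlinarith

/-! ### character sums -/

lemma sum_period {q : ℕ} [NeZero q] {χ : DirichletCharacter ℂ q} (hχ : χ ≠ 1) (c : ℕ) :
    ∑ i ∈ range q, χ ((c + i : ℕ) : ZMod q) = 0 := by
  have h1 := sum_range_zmod (q := q) (fun x => χ ((c : ZMod q) + x))
  have h2 : ∑ x : ZMod q, χ ((c : ZMod q) + x) = ∑ x : ZMod q, χ x :=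
    Equiv.sum_comp (Equiv.addLeft (c : ZMod q)) (fun x => χ x)
  rw [h2, MulChar.sum_eq_zero_of_ne_one hχ] at h1
  rw [← h1]
  refine sum_congr rfl fun i _ => ?_
  push_cast
  rfl

lemma norm_sum_range_char_le {q : ℕ} [NeZero q] {χ : DirichletCharacter ℂ q} (hχ : χ ≠ 1)
    (L : ℕ) : ∀ c : ℕ, ‖∑ i ∈ range L, χ ((c + i : ℕ) : ZMod q)‖ ≤ q := by
  have hq : 0 < q := Nat.pos_of_ne_zero (NeZero.ne q)
  induction L using Nat.strong_induction_on with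
  | _ L ih =>
    intro c
    rcases lt_or_ge L q with h | h
    · calc ‖∑ i ∈ range L, χ ((c + i : ℕ) : ZMod q)‖
          ≤ ∑ i ∈ range L, ‖χ ((c + i : ℕ) : ZMod q)‖ := norm_sum_le _ _
        _ ≤ ∑ _i ∈ range L, (1 : ℝ) := sum_le_sum fun i _ => χ.norm_le_one _
        _ = L := by simp
        _ ≤ q := by exact_mod_cast h.le
    · obtain ⟨L', rfl⟩ : ∃ L', L = q + L' := ⟨L - q, by omega⟩
      rw [sum_range_add, sum_period hχ, zero_add]
      have := ih L' (by omega) (c + q)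
      refine le_trans (le_of_eq ?_) this
      congr 1
      refine sum_congr rfl fun i _ => ?_
      congr 2
      ring

lemma norm_sum_char_le {q : ℕ} [NeZero q] {χ : DirichletCharacter ℂ q} (hχ : χ ≠ 1)
    (N M : ℕ) : ‖∑ n ∈ Ioc N M, χ (n : ZMod q)‖ ≤ q := by
  have h := norm_sum_range_char_le hχ (M - N) (N + 1)
  refine le_trans (le_of_eq ?_) h
  congr 1
  rw [← Finset.Ico_add_one_add_one_eq_Ioc, Finset.sum_Ico_eq_sum_range]
  have : M + 1 - (N + 1) = M - N := by omega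
  rw [this]

/-- Abel summation for a real weight which is antitone and nonnegative on `[V, ∞)`. -/
lemma char_abel {q : ℕ} [NeZero q] {χ : DirichletCharacter ℂ q} (hχ : χ ≠ 1)
    (w : ℕ → ℝ) (V N : ℕ) (hVN : V ≤ N) (h0 : ∀ n, V ≤ n → 0 ≤ w n)
    (hw : ∀ n, V ≤ n → w (n + 1) ≤ w n) :
    ‖∑ n ∈ Ioc V N, (w n : ℂ) * χ (n : ZMod q)‖ ≤ w V * q :=
  abel_bound hVN h0 hw fun M _ _ => norm_sum_char_le hχ V M

/-- The tail of the main sum. -/
lemma tail_main {q : ℕ} [NeZero q] {χ : DirichletCharacter ℂ q} (hχ : χ ≠ 1)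
    (δ y : ℝ) (hδ0 : 0 < δ) (hδ : δ < 1) (hy : 1 ≤ y) (V N : ℕ) (hV : 1 ≤ V) (hVN : V ≤ N) :
    ‖∑ n ∈ Ioc V N, (wf δ y n : ℂ) * χ (n : ZMod q)‖ ≤ (wf δ y V + 2 * Fb δ V) * q := by
  have hcast : ∀ n : ℕ, V ≤ n → (1 : ℝ) ≤ n := fun n hn => by exact_mod_cast hV.trans hn
  have h1 := char_abel hχ (fun n => Fa δ y n) V N hVN
    (fun n hn => Fa_nonneg δ y n hδ0 hδ (hcast n hn) hy)
    (fun n hn => antitoneOn_Fa δ y hδ0 hδ hy (hcast n hn) (hcast (n + 1) (by omega))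
      (by push_cast; linarith))
  have h2 := char_abel hχ (fun n => Fb δ n) V N hVN
    (fun n hn => Fb_nonneg δ n hδ (hcast n hn))
    (fun n hn => antitoneOn_Fb δ hδ (hcast n hn) (hcast (n + 1) (by omega))
      (by push_cast; linarith))
  have h3 : ∑ n ∈ Ioc V N, (wf δ y n : ℂ) * χ (n : ZMod q)
      = ∑ n ∈ Ioc V N, (Fa δ y n : ℂ) * χ (n : ZMod q)
        - ∑ n ∈ Ioc V N, (Fb δ n : ℂ) * χ (n : ZMod q) := by
    rw [← sum_sub_distrib]
    refine sum_congr rfl fun n _ => ?_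
    rw [Fa]
    push_cast
    ring
  rw [h3]
  refine (norm_sub_le _ _).trans ?_
  refine (add_le_add h1 h2).trans (le_of_eq ?_)
  simp only [Fa]
  ring

/-- tail of the L-series -/
lemma tail_beta {q : ℕ} [NeZero q] {χ : DirichletCharacter ℂ q} (hχ : χ ≠ 1)
    (δ : ℝ) (hδ : δ < 1) (V N : ℕ) (hV : 1 ≤ V) (hVN : V ≤ N) :
    ‖∑ n ∈ Ioc V N, (((n : ℝ) ^ (δ - 1) : ℝ) : ℂ) * χ (n : ZMod q)‖ ≤ (V : ℝ) ^ (δ - 1) * q := by
  refine char_abel hχ (fun n => (n : ℝ) ^ (δ - 1)) V N hVN (fun n _ => by positivity) ?_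
  intro n hn
  have h1 : (0 : ℝ) < n := by exact_mod_cast (by omega : 0 < n)
  exact Real.rpow_le_rpow_of_nonpos h1 (by push_cast; linarith) (by linarith)

end Vale.Agent.P026.H517
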