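import Vale.Agent.P026.H517.M3a

/-!
# M3: the summatory function of `f = 1 * χ₁` at the exceptional zero
-/

namespace Vale.Agent.P026.H517

open Finset Filter Topology Vale.Agent.P026.H392

lemma pw_real (σ : ℝ) {x : ℝ} (hx : 0 ≤ x) : pw (σ : ℂ) x = ((x ^ (-σ) : ℝ) : ℂ) := by
  rw [pw, Complex.ofReal_cpow hx]
  push_cast
  rfl

lemma pw_real' (δ : ℝ) {x : ℝ} (hx : 0 ≤ x) : pw ((1 - δ : ℝ) : ℂ) x = ((x ^ (δ - 1) : ℝ) : ℂ) := by
  rw [pw_real _ hx]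
  congr 2
  ring

/-- partial sums of the L-series on the real axis -/
lemma tendsto_char {q : ℕ} [NeZero q] {χ : DirichletCharacter ℂ q} (hχ : χ ≠ 1) (δ : ℝ)
    (hδ : δ < 1 / 2) :
    Tendsto (fun N : ℕ => ∑ n ∈ Icc 1 N, (((n : ℝ) ^ (δ - 1) : ℝ) : ℂ) * χ (n : ZMod q)) atTop
      (𝓝 (DirichletCharacter.LFunction χ ((1 - δ : ℝ) : ℂ))) := by
  have h := link_char hχ (s := ((1 - δ : ℝ) : ℂ)) (by rw [Complex.ofReal_re]; linarith)
  refine h.congr fun N => ?_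
  rw [FF, mean_char hχ, zero_mul, sub_zero]
  refine sum_congr rfl fun n _ => ?_
  rw [pw_real' δ (Nat.cast_nonneg n), mul_comm]

lemma Icc_split (V N : ℕ) (hVN : V ≤ N) (f : ℕ → ℂ) :
    ∑ n ∈ Icc 1 N, f n = ∑ n ∈ Icc 1 V, f n + ∑ n ∈ Ioc V N, f n := by
  have hsplit : Icc 1 N = Icc 1 V ∪ Ioc V N := by
    ext x; simp only [mem_Icc, mem_union, mem_Ioc]; omega
  have hdis : Disjoint (Icc 1 V) (Ioc V N) := by
    rw [disjoint_left]
    intro x hx hx2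
    rw [mem_Icc] at hx
    rw [mem_Ioc] at hx2
    omega
  rw [hsplit, sum_union hdis]

lemma norm_sub_le_of_tendsto {f : ℕ → ℂ} {l : ℂ} {V : ℕ} {B : ℝ}
    (h : Tendsto (fun N : ℕ => ∑ n ∈ Icc 1 N, f n) atTop (𝓝 l))
    (hB : ∀ N, V ≤ N → ‖∑ n ∈ Ioc V N, f n‖ ≤ B) : ‖∑ n ∈ Icc 1 V, f n - l‖ ≤ B := by
  have h1 : Tendsto (fun N : ℕ => ‖∑ n ∈ Icc 1 V, f n - ∑ n ∈ Icc 1 N, f n‖) atTop
      (𝓝 ‖∑ n ∈ Icc 1 V, f n - l‖) := (tendsto_const_nhds.sub h).norm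
  refine le_of_tendsto h1 ?_
  filter_upwards [eventually_ge_atTop V] with N hN
  rw [Icc_split V N hN f]
  have : ∑ n ∈ Icc 1 V, f n - (∑ n ∈ Icc 1 V, f n + ∑ n ∈ Ioc V N, f n)
      = -∑ n ∈ Ioc V N, f n := by ring
  rw [this, norm_neg]
  exact hB N hN

/-- main term of the first sum -/
lemma main_term {q : ℕ} [NeZero q] {χ : DirichletCharacter ℂ q} (hχ : χ ≠ 1)
    (δ y : ℝ) (hδ0 : 0 < δ) (hδ : δ < 1 / 2) (hy : 1 ≤ y) (V : ℕ) (hV : 1 ≤ V)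
    (hz : DirichletCharacter.LFunction χ ((1 - δ : ℝ) : ℂ) = 0) :
    ‖∑ n ∈ Icc 1 V, (wf δ y n : ℂ) * χ (n : ZMod q)
      - DirichletCharacter.LFunction χ 1 / δ * ((y ^ δ : ℝ) : ℂ)‖
      ≤ (wf δ y V + 2 * Fb δ V) * q := by
  refine norm_sub_le_of_tendsto ?_ fun N hN => tail_main hχ δ y hδ0 (by linarith) hy V N hV hN
  have h1 := tendsto_char hχ 0 (by norm_num)
  have h2 := tendsto_char hχ δ hδ
  rw [hz] at h2
  have h0 : ((1 - 0 : ℝ) : ℂ) = 1 := by simp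
  rw [h0] at h1
  have h3 := ((h1.const_mul ((y ^ δ : ℝ) : ℂ)).sub h2).div_const (δ : ℂ)
  have h4 : ((y ^ δ : ℝ) : ℂ) * DirichletCharacter.LFunction χ 1 - 0 = _ := rfl
  have h5 : (((y ^ δ : ℝ) : ℂ) * DirichletCharacter.LFunction χ 1 - 0) / (δ : ℂ)
      = DirichletCharacter.LFunction χ 1 / δ * ((y ^ δ : ℝ) : ℂ) := by ring
  rw [h5] at h3
  refine h3.congr fun N => ?_
  rw [mul_sum, ← sum_sub_distrib, sum_div]
  refine sum_congr rfl fun n _ => ?_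
  rw [wf]
  have : ((n : ℝ)) ^ ((0 : ℝ) - 1) = (n : ℝ)⁻¹ := by
    rw [zero_sub, Real.rpow_neg_one]
  rw [this]
  push_cast
  ring

lemma beta_term {q : ℕ} [NeZero q] {χ : DirichletCharacter ℂ q} (hχ : χ ≠ 1)
    (δ : ℝ) (hδ : δ < 1 / 2) (V : ℕ) (hV : 1 ≤ V)
    (hz : DirichletCharacter.LFunction χ ((1 - δ : ℝ) : ℂ) = 0) :
    ‖∑ n ∈ Icc 1 V, (((n : ℝ) ^ (δ - 1) : ℝ) : ℂ) * χ (n : ZMod q)‖
      ≤ (V : ℝ) ^ (δ - 1) * q := by
  have h := norm_sub_le_of_tendsto (V := V) (B := (V : ℝ) ^ (δ - 1) * q) (tendsto_char hχ δ hδ)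
    (fun N hN => tail_beta hχ δ (by linarith) V N hV hN)
  rwa [hz, sub_zero] at h

/-! ### partial sums of zeta on the real axis -/

/-- `A(n) = ∑_{a ≤ n} a^{-β}` -/
noncomputable def Az (δ : ℝ) (n : ℕ) : ℂ := ∑ a ∈ Icc 1 n, pw ((1 - δ : ℝ) : ℂ) a

lemma half_rpow (δ : ℝ) (hδ0 : 0 < δ) (hδ : δ < 1) {m x : ℝ} (hx : 0 < x) (hm : x / 2 ≤ m) :
    m ^ (δ - 1) ≤ 2 * x ^ (δ - 1) := by
  calc m ^ (δ - 1) ≤ (x / 2) ^ (δ - 1) :=
        Real.rpow_le_rpow_of_nonpos (by positivity) hm (by linarith)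
    _ = (2 : ℝ) ^ (1 - δ) * x ^ (δ - 1) := by
        rw [div_eq_mul_inv, Real.mul_rpow hx.le (by norm_num), Real.inv_rpow (by norm_num),
          ← Real.rpow_neg (by norm_num), mul_comm]
        congr 2
        ring
    _ ≤ 2 * x ^ (δ - 1) := by
        refine mul_le_mul_of_nonneg_right ?_ (by positivity)
        calc (2 : ℝ) ^ (1 - δ) ≤ (2 : ℝ) ^ (1 : ℝ) :=
              Real.rpow_le_rpow_of_exponent_le (by norm_num) (by linarith)
          _ = 2 := Real.rpow_one 2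

lemma rpow_sub_le_mul (δ : ℝ) (hδ0 : 0 < δ) (hδ : δ < 1) {m x : ℝ} (hm : 0 < m) (hmx : m ≤ x) :
    (x ^ δ - m ^ δ) / δ ≤ m ^ (δ - 1) * (x - m) := by
  have h1 : (1 + (x / m - 1)) ^ δ ≤ 1 + δ * (x / m - 1) := by
    refine rpow_one_add_le_one_add_mul_self ?_ hδ0.le hδ.le
    have : 1 ≤ x / m := by rw [le_div_iff₀ hm]; linarith
    linarith
  have h2 : (1 + (x / m - 1)) = x / m := by ring
  rw [h2, Real.div_rpow (by linarith) hm.le] at h1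
  have hmδ : 0 < m ^ δ := Real.rpow_pos_of_pos hm δ
  rw [div_le_iff₀ hmδ] at h1
  rw [div_le_iff₀ hδ0]
  have e1 : m ^ (δ - 1) = m ^ δ / m := by rw [Real.rpow_sub hm, Real.rpow_one]
  rw [e1]
  have : (1 + δ * (x / m - 1)) * m ^ δ = m ^ δ + m ^ δ / m * (x - m) * δ := by
    field_simp
  linarith

lemma exists_gamma (δ : ℝ) (hδ0 : 0 < δ) (hδ : δ < 1 / 2) : ∃ γ : ℂ, ‖γ‖ ≤ 12 ∧
    ∀ x : ℝ, 1 ≤ x → ‖Az δ ⌊x⌋₊ - ((((x ^ δ - 1) / δ : ℝ) : ℂ) + γ)‖ ≤ 42 * x ^ (δ - 1) := by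
  have hre : ((1 - δ : ℝ) : ℂ).re = 1 - δ := Complex.ofReal_re _
  obtain ⟨ℓ, -, hℓ⟩ := exists_ell_em (s := ((1 - δ : ℝ) : ℂ)) (by rw [hre]; linarith)
    (q := 1) one_pos (ψ := fun _ => 1) (by simp) (by simp)
  have hnorm : ‖((1 - δ : ℝ) : ℂ)‖ ≤ 1 := by
    rw [Complex.norm_real, Real.norm_of_nonneg (by linarith)]
    linarith
  have hFF : ∀ n : ℕ, 1 ≤ n → FF 1 (fun _ => 1) ((1 - δ : ℝ) : ℂ) n
      = Az δ n - ((((n : ℝ) ^ δ - 1) / δ : ℝ) : ℂ) := by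
    intro n hn
    have hn0 : (0 : ℝ) < n := by exact_mod_cast hn
    rw [FF, mean_one, one_mul, integral_pw ?_ one_pos hn0, Az]
    · congr 1
      · refine sum_congr rfl fun k _ => by rw [one_mul]
      · have e1 : ((1 - δ : ℝ) : ℂ) - 1 = ((-δ : ℝ) : ℂ) := by push_cast; ring
        rw [e1, pw_real _ hn0.le, pw_real _ zero_le_one, neg_neg, Real.one_rpow]
        push_cast
        congr 1
        ring
    · intro h
      have h2 := congrArg Complex.re h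
      rw [hre, Complex.one_re] at h2
      linarith
  have hb : ∀ M : ℕ, 1 ≤ M → ∀ n, M + 1 ≤ n →
      ‖FF 1 (fun _ => 1) ((1 - δ : ℝ) : ℂ) n - ℓ‖ ≤ 10 * (M : ℝ) ^ (δ - 1) := by
    intro M hM n hn
    have := hℓ M hM n (by omega)
    rw [hre] at this
    refine this.trans ?_
    rw [Nat.cast_one, Real.one_rpow, one_mul]
    have e : -(1 - δ) = δ - 1 := by ring
    rw [e]
    refine mul_le_mul_of_nonneg_right (by linarith) (by positivity)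
  have hF1 : FF 1 (fun _ => 1) ((1 - δ : ℝ) : ℂ) 1 = 1 := by
    rw [hFF 1 le_rfl, Az]
    simp [pw]
  have hF2 : ‖FF 1 (fun _ => 1) ((1 - δ : ℝ) : ℂ) 2 - 1‖ ≤ 1 := by
    rw [hFF 2 (by norm_num), Az]
    have e1 : ∑ a ∈ Icc (1 : ℕ) 2, pw ((1 - δ : ℝ) : ℂ) ((a : ℕ) : ℝ)
        = 1 + (((2 : ℝ) ^ (δ - 1) : ℝ) : ℂ) := by
      rw [show Icc (1 : ℕ) 2 = {1, 2} by rfl, sum_pair (by norm_num)]
      congr 1
      · simp [pw]
      · have := pw_real' δ (x := 2) (by norm_num)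
        simpa using this
    rw [e1]
    have e2 : 1 + (((2 : ℝ) ^ (δ - 1) : ℝ) : ℂ) - ((((2 : ℕ) : ℝ) ^ δ - 1) / δ : ℝ) - 1
        = (((2 : ℝ) ^ (δ - 1) - ((2 : ℝ) ^ δ - 1) / δ : ℝ) : ℂ) := by
      push_cast
      ring
    rw [e2, Complex.norm_real, Real.norm_eq_abs, abs_le]
    have e3 : 0 < (2 : ℝ) ^ (δ - 1) := by positivity
    have e4 : (2 : ℝ) ^ (δ - 1) ≤ 1 := Real.rpow_le_one_of_one_le_of_nonpos (by norm_num) (by linarith)
    have e5 := rpow_sub_le_mul δ hδ0 (by linarith) (m := 1) (x := 2) one_pos (by norm_num)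
    rw [Real.one_rpow, Real.one_rpow] at e5
    have e6 : 0 ≤ ((2 : ℝ) ^ δ - 1) / δ := by
      have : 1 ≤ (2 : ℝ) ^ δ := Real.one_le_rpow (by norm_num) hδ0.le
      exact div_nonneg (by linarith) hδ0.le
    constructor <;> linarith
  have h21 : ‖FF 1 (fun _ => 1) ((1 - δ : ℝ) : ℂ) 2 - ℓ‖ ≤ 10 := by
    have := hb 1 le_rfl 2 le_rfl
    simpa using this
  have hℓ1 : ‖1 - ℓ‖ ≤ 11 := by
    have : 1 - ℓ = (FF 1 (fun _ => 1) ((1 - δ : ℝ) : ℂ) 2 - ℓ)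
      - (FF 1 (fun _ => 1) ((1 - δ : ℝ) : ℂ) 2 - 1) := by ring
    rw [this]
    refine (norm_sub_le _ _).trans ?_
    linarith
  refine ⟨ℓ, ?_, ?_⟩
  · have : ℓ = 1 - (1 - ℓ) := by ring
    rw [this]
    refine (norm_sub_le _ _).trans ?_
    rw [norm_one]
    linarith
  · intro x hx
    have hx0 : 0 < x := by linarith
    set n : ℕ := ⌊x⌋₊ with hn
    have hn1 : 1 ≤ n := (Nat.one_le_floor_iff x).2 hx
    have hnx : (n : ℝ) ≤ x := Nat.floor_le hx0.le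
    have hnx2 : x < n + 1 := Nat.lt_floor_add_one x
    have hnr : (1 : ℝ) ≤ n := by exact_mod_cast hn1
    have hhalf : x / 2 ≤ n := by linarith
    have hFn : ‖FF 1 (fun _ => 1) ((1 - δ : ℝ) : ℂ) n - ℓ‖ ≤ 20 * (n : ℝ) ^ (δ - 1) := by
      rcases Nat.lt_or_ge n 2 with h | h
      · have : n = 1 := by omega
        rw [this, hF1]
        simp only [Nat.cast_one, Real.one_rpow]
        linarith
      · have h3 := hb (n - 1) (by omega) n (by omega)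
        have h4 : (n : ℝ) / 2 ≤ ((n - 1 : ℕ) : ℝ) := by
          rw [Nat.cast_sub (by omega)]
          push_cast
          have : (2 : ℝ) ≤ n := by exact_mod_cast h
          linarith
        have h5 := half_rpow δ hδ0 (by linarith) (x := n) (m := ((n - 1 : ℕ) : ℝ))
          (by linarith) h4
        linarith
    rw [hFF n hn1] at hFn
    have h6 := rpow_sub_le_mul δ hδ0 (by linarith) (m := n) (x := x) (by linarith) hnx
    have h7 : (n : ℝ) ^ (δ - 1) * (x - n) ≤ (n : ℝ) ^ (δ - 1) := by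
      have : 0 ≤ (n : ℝ) ^ (δ - 1) := by positivity
      nlinarith
    have h8 : 0 ≤ (x ^ δ - (n : ℝ) ^ δ) / δ := by
      have : (n : ℝ) ^ δ ≤ x ^ δ := Real.rpow_le_rpow (by linarith) hnx hδ0.le
      exact div_nonneg (by linarith) hδ0.le
    have h9 : Az δ n - ((((x ^ δ - 1) / δ : ℝ) : ℂ) + ℓ)
        = (Az δ n - ((((n : ℝ) ^ δ - 1) / δ : ℝ) : ℂ) - ℓ)
          - (((x ^ δ - (n : ℝ) ^ δ) / δ : ℝ) : ℂ) := by
      push_cast
      ring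
    rw [h9]
    refine (norm_sub_le _ _).trans ?_
    rw [Complex.norm_real, Real.norm_of_nonneg h8]
    have h10 := half_rpow δ hδ0 (by linarith) (x := x) (m := n) hx0 hhalf
    linarith

end Vale.Agent.P026.H517
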