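import Vale.Agent.P026.H517.M3b

/-!
# M3a: `∑_{n ≤ y} n^{-β} (1 * χ₁)(n) = L(1,χ₁)/δ * y^δ + O(q y^{-1/8})` when `L(β,χ₁)=0`
-/

namespace Vale.Agent.P026.H517

open Finset Filter Topology Vale.Agent.P026.H392

/-- summatory function of a Dirichlet convolution -/
noncomputable def conv (u v : ℕ → ℂ) (y : ℝ) : ℂ :=
  ∑ n ∈ Icc 1 ⌊y⌋₊, ∑ d ∈ n.divisors, u d * v (n / d)

lemma conv_comm (u v : ℕ → ℂ) (y : ℝ) : conv u v y = conv v u y := by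
  unfold conv
  refine sum_congr rfl fun n hn => ?_
  rw [← Nat.sum_div_divisors n (fun d => u d * v (n / d))]
  refine sum_congr rfl fun d hd => ?_
  have hdn := Nat.dvd_of_mem_divisors hd
  have hn0 : n ≠ 0 := by
    rw [mem_Icc] at hn
    omega
  rw [Nat.div_div_self hdn hn0, mul_comm]

section params

variable {δ h : ℝ}

lemma h_pow_le (hδ : δ ≤ 1 / 8) (hh : 1 ≤ h) : (h ^ 4) ^ (δ - 1) ≤ h⁻¹ ^ 3 := by
  have h0 : 0 < h := by linarith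
  rw [← Real.rpow_natCast h 4, ← Real.rpow_mul h0.le]
  calc h ^ (((4 : ℕ) : ℝ) * (δ - 1)) ≤ h ^ (-3 : ℝ) :=
        Real.rpow_le_rpow_of_exponent_le hh (by push_cast; linarith)
    _ = h⁻¹ ^ 3 := by
        rw [inv_pow, Real.rpow_neg h0.le]
        norm_num

lemma V_pow_le (hδ0 : 0 < δ) (hδ : δ ≤ 1 / 8) (hh : 1 ≤ h) {V : ℕ} (hV2 : h ^ 4 / 2 ≤ V) :
    (V : ℝ) ^ (δ - 1) ≤ 2 * h⁻¹ ^ 3 := by
  have h0 : 0 < h := by linarith
  have h1 := half_rpow δ hδ0 (by linarith) (x := h ^ 4) (m := V) (by positivity) hV2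
  have h2 := h_pow_le hδ hh
  linarith

lemma wf_V_le (hδ0 : 0 < δ) (hδ : δ ≤ 1 / 8) (hh : 1 ≤ h) {y : ℝ} (hy : y = h ^ 8) {V : ℕ}
    (hV1 : 1 ≤ V) (hV2 : h ^ 4 / 2 ≤ V) : wf δ y V ≤ 16 * h⁻¹ ^ 2 := by
  have h0 : 0 < h := by linarith
  have hVr : (1 : ℝ) ≤ V := by exact_mod_cast hV1
  have hV0 : (0 : ℝ) < V := by linarith
  have hy1 : 1 ≤ y := by rw [hy]; exact one_le_pow₀ hh
  have e1 : (V : ℝ) ^ (δ - 1) = (V : ℝ) ^ δ * (V : ℝ)⁻¹ := by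
    rw [Real.rpow_sub hV0, Real.rpow_one, div_eq_mul_inv]
  have e2 : wf δ y V = (V : ℝ)⁻¹ * ((y ^ δ - (V : ℝ) ^ δ) / δ) := by
    rw [wf, e1]
    ring
  have h1 := pow_sub_le δ y V hδ0 hy1 hVr
  have h2 : y ^ δ ≤ h := by
    rw [hy, ← Real.rpow_natCast h 8, ← Real.rpow_mul h0.le]
    calc h ^ (((8 : ℕ) : ℝ) * δ) ≤ h ^ (1 : ℝ) :=
          Real.rpow_le_rpow_of_exponent_le hh (by push_cast; linarith)
      _ = h := Real.rpow_one h
  have h3 : Real.log y ≤ 8 * h := by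
    rw [hy, Real.log_pow]
    have := Real.log_le_sub_one_of_pos h0
    push_cast
    linarith
  have hly : 0 ≤ Real.log y := Real.log_nonneg hy1
  have h4 : y ^ δ * Real.log y ≤ h * (8 * h) := mul_le_mul h2 h3 hly h0.le
  have h5 : (V : ℝ)⁻¹ ≤ 2 * h⁻¹ ^ 4 := by
    calc (V : ℝ)⁻¹ ≤ (h ^ 4 / 2)⁻¹ := inv_anti₀ (by positivity) hV2
      _ = 2 * h⁻¹ ^ 4 := by
        rw [inv_div, inv_pow]
        ring
  rw [e2]
  calc (V : ℝ)⁻¹ * ((y ^ δ - (V : ℝ) ^ δ) / δ) ≤ (V : ℝ)⁻¹ * (h * (8 * h)) :=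
        mul_le_mul_of_nonneg_left (h1.trans h4) (by positivity)
    _ ≤ 2 * h⁻¹ ^ 4 * (h * (8 * h)) := mul_le_mul_of_nonneg_right h5 (by positivity)
    _ = 16 * h⁻¹ ^ 2 := by
        field_simp
        ring

lemma Fb_V_le (hδ0 : 0 < δ) (hδ : δ ≤ 1 / 8) (hh : 1 ≤ h) {V : ℕ} (hV1 : 1 ≤ V)
    (hV2 : h ^ 4 / 2 ≤ V) (hV3 : (V : ℝ) ≤ h ^ 4) : Fb δ V ≤ 10 * h⁻¹ ^ 2 := by
  have h0 : 0 < h := by linarith
  have hVr : (1 : ℝ) ≤ V := by exact_mod_cast hV1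
  have hlog : Real.log V ≤ 4 * (h - 1) := by
    have h1 : Real.log V ≤ Real.log (h ^ 4) := Real.log_le_log (by linarith) hV3
    rw [Real.log_pow] at h1
    have := Real.log_le_sub_one_of_pos h0
    push_cast at h1
    linarith
  have hlog0 : 0 ≤ Real.log V := Real.log_nonneg hVr
  have hd : 7 / 8 ≤ 1 - δ := by linarith
  have h2 : Real.log V / (1 - δ) ≤ 4 * (h - 1) * (8 / 7) := by
    rw [div_le_iff₀ (by linarith)]
    have : 0 ≤ 4 * (h - 1) * (8 / 7) := by nlinarith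
    nlinarith
  have h3 : 1 / (1 - δ) ^ 2 ≤ 64 / 49 := by
    rw [div_le_iff₀ (by positivity)]
    nlinarith
  have h4 : Real.log V / (1 - δ) + 1 / (1 - δ) ^ 2 ≤ 5 * h := by linarith
  rw [Fb]
  have h5 := V_pow_le hδ0 hδ hh hV2
  have h6 : 0 ≤ Real.log V / (1 - δ) + 1 / (1 - δ) ^ 2 := by positivity
  calc (V : ℝ) ^ (δ - 1) * (Real.log V / (1 - δ) + 1 / (1 - δ) ^ 2)
      ≤ (2 * h⁻¹ ^ 3) * (5 * h) := mul_le_mul h5 h4 h6 (by positivity)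
    _ = 10 * h⁻¹ ^ 2 := by
        field_simp
        ring

/-- crude bound for the partial sums of zeta -/
lemma norm_Az_le (hδ0 : 0 < δ) (hδ : δ ≤ 1 / 8) (hh : 1 ≤ h) {n : ℕ} (hn : (n : ℝ) ≤ h ^ 4) :
    ‖Az δ n‖ ≤ 58 * h ^ 2 := by
  have h0 : 0 < h := by linarith
  rcases Nat.eq_zero_or_pos n with rfl | hn1
  · rw [Az]
    simp
    positivity
  · obtain ⟨γ, hγ, hA⟩ := exists_gamma δ hδ0 (by linarith)
    have hnr : (1 : ℝ) ≤ n := by exact_mod_cast hn1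
    have h1 := hA n hnr
    rw [Nat.floor_natCast] at h1
    have h2 : (n : ℝ) ^ (δ - 1) ≤ 1 := Real.rpow_le_one_of_one_le_of_nonpos hnr (by linarith)
    have h3 : Az δ n = (Az δ n - (((((n : ℝ) ^ δ - 1) / δ : ℝ) : ℂ) + γ))
        + (((((n : ℝ) ^ δ - 1) / δ : ℝ) : ℂ) + γ) := by ring
    have h4 : 0 ≤ ((n : ℝ) ^ δ - 1) / δ := by
      have := Real.one_le_rpow hnr hδ0.le
      exact div_nonneg (by linarith) hδ0.le
    have h5 := pow_sub_le δ n 1 hδ0 hnr le_rfl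
    rw [Real.one_rpow] at h5
    have h6 : (n : ℝ) ^ δ ≤ h := by
      calc (n : ℝ) ^ δ ≤ (h ^ 4) ^ δ := Real.rpow_le_rpow (by linarith) hn hδ0.le
        _ = h ^ (((4 : ℕ) : ℝ) * δ) := by
            rw [← Real.rpow_natCast h 4, ← Real.rpow_mul h0.le]
        _ ≤ h ^ (1 : ℝ) := Real.rpow_le_rpow_of_exponent_le hh (by push_cast; linarith)
        _ = h := Real.rpow_one h
    have h7 : Real.log n ≤ 4 * h := by
      have h1 : Real.log n ≤ Real.log (h ^ 4) := Real.log_le_log (by linarith) hn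
      rw [Real.log_pow] at h1
      have := Real.log_le_sub_one_of_pos h0
      push_cast at h1
      linarith
    have h8 : (n : ℝ) ^ δ * Real.log n ≤ h * (4 * h) :=
      mul_le_mul h6 h7 (Real.log_nonneg hnr) h0.le
    rw [h3]
    refine (norm_add_le _ _).trans ?_
    have h9 : ‖((((n : ℝ) ^ δ - 1) / δ : ℝ) : ℂ) + γ‖ ≤ ((n : ℝ) ^ δ - 1) / δ + 12 := by
      refine (norm_add_le _ _).trans ?_
      rw [Complex.norm_real, Real.norm_of_nonneg h4]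
      linarith
    nlinarith

end params

/-- The summatory function of `n^{-β} (1*χ₁)(n)` at a real zero `β = 1-δ` of `L(s,χ₁)`. -/
theorem conv_beta {q : ℕ} [NeZero q] {χ : DirichletCharacter ℂ q} (hχ : χ ≠ 1)
    {δ : ℝ} (hδ0 : 0 < δ) (hδ : δ ≤ 1 / 8)
    (hz : DirichletCharacter.LFunction χ ((1 - δ : ℝ) : ℂ) = 0) {y : ℝ} (hy : 1 ≤ y) :
    ‖conv (fun a => pw ((1 - δ : ℝ) : ℂ) a)
        (fun b => χ (b : ZMod q) * pw ((1 - δ : ℝ) : ℂ) b) y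
      - DirichletCharacter.LFunction χ 1 / δ * ((y ^ δ : ℝ) : ℂ)‖
      ≤ 218 * q * y ^ (-(1 / 8) : ℝ) := by
  have hy0 : 0 < y := by linarith
  have hq1 : (1 : ℝ) ≤ q := by exact_mod_cast Nat.pos_of_ne_zero (NeZero.ne q)
  obtain ⟨γ, hγ, hA⟩ := exists_gamma δ hδ0 (by linarith)
  set h : ℝ := y ^ (1 / 8 : ℝ) with hh_def
  have hh : 1 ≤ h := Real.one_le_rpow hy (by norm_num)
  have h0 : 0 < h := by linarith
  have hy8 : y = h ^ 8 := by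
    rw [hh_def, ← Real.rpow_natCast, ← Real.rpow_mul hy0.le]
    norm_num
  have hyi : y ^ (-(1 / 8) : ℝ) = h⁻¹ := Real.rpow_neg hy0.le _
  rw [hyi]
  set V : ℕ := ⌊h ^ 4⌋₊ with hV_def
  have hh4 : 1 ≤ h ^ 4 := one_le_pow₀ hh
  have hV1 : 1 ≤ V := (Nat.one_le_floor_iff _).2 hh4
  have hVr : (1 : ℝ) ≤ V := by exact_mod_cast hV1
  have hV3 : (V : ℝ) ≤ h ^ 4 := Nat.floor_le (by positivity)
  have hV4 : h ^ 4 < V + 1 := Nat.lt_floor_add_one _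
  have hV2 : h ^ 4 / 2 ≤ V := by linarith
  have h48 : h ^ 4 ≤ h ^ 8 := pow_le_pow_right₀ hh (by norm_num)
  have hVy : (V : ℝ) ≤ y := by rw [hy8]; linarith
  set Y : ℕ := ⌊y⌋₊ with hY_def
  have hVY : V ≤ Y := Nat.le_floor hVy
  have hYy : (Y : ℝ) ≤ y := Nat.floor_le hy0.le
  -- hyperbola
  have hhyp : conv (fun a => pw ((1 - δ : ℝ) : ℂ) a)
        (fun b => χ (b : ZMod q) * pw ((1 - δ : ℝ) : ℂ) b) y
      = ∑ b ∈ Icc 1 V, (χ (b : ZMod q) * pw ((1 - δ : ℝ) : ℂ) b) * Az δ (Y / b)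
        + ∑ a ∈ Icc 1 (Y / (V + 1)), pw ((1 - δ : ℝ) : ℂ) a
          * ∑ b ∈ Ioc V (Y / a), χ (b : ZMod q) * pw ((1 - δ : ℝ) : ℂ) b := by
    rw [conv_comm, conv, ← hY_def]
    exact hyperbola (fun a : ℕ => pw ((1 - δ : ℝ) : ℂ) a)
      (fun b : ℕ => χ (b : ZMod q) * pw ((1 - δ : ℝ) : ℂ) b) Y V hVY
  have hpw : ∀ b : ℕ, pw ((1 - δ : ℝ) : ℂ) b = (((b : ℝ) ^ (δ - 1) : ℝ) : ℂ) :=
    fun b => pw_real' δ (Nat.cast_nonneg b)
  -- first sum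
  have hfirst : ‖∑ b ∈ Icc 1 V, (χ (b : ZMod q) * pw ((1 - δ : ℝ) : ℂ) b) * Az δ (Y / b)
      - (∑ n ∈ Icc 1 V, (wf δ y n : ℂ) * χ (n : ZMod q)
        + γ * ∑ n ∈ Icc 1 V, (((n : ℝ) ^ (δ - 1) : ℝ) : ℂ) * χ (n : ZMod q))‖
      ≤ 42 * h⁻¹ ^ 3 := by
    rw [mul_sum, ← sum_add_distrib, ← sum_sub_distrib]
    have hterm : ∀ b ∈ Icc 1 V,
        ‖(χ (b : ZMod q) * pw ((1 - δ : ℝ) : ℂ) b) * Az δ (Y / b)
          - ((wf δ y b : ℂ) * χ (b : ZMod q) + γ * ((((b : ℝ) ^ (δ - 1) : ℝ) : ℂ)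
            * χ (b : ZMod q)))‖ ≤ 42 * y ^ (δ - 1) := by
      intro b hb
      rw [mem_Icc] at hb
      have hb1 : (1 : ℝ) ≤ b := by exact_mod_cast hb.1
      have hb0 : (0 : ℝ) < b := by linarith
      have hbV : (b : ℝ) ≤ V := by exact_mod_cast hb.2
      have hx : 1 ≤ y / b := by rw [le_div_iff₀ hb0]; linarith
      have h1 := hA (y / b) hx
      have hfl : ⌊y / b⌋₊ = Y / b := Nat.floor_div_natCast y b
      rw [hfl] at h1
      have hbδ : 0 < (b : ℝ) ^ (δ - 1) := Real.rpow_pos_of_pos hb0 _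
      have e0 : (b : ℝ) ^ (δ - 1) * (((y / b) ^ δ - 1) / δ) = wf δ y b := by
        rw [wf, Real.div_rpow hy0.le hb0.le, Real.rpow_sub hb0, Real.rpow_one]
        have : (b : ℝ) ^ δ ≠ 0 := (Real.rpow_pos_of_pos hb0 δ).ne'
        field_simp
      have e0c : (((b : ℝ) ^ (δ - 1) : ℝ) : ℂ) * ((((y / b) ^ δ - 1) / δ : ℝ) : ℂ)
          = (wf δ y b : ℂ) := by
        rw [← Complex.ofReal_mul, e0]
      have e1 : (χ (b : ZMod q) * pw ((1 - δ : ℝ) : ℂ) b) * Az δ (Y / b)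
          - ((wf δ y b : ℂ) * χ (b : ZMod q) + γ * ((((b : ℝ) ^ (δ - 1) : ℝ) : ℂ)
            * χ (b : ZMod q)))
          = χ (b : ZMod q) * (((b : ℝ) ^ (δ - 1) : ℝ) : ℂ)
            * (Az δ (Y / b) - (((((y / b) ^ δ - 1) / δ : ℝ) : ℂ) + γ)) := by
        rw [hpw, ← e0c]
        ring
      rw [e1, norm_mul, norm_mul, Complex.norm_real, Real.norm_of_nonneg hbδ.le]
      have e2 : (b : ℝ) ^ (δ - 1) * (42 * (y / b) ^ (δ - 1)) = 42 * y ^ (δ - 1) := by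
        rw [Real.div_rpow hy0.le hb0.le]
        field_simp
      calc ‖χ (b : ZMod q)‖ * (b : ℝ) ^ (δ - 1)
            * ‖Az δ (Y / b) - (((((y / b) ^ δ - 1) / δ : ℝ) : ℂ) + γ)‖
          ≤ 1 * (b : ℝ) ^ (δ - 1) * (42 * (y / b) ^ (δ - 1)) := by
            refine mul_le_mul ?_ h1 (norm_nonneg _) (by positivity)
            exact mul_le_mul_of_nonneg_right (χ.norm_le_one _) hbδ.le
        _ = 42 * y ^ (δ - 1) := by rw [one_mul, e2]
    refine (norm_sum_le _ _).trans ?_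
    calc ∑ b ∈ Icc 1 V, _ ≤ ∑ b ∈ Icc 1 V, 42 * y ^ (δ - 1) := sum_le_sum hterm
      _ = V * (42 * y ^ (δ - 1)) := by
          rw [sum_const, Nat.card_Icc, Nat.add_sub_cancel, nsmul_eq_mul]
      _ ≤ h ^ 4 * (42 * (h * h⁻¹ ^ 8)) := by
          refine mul_le_mul hV3 ?_ (by positivity) (by positivity)
          refine mul_le_mul_of_nonneg_left ?_ (by norm_num)
          rw [Real.rpow_sub hy0, Real.rpow_one, div_eq_mul_inv]
          have h2 : y ^ δ ≤ h := by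
            rw [hy8, ← Real.rpow_natCast h 8, ← Real.rpow_mul h0.le]
            calc h ^ (((8 : ℕ) : ℝ) * δ) ≤ h ^ (1 : ℝ) :=
                  Real.rpow_le_rpow_of_exponent_le hh (by push_cast; linarith)
              _ = h := Real.rpow_one h
          have h3 : y⁻¹ = h⁻¹ ^ 8 := by rw [hy8, inv_pow]
          rw [h3]
          exact mul_le_mul_of_nonneg_right h2 (by positivity)
      _ = 42 * h⁻¹ ^ 3 := by
          field_simp
  -- main terms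
  have hmain := main_term hχ δ y hδ0 (by linarith) hy V hV1 hz
  have hbeta := beta_term hχ δ (by linarith) V hV1 hz
  have hVp := V_pow_le hδ0 hδ hh hV2
  have hwf := wf_V_le hδ0 hδ hh hy8 hV1 hV2
  have hFb := Fb_V_le hδ0 hδ hh hV1 hV2 hV3
  -- second sum
  have hsecond : ‖∑ a ∈ Icc 1 (Y / (V + 1)), pw ((1 - δ : ℝ) : ℂ) a
      * ∑ b ∈ Ioc V (Y / a), χ (b : ZMod q) * pw ((1 - δ : ℝ) : ℂ) b‖
      ≤ 116 * q * h⁻¹ := by
    have hterm : ∀ a ∈ Icc 1 (Y / (V + 1)), ‖pw ((1 - δ : ℝ) : ℂ) a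
        * ∑ b ∈ Ioc V (Y / a), χ (b : ZMod q) * pw ((1 - δ : ℝ) : ℂ) b‖
        ≤ (a : ℝ) ^ (δ - 1) * (2 * h⁻¹ ^ 3 * q) := by
      intro a ha
      rw [mem_Icc] at ha
      have ha2 : V + 1 ≤ Y / a := by
        have h2 := ha.2
        rw [Nat.le_div_iff_mul_le (by omega)] at h2
        rw [Nat.le_div_iff_mul_le (by omega), mul_comm]
        exact h2
      rw [norm_mul, hpw, Complex.norm_real, Real.norm_of_nonneg (by positivity)]
      refine mul_le_mul_of_nonneg_left ?_ (by positivity)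
      have h3 := tail_beta hχ δ (by linarith) V (Y / a) hV1 (by omega)
      have h4 : ∑ b ∈ Ioc V (Y / a), χ (b : ZMod q) * pw ((1 - δ : ℝ) : ℂ) b
          = ∑ n ∈ Ioc V (Y / a), (((n : ℝ) ^ (δ - 1) : ℝ) : ℂ) * χ (n : ZMod q) := by
        refine sum_congr rfl fun n _ => ?_
        rw [hpw, mul_comm]
      rw [h4]
      refine h3.trans ?_
      exact mul_le_mul_of_nonneg_right hVp (by positivity)
    refine (norm_sum_le _ _).trans ?_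
    refine (sum_le_sum hterm).trans ?_
    rw [← sum_mul]
    have hAz : ∑ a ∈ Icc 1 (Y / (V + 1)), (a : ℝ) ^ (δ - 1) = ‖Az δ (Y / (V + 1))‖ := by
      have : Az δ (Y / (V + 1)) = ((∑ a ∈ Icc 1 (Y / (V + 1)), (a : ℝ) ^ (δ - 1) : ℝ) : ℂ) := by
        rw [Az, Complex.ofReal_sum]
        refine sum_congr rfl fun a _ => ?_
        rw [hpw]
      rw [this, Complex.norm_real, Real.norm_of_nonneg]
      exact sum_nonneg fun a _ => by positivity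
    rw [hAz]
    have hn2 : ((Y / (V + 1) : ℕ) : ℝ) ≤ h ^ 4 := by
      have h1 : ((Y / (V + 1) : ℕ) : ℝ) ≤ (Y : ℝ) / ((V + 1 : ℕ) : ℝ) := Nat.cast_div_le
      refine h1.trans ?_
      push_cast
      rw [div_le_iff₀ (by positivity)]
      calc (Y : ℝ) ≤ h ^ 8 := by rw [← hy8]; exact hYy
        _ = h ^ 4 * h ^ 4 := by ring
        _ ≤ h ^ 4 * (V + 1) := mul_le_mul_of_nonneg_left hV4.le (by positivity)
    have hAz2 := norm_Az_le hδ0 hδ hh hn2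
    calc ‖Az δ (Y / (V + 1))‖ * (2 * h⁻¹ ^ 3 * q) ≤ 58 * h ^ 2 * (2 * h⁻¹ ^ 3 * q) :=
          mul_le_mul_of_nonneg_right hAz2 (by positivity)
      _ = 116 * q * h⁻¹ := by
          field_simp
          ring
  -- assemble
  rw [hhyp]
  set S1 := ∑ b ∈ Icc 1 V, (χ (b : ZMod q) * pw ((1 - δ : ℝ) : ℂ) b) * Az δ (Y / b) with hS1
  set S2 := ∑ a ∈ Icc 1 (Y / (V + 1)), pw ((1 - δ : ℝ) : ℂ) a
      * ∑ b ∈ Ioc V (Y / a), χ (b : ZMod q) * pw ((1 - δ : ℝ) : ℂ) b with hS2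
  set M1 := ∑ n ∈ Icc 1 V, (wf δ y n : ℂ) * χ (n : ZMod q) with hM1
  set M2 := ∑ n ∈ Icc 1 V, (((n : ℝ) ^ (δ - 1) : ℝ) : ℂ) * χ (n : ZMod q) with hM2
  set L := DirichletCharacter.LFunction χ 1 / δ * ((y ^ δ : ℝ) : ℂ) with hL
  have hdecomp : S1 + S2 - L = (S1 - (M1 + γ * M2)) + (M1 - L) + γ * M2 + S2 := by ring
  rw [hdecomp]
  have hi1 : h⁻¹ ≤ 1 := inv_le_one_of_one_le₀ hh
  have hi0 : 0 < h⁻¹ := by positivity
  have hi2 : h⁻¹ ^ 2 ≤ h⁻¹ := by nlinarith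
  have hi3 : h⁻¹ ^ 3 ≤ h⁻¹ := by nlinarith
  have hγM2 : ‖γ * M2‖ ≤ 24 * q * h⁻¹ := by
    rw [norm_mul]
    calc ‖γ‖ * ‖M2‖ ≤ 12 * ((V : ℝ) ^ (δ - 1) * q) :=
          mul_le_mul hγ hbeta (norm_nonneg _) (by norm_num)
      _ ≤ 12 * ((2 * h⁻¹ ^ 3) * q) := by
          refine mul_le_mul_of_nonneg_left ?_ (by norm_num)
          exact mul_le_mul_of_nonneg_right hVp (by positivity)
      _ ≤ 12 * ((2 * h⁻¹) * q) := by
          refine mul_le_mul_of_nonneg_left ?_ (by norm_num)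
          refine mul_le_mul_of_nonneg_right ?_ (by positivity)
          linarith
      _ = 24 * q * h⁻¹ := by ring
  have hM1L : ‖M1 - L‖ ≤ 36 * q * h⁻¹ := by
    refine hmain.trans ?_
    calc (wf δ y V + 2 * Fb δ V) * q ≤ (36 * h⁻¹) * q := by
          refine mul_le_mul_of_nonneg_right ?_ (by positivity)
          linarith
      _ = 36 * q * h⁻¹ := by ring
  have hS1' : ‖S1 - (M1 + γ * M2)‖ ≤ 42 * q * h⁻¹ := by
    refine hfirst.trans ?_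
    calc 42 * h⁻¹ ^ 3 ≤ 42 * h⁻¹ := by linarith
      _ ≤ 42 * q * h⁻¹ := by
          refine mul_le_mul_of_nonneg_right ?_ hi0.le
          linarith
  calc ‖(S1 - (M1 + γ * M2)) + (M1 - L) + γ * M2 + S2‖
      ≤ ‖S1 - (M1 + γ * M2)‖ + ‖M1 - L‖ + ‖γ * M2‖ + ‖S2‖ := norm_add₄_le
    _ ≤ 42 * q * h⁻¹ + 36 * q * h⁻¹ + 24 * q * h⁻¹ + 116 * q * h⁻¹ :=
        add_le_add (add_le_add (add_le_add hS1' hM1L) hγM2) hsecond
    _ = 218 * q * h⁻¹ := by ring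

end Vale.Agent.P026.H517
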