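import Vale.Agent.P026.H517.M3c
import Vale.Agent.P026.H392.ExcDefs
import Mathlib.RingTheory.Radical.NatInt

/-!
# M3b: lower bound for Selberg's `G`
-/

namespace Vale.Agent.P026.H517

open Finset Filter Topology Vale.Agent.P026.H392

section

variable {x : ℕ → ℝ}

lemma xpow (h1 : x 1 = 1) (hm : ∀ m n, x (m * n) = x m * x n) (p k : ℕ) :
    x (p ^ k) = x p ^ k := by
  induction k with
  | zero => simp [h1]
  | succ k ih => rw [pow_succ, hm, ih, pow_succ]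

lemma fE_one (h1 : x 1 = 1) : fE x 1 = 1 := by
  simp [fE, h1]

lemma fE_prime_pow (h1 : x 1 = 1) (hm : ∀ m n, x (m * n) = x m * x n) {p : ℕ} (hp : p.Prime)
    (k : ℕ) : fE x (p ^ k) = ∑ j ∈ range (k + 1), x p ^ j := by
  rw [fE, Nat.sum_divisors_prime_pow hp]
  exact sum_congr rfl fun j _ => xpow h1 hm p j

lemma fE_mul (hm : ∀ m n, x (m * n) = x m * x n) {m n : ℕ} (h : m.Coprime n) :
    fE x (m * n) = fE x m * fE x n := by
  have h1 : (m * n).divisors = (m.divisors ×ˢ n.divisors).image (fun p => p.1 * p.2) := by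
    rw [← Finset.mul_def, Nat.divisors_mul]
  rw [fE, h1, sum_image h.mul_injOn_divisors, sum_product, fE, fE, sum_mul_sum]
  exact sum_congr rfl fun a _ => sum_congr rfl fun b _ => hm a b

lemma geom_nonneg {t : ℝ} (ht : |t| ≤ 1) (k : ℕ) : 0 ≤ ∑ j ∈ range (k + 1), t ^ j := by
  have h1 := mul_neg_geom_sum t (k + 1)
  have h2 : t ^ (k + 1) ≤ 1 := by
    calc t ^ (k + 1) ≤ |t ^ (k + 1)| := le_abs_self _
      _ = |t| ^ (k + 1) := abs_pow _ _
      _ ≤ 1 := pow_le_one₀ (abs_nonneg _) ht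
  rcases eq_or_lt_of_le (abs_le.1 ht).2 with h | h
  · rw [h]
    simp
    positivity
  · have h3 : 0 ≤ (1 - t) * ∑ j ∈ range (k + 1), t ^ j := by rw [h1]; linarith
    exact nonneg_of_mul_nonneg_right h3 (by linarith)

/-- `f = 1 * x` is nonnegative -/
lemma fE_nonneg (h1 : x 1 = 1) (hm : ∀ m n, x (m * n) = x m * x n) (hx : ∀ n, |x n| ≤ 1)
    (n : ℕ) : 0 ≤ fE x n := by
  induction n using Nat.recOnPosPrimePosCoprime with
  | zero => simp [fE]
  | one => rw [fE_one h1]; exact zero_le_one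
  | prime_pow p n hp hn => rw [fE_prime_pow h1 hm hp]; exact geom_nonneg (hx p) n
  | coprime a b ha hb hab iha ihb => rw [fE_mul hm hab]; exact mul_nonneg iha ihb

/-- local sums -/
lemma local_sum_le (h1 : x 1 = 1) (hm : ∀ m n, x (m * n) = x m * x n) (hx : ∀ n, |x n| ≤ 1)
    {p : ℕ} (hp : p.Prime) (K : Finset ℕ) (hK : ∀ k ∈ K, k ≠ 0) :
    ∑ k ∈ K, fE x (p ^ k) / ((p ^ k : ℕ) : ℝ) ≤ nuE x p * (1 - nuE x p)⁻¹ := by
  have hp2 : (2 : ℝ) ≤ p := by exact_mod_cast hp.two_le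
  have hp0 : (0 : ℝ) < p := by linarith
  set t : ℝ := 1 / p with ht
  have ht0 : 0 < t := by positivity
  have ht1 : t ≤ 1 / 2 := by
    rw [ht, div_le_div_iff₀ hp0 (by norm_num)]
    linarith
  set u : ℝ := x p / p with hu
  have hut : u = x p * t := by rw [hu, ht]; ring
  have hu1 : |u| ≤ 1 / 2 := by
    rw [hut, abs_mul, abs_of_pos ht0]
    calc |x p| * t ≤ 1 * t := mul_le_mul_of_nonneg_right (hx p) ht0.le
      _ ≤ 1 / 2 := by linarith
  have habst : |t| < 1 := by rw [abs_of_pos ht0]; linarith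
  have habsu : |u| < 1 := by linarith
  have hsu : Summable fun n : ℕ => ‖u ^ n‖ := summable_norm_geometric_of_norm_lt_one habsu
  have hst : Summable fun n : ℕ => ‖t ^ n‖ := summable_norm_geometric_of_norm_lt_one habst
  have hprod := tsum_mul_tsum_eq_tsum_sum_antidiagonal_of_summable_norm hsu hst
  rw [tsum_geometric_of_abs_lt_one habsu, tsum_geometric_of_abs_lt_one habst] at hprod
  have hsum := (summable_norm_sum_mul_antidiagonal_of_summable_norm hsu hst).of_norm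
  have hc : ∀ k : ℕ, ∑ kl ∈ antidiagonal k, u ^ kl.1 * t ^ kl.2
      = fE x (p ^ k) / ((p ^ k : ℕ) : ℝ) := by
    intro k
    rw [Finset.Nat.sum_antidiagonal_eq_sum_range_succ (fun i j => u ^ i * t ^ j),
      fE_prime_pow h1 hm hp, sum_div]
    refine sum_congr rfl fun i hi => ?_
    rw [mem_range] at hi
    have e1 : t ^ i * t ^ (k - i) = t ^ k := by
      rw [← pow_add]
      congr 1
      omega
    rw [hut, mul_pow, mul_assoc, e1, ht]
    push_cast
    rw [div_pow, one_pow]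
    ring
  have hsum' : Summable fun k : ℕ => fE x (p ^ k) / ((p ^ k : ℕ) : ℝ) :=
    hsum.congr fun k => (hc k)
  have hnn : ∀ k : ℕ, 0 ≤ fE x (p ^ k) / ((p ^ k : ℕ) : ℝ) := fun k =>
    div_nonneg (fE_nonneg h1 hm hx _) (Nat.cast_nonneg _)
  have h0K : 0 ∉ K := fun h => hK 0 h rfl
  have hle := hsum'.sum_le_tsum (insert 0 K) (fun k _ => hnn k)
  rw [sum_insert h0K, ← tsum_congr hc, ← hprod, pow_zero, fE_one h1] at hle
  have hnu : 1 - nuE x p = (1 - t) * (1 - u) := by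
    rw [nuE_prime x hp]
    ring
  have h1u : 0 < 1 - u := by
    have := (abs_lt.1 habsu).2
    linarith
  have h1t : 0 < 1 - t := by linarith
  have hnu1 : nuE x p * (1 - nuE x p)⁻¹ = (1 - nuE x p)⁻¹ - 1 := by
    have : 1 - nuE x p ≠ 0 := by rw [hnu]; positivity
    field_simp
    ring
  rw [hnu1, hnu, mul_inv]
  have e2 : (1 : ℝ) / ((1 : ℕ) : ℝ) = 1 := by norm_num
  rw [e2] at hle
  rw [mul_comm (1 - t)⁻¹]
  linarith

lemma sum_radical_le (h1 : x 1 = 1) (hm : ∀ m n, x (m * n) = x m * x n) (hx : ∀ n, |x n| ≤ 1)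
    (S : Finset ℕ) : (∀ p ∈ S, p.Prime) → ∀ A : Finset ℕ,
    (∀ n ∈ A, n ≠ 0 ∧ n.primeFactors = S) →
    ∑ n ∈ A, fE x n / n ≤ ∏ p ∈ S, (nuE x p * (1 - nuE x p)⁻¹) := by
  classical
  have hF : ∀ n : ℕ, 0 ≤ fE x n / (n : ℝ) := fun n =>
    div_nonneg (fE_nonneg h1 hm hx n) (Nat.cast_nonneg n)
  induction S using Finset.induction_on with
  | empty =>
    intro _ A hA
    have hsub : A ⊆ {1} := by
      intro n hn
      obtain ⟨h2, h3⟩ := hA n hn
      rw [Nat.primeFactors_eq_empty] at h3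
      rw [mem_singleton]
      omega
    calc ∑ n ∈ A, fE x n / n ≤ ∑ n ∈ ({1} : Finset ℕ), fE x n / n :=
          sum_le_sum_of_subset_of_nonneg hsub fun n _ _ => hF n
      _ = 1 := by rw [sum_singleton, fE_one h1]; norm_num
      _ = ∏ p ∈ (∅ : Finset ℕ), (nuE x p * (1 - nuE x p)⁻¹) := by rw [prod_empty]
  | insert p S hpS ih =>
    intro hS A hA
    have hp : p.Prime := hS p (mem_insert_self p S)
    have ih' := ih (fun r hr => hS r (mem_insert_of_mem hr))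
    set K : Finset ℕ := A.image (fun n => n.factorization p) with hK
    set A' : Finset ℕ := A.image (fun n => n / p ^ n.factorization p) with hA'
    have hfac : ∀ n : ℕ, p ^ n.factorization p * (n / p ^ n.factorization p) = n := fun n =>
      Nat.ordProj_mul_ordCompl_eq_self n p
    have hterm : ∀ n ∈ A, fE x n / (n : ℝ)
        = (fE x (p ^ n.factorization p) / ((p ^ n.factorization p : ℕ) : ℝ))
          * (fE x (n / p ^ n.factorization p) / ((n / p ^ n.factorization p : ℕ) : ℝ)) := by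
      intro n hn
      have hn0 := (hA n hn).1
      have hcop : (p ^ n.factorization p).Coprime (n / p ^ n.factorization p) :=
        Nat.Coprime.pow_left _ (Nat.coprime_ordCompl hp hn0)
      rw [div_mul_div_comm, ← fE_mul hm hcop, ← Nat.cast_mul, hfac n]
    have hinj : Set.InjOn (fun n : ℕ => (n.factorization p, n / p ^ n.factorization p))
        (A : Set ℕ) := by
      intro a _ b _ hab
      simp only [Prod.mk.injEq] at hab
      calc a = p ^ a.factorization p * (a / p ^ a.factorization p) := (hfac a).symm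
        _ = p ^ b.factorization p * (b / p ^ b.factorization p) := by rw [hab.2, hab.1]
        _ = b := hfac b
    have hmaps : A.image (fun n : ℕ => (n.factorization p, n / p ^ n.factorization p))
        ⊆ K ×ˢ A' := by
      intro z hz
      rw [mem_image] at hz
      obtain ⟨n, hn, rfl⟩ := hz
      rw [mem_product]
      exact ⟨mem_image_of_mem _ hn, mem_image_of_mem _ hn⟩
    have hcalc : ∑ n ∈ A, fE x n / n
        ≤ (∑ k ∈ K, fE x (p ^ k) / ((p ^ k : ℕ) : ℝ)) * ∑ m ∈ A', fE x m / (m : ℝ) := by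
      calc ∑ n ∈ A, fE x n / n
          = ∑ z ∈ A.image (fun n : ℕ => (n.factorization p, n / p ^ n.factorization p)),
            (fE x (p ^ z.1) / ((p ^ z.1 : ℕ) : ℝ)) * (fE x z.2 / (z.2 : ℝ)) := by
            rw [sum_image hinj]
            exact sum_congr rfl hterm
        _ ≤ ∑ z ∈ K ×ˢ A', (fE x (p ^ z.1) / ((p ^ z.1 : ℕ) : ℝ)) * (fE x z.2 / (z.2 : ℝ)) :=
            sum_le_sum_of_subset_of_nonneg hmaps fun z _ _ => mul_nonneg (hF _) (hF _)
        _ = (∑ k ∈ K, fE x (p ^ k) / ((p ^ k : ℕ) : ℝ)) * ∑ m ∈ A', fE x m / (m : ℝ) := by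
            rw [sum_product, sum_mul_sum]
    have hlocal := local_sum_le h1 hm hx hp K (by
      intro k hk
      rw [hK, mem_image] at hk
      obtain ⟨n, hn, rfl⟩ := hk
      obtain ⟨h2, h3⟩ := hA n hn
      have h4 : p ∈ n.primeFactors := by rw [h3]; exact mem_insert_self p S
      exact (hp.factorization_pos_of_dvd h2 (Nat.dvd_of_mem_primeFactors h4)).ne')
    have hrest := ih' A' (by
      intro m hm'
      rw [hA', mem_image] at hm'
      obtain ⟨n, hn, rfl⟩ := hm'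
      obtain ⟨h2, h3⟩ := hA n hn
      refine ⟨(Nat.ordCompl_pos p h2).ne', ?_⟩
      have h5 : (n / p ^ n.factorization p).primeFactors = n.primeFactors.erase p := by
        rw [← Nat.support_factorization, Nat.factorization_ordCompl, Finsupp.support_erase,
          Nat.support_factorization]
      rw [h5, h3, erase_insert hpS])
    refine hcalc.trans ?_
    rw [prod_insert hpS]
    have hnn : 0 ≤ ∑ m ∈ A', fE x m / (m : ℝ) := sum_nonneg fun m _ => hF m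
    have hgp : 0 ≤ nuE x p * (1 - nuE x p)⁻¹ := by
      have h2 := nuE_pos hx hp
      have h3 := nuE_lt_one hx hp
      have : 0 < 1 - nuE x p := by linarith
      positivity
    exact mul_le_mul hlocal hrest hnn hgp

/-- Selberg's `G` is at least the sum of `f(n)/n`. -/
theorem sum_fE_le_GS (h1 : x 1 = 1) (hm : ∀ m n, x (m * n) = x m * x n) (hx : ∀ n, |x n| ≤ 1)
    (N : ℕ) : ∑ n ∈ Icc 1 N, fE x n / n ≤ GS (nuE x) N := by
  classical
  rw [GS]
  have hmaps : ∀ n ∈ Icc 1 N, UniqueFactorizationMonoid.radical n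
      ∈ (Icc 1 N).filter Squarefree := by
    intro n hn
    rw [mem_Icc] at hn
    rw [mem_filter, mem_Icc]
    refine ⟨⟨Nat.radical_pos n, ?_⟩, UniqueFactorizationMonoid.squarefree_radical⟩
    exact (Nat.radical_le_self_iff.2 (by omega)).trans hn.2
  rw [← sum_fiberwise_of_maps_to hmaps]
  refine sum_le_sum fun m hm' => ?_
  rw [mem_filter, mem_Icc] at hm'
  have hg : gS (nuE x) m = ∏ p ∈ m.primeFactors, (nuE x p * (1 - nuE x p)⁻¹) := by
    rw [gS, prod_mul_distrib]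
    congr 1
    have h3 := (nuE_mult x).prod_primeFactors hm'.2
    exact h3.symm
  rw [hg]
  refine sum_radical_le h1 hm hx m.primeFactors (fun p hp => Nat.prime_of_mem_primeFactors hp) _ ?_
  intro n hn
  rw [mem_filter, mem_Icc] at hn
  refine ⟨by omega, ?_⟩
  rw [← hn.2, Nat.primeFactors_radical]

end

/-! ### the lower bound by `L(1,χ₁)/δ` -/

/-- the real values of a real character -/
noncomputable def rchar {q : ℕ} (χ : DirichletCharacter ℂ q) (n : ℕ) : ℝ := (χ (n : ZMod q)).re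

lemma char_real {q : ℕ} {χ : DirichletCharacter ℂ q} (hχ2 : χ ^ 2 = 1) (n : ℕ) :
    χ (n : ZMod q) = ((rchar χ n : ℝ) : ℂ) := by
  rw [rchar]
  by_cases hn : IsUnit (n : ZMod q)
  · have h1 : χ (n : ZMod q) ^ 2 = 1 := by
      have h2 := congrArg (fun ψ : DirichletCharacter ℂ q => ψ (n : ZMod q)) hχ2
      simp only [MulChar.pow_apply' χ (two_ne_zero)] at h2
      rw [h2, MulChar.one_apply hn]
    rw [sq, mul_self_eq_one_iff] at h1
    rcases h1 with h | h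
    all_goals (rw [h]; simp)
  · rw [χ.map_nonunit hn]
    simp

lemma rchar_one {q : ℕ} (χ : DirichletCharacter ℂ q) : rchar χ 1 = 1 := by
  simp [rchar]

lemma rchar_mul {q : ℕ} {χ : DirichletCharacter ℂ q} (hχ2 : χ ^ 2 = 1) (m n : ℕ) :
    rchar χ (m * n) = rchar χ m * rchar χ n := by
  have h := char_real hχ2 (m * n)
  rw [Nat.cast_mul, map_mul, char_real hχ2 m, char_real hχ2 n] at h
  exact_mod_cast h.symm

lemma abs_rchar_le {q : ℕ} (χ : DirichletCharacter ℂ q) (n : ℕ) : |rchar χ n| ≤ 1 :=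
  (Complex.abs_re_le_norm _).trans (χ.norm_le_one _)

lemma conv_eq_sum {q : ℕ} {χ : DirichletCharacter ℂ q} (hχ2 : χ ^ 2 = 1) (δ y : ℝ) :
    conv (fun a => pw ((1 - δ : ℝ) : ℂ) a)
        (fun b => χ (b : ZMod q) * pw ((1 - δ : ℝ) : ℂ) b) y
      = ((∑ n ∈ Icc 1 ⌊y⌋₊, (n : ℝ) ^ (δ - 1) * fE (rchar χ) n : ℝ) : ℂ) := by
  rw [conv, Complex.ofReal_sum]
  refine sum_congr rfl fun n hn => ?_
  rw [mem_Icc] at hn
  have hn0 : (0 : ℝ) < n := by exact_mod_cast hn.1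
  rw [fE, ← Nat.sum_div_divisors n (rchar χ), mul_sum, Complex.ofReal_sum]
  refine sum_congr rfl fun d hd => ?_
  have hdn := Nat.dvd_of_mem_divisors hd
  have hd0 : 0 < d := Nat.pos_of_dvd_of_pos hdn (by omega)
  have hdr : (0 : ℝ) < d := by exact_mod_cast hd0
  have hnd : 0 < n / d := Nat.div_pos (Nat.le_of_dvd (by omega) hdn) hd0
  have hndr : (0 : ℝ) < ((n / d : ℕ) : ℝ) := by exact_mod_cast hnd
  have e1 : (n : ℝ) ^ (δ - 1) = (d : ℝ) ^ (δ - 1) * ((n / d : ℕ) : ℝ) ^ (δ - 1) := by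
    rw [← Real.mul_rpow hdr.le hndr.le, ← Nat.cast_mul, Nat.mul_div_cancel' hdn]
  rw [pw_real' δ hdr.le, pw_real' δ hndr.le, char_real hχ2 (n / d), e1]
  push_cast
  ring

/-- real form of `conv_beta` -/
theorem sum_fE_beta {q : ℕ} [NeZero q] {χ : DirichletCharacter ℂ q} (hχ : χ ≠ 1)
    (hχ2 : χ ^ 2 = 1) {δ : ℝ} (hδ0 : 0 < δ) (hδ : δ ≤ 1 / 8)
    (hz : DirichletCharacter.LFunction χ ((1 - δ : ℝ) : ℂ) = 0) {y : ℝ} (hy : 1 ≤ y) :
    |∑ n ∈ Icc 1 ⌊y⌋₊, (n : ℝ) ^ (δ - 1) * fE (rchar χ) n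
      - (DirichletCharacter.LFunction χ 1).re / δ * y ^ δ| ≤ 218 * q * y ^ (-(1 / 8) : ℝ) := by
  have h1 := conv_beta hχ hδ0 hδ hz hy
  rw [conv_eq_sum hχ2] at h1
  refine le_trans ?_ h1
  refine le_trans (le_of_eq ?_) (Complex.abs_re_le_norm _)
  congr 1
  rw [Complex.sub_re, Complex.ofReal_re, Complex.re_mul_ofReal, Complex.div_ofReal_re]

/-- lower bound for Selberg's `G` -/
theorem GS_lower {q : ℕ} [NeZero q] {χ : DirichletCharacter ℂ q} (hχ : χ ≠ 1)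
    (hχ2 : χ ^ 2 = 1) {δ : ℝ} (hδ0 : 0 < δ) (hδ : δ ≤ 1 / 8)
    (hz : DirichletCharacter.LFunction χ ((1 - δ : ℝ) : ℂ) = 0) {z : ℝ} (hz1 : 1 ≤ z) :
    (DirichletCharacter.LFunction χ 1).re / δ - 218 * q * z ^ (-(1 / 8) : ℝ)
      ≤ GS (nuE (rchar χ)) ⌊z⌋₊ := by
  have hz0 : 0 < z := by linarith
  refine le_trans ?_ (sum_fE_le_GS (rchar_one χ) (rchar_mul hχ2) (abs_rchar_le χ) ⌊z⌋₊)
  have h1 := (abs_le.1 (sum_fE_beta hχ hχ2 hδ0 hδ hz hz1)).1
  set LAM := (DirichletCharacter.LFunction χ 1).re / δ with hLAM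
  set E := 218 * (q : ℝ) * z ^ (-(1 / 8) : ℝ) with hE
  have hE0 : 0 ≤ E := by positivity
  have hzδ : 0 < z ^ δ := Real.rpow_pos_of_pos hz0 δ
  have hzδ1 : 1 ≤ z ^ δ := Real.one_le_rpow hz1 hδ0.le
  have h2 : (∑ n ∈ Icc 1 ⌊z⌋₊, (n : ℝ) ^ (δ - 1) * fE (rchar χ) n) * (z ^ δ)⁻¹
      ≤ ∑ n ∈ Icc 1 ⌊z⌋₊, fE (rchar χ) n / n := by
    rw [sum_mul]
    refine sum_le_sum fun n hn => ?_
    rw [mem_Icc] at hn
    have hn0 : (0 : ℝ) < n := by exact_mod_cast hn.1
    have hnz : (n : ℝ) ≤ z := (Nat.le_floor_iff hz0.le).1 hn.2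
    have hf := fE_nonneg (rchar_one χ) (rchar_mul hχ2) (abs_rchar_le χ) n
    have hnδ : (n : ℝ) ^ δ ≤ z ^ δ := Real.rpow_le_rpow hn0.le hnz hδ0.le
    have e1 : (n : ℝ) ^ (δ - 1) = (n : ℝ) ^ δ * (n : ℝ)⁻¹ := by
      rw [Real.rpow_sub hn0, Real.rpow_one, div_eq_mul_inv]
    rw [e1, div_eq_mul_inv]
    have h3 : (n : ℝ) ^ δ * (z ^ δ)⁻¹ ≤ 1 := by
      rw [← div_eq_mul_inv, div_le_one hzδ]
      exact hnδ
    calc (n : ℝ) ^ δ * (n : ℝ)⁻¹ * fE (rchar χ) n * (z ^ δ)⁻¹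
        = ((n : ℝ) ^ δ * (z ^ δ)⁻¹) * (fE (rchar χ) n * (n : ℝ)⁻¹) := by ring
      _ ≤ 1 * (fE (rchar χ) n * (n : ℝ)⁻¹) :=
          mul_le_mul_of_nonneg_right h3 (by positivity)
      _ = fE (rchar χ) n * (n : ℝ)⁻¹ := one_mul _
  refine le_trans ?_ h2
  rw [← div_eq_mul_inv, le_div_iff₀ hzδ]
  have h4 : E ≤ E * z ^ δ := le_mul_of_one_le_right hE0 hzδ1
  linarith

/-- `L(1,χ₁)/δ` is not small -/
theorem LAM_lower {q : ℕ} [NeZero q] {χ : DirichletCharacter ℂ q} (hχ : χ ≠ 1)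
    (hχ2 : χ ^ 2 = 1) {δ : ℝ} (hδ0 : 0 < δ) (hδ : δ ≤ 1 / 8)
    (hz : DirichletCharacter.LFunction χ ((1 - δ : ℝ) : ℂ) = 0) :
    1 / 2 ≤ (DirichletCharacter.LFunction χ 1).re / δ * (436 * (q : ℝ)) ^ (8 * δ) := by
  have hq1 : (1 : ℝ) ≤ q := by exact_mod_cast Nat.pos_of_ne_zero (NeZero.ne q)
  have hw0 : (0 : ℝ) < 436 * q := by linarith
  have hw1 : (1 : ℝ) ≤ 436 * q := by linarith
  have hy1 : (1 : ℝ) ≤ (436 * (q : ℝ)) ^ (8 : ℝ) := Real.one_le_rpow hw1 (by norm_num)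
  have h1 := (abs_le.1 (sum_fE_beta hχ hχ2 hδ0 hδ hz hy1)).2
  have e1 : ((436 * (q : ℝ)) ^ (8 : ℝ)) ^ (-(1 / 8) : ℝ) = (436 * (q : ℝ))⁻¹ := by
    rw [← Real.rpow_mul hw0.le]
    norm_num [Real.rpow_neg_one]
  have e2 : ((436 * (q : ℝ)) ^ (8 : ℝ)) ^ δ = (436 * (q : ℝ)) ^ (8 * δ) := by
    rw [← Real.rpow_mul hw0.le]
  have e3 : 218 * (q : ℝ) * (436 * (q : ℝ))⁻¹ = 1 / 2 := by
    have : (q : ℝ) ≠ 0 := by linarith
    field_simp
    norm_num
  rw [e1, e2, e3] at h1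
  have h2 : 1 ≤ ∑ n ∈ Icc 1 ⌊(436 * (q : ℝ)) ^ (8 : ℝ)⌋₊,
      (n : ℝ) ^ (δ - 1) * fE (rchar χ) n := by
    have hmem : 1 ∈ Icc 1 ⌊(436 * (q : ℝ)) ^ (8 : ℝ)⌋₊ := by
      rw [mem_Icc]
      exact ⟨le_rfl, (Nat.one_le_floor_iff _).2 hy1⟩
    have h3 := single_le_sum (f := fun n : ℕ => (n : ℝ) ^ (δ - 1) * fE (rchar χ) n)
      (fun n _ => mul_nonneg (by positivity)
        (fE_nonneg (rchar_one χ) (rchar_mul hχ2) (abs_rchar_le χ) n)) hmem
    simp only [Nat.cast_one, Real.one_rpow, one_mul] at h3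
    rwa [fE_one (rchar_one χ)] at h3
  have h3 := (abs_le.1 (sum_fE_beta hχ hχ2 hδ0 hδ hz hy1)).2
  rw [e1, e2, e3] at h3
  linarith

end Vale.Agent.P026.H517
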