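import Mathlib

/-!
# Supply of primes
-/

namespace Vale.Agent.P026.H517

open Finset

lemma prime_supply (X k : ℕ) (hX : 10 ^ 16 ≤ X) (hk : k ^ 4 ≤ X) :
    2 * k ^ 3 ≤ ((Icc X (4 * X)).filter Nat.Prime).card := by
  set c := ((Icc X (4 * X)).filter Nat.Prime).card with hc
  set n : ℕ := 4 * X with hn
  have hXr : (10 : ℝ) ^ 16 ≤ X := by exact_mod_cast hX
  have hnr : (n : ℝ) = 4 * X := by rw [hn]; push_cast; ring
  have hn0 : (0 : ℝ) < n := by rw [hnr]; linarith [show (0:ℝ) < 10 ^ 16 by norm_num]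
  set u : ℝ := (n : ℝ) ^ ((1 : ℝ) / 8) with hu
  have hu0 : 0 < u := Real.rpow_pos_of_pos hn0 _
  have hu8 : u ^ 8 = n := by
    rw [hu, ← Real.rpow_natCast, ← Real.rpow_mul hn0.le]
    norm_num
  have hu100 : 100 ≤ u := by
    by_contra hlt
    push Not at hlt
    have h1 : u ^ 8 < 100 ^ 8 := pow_lt_pow_left₀ hlt hu0.le (by norm_num)
    rw [hu8, hnr] at h1
    linarith [show (100 : ℝ) ^ 8 = 10 ^ 16 by norm_num, show (0:ℝ) < 10 ^ 16 by norm_num]
  have hlog : Real.log n ≤ 8 * u := by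
    rw [← hu8, Real.log_pow]
    have := Real.log_le_sub_one_of_pos hu0
    push_cast
    linarith
  have hlog1 : Real.log ((n : ℝ) + 1) ≤ 1 + 8 * u := by
    have h1 : Real.log ((n : ℝ) + 1) ≤ Real.log (2 * n) := by
      apply Real.log_le_log (by linarith)
      rw [hnr]; linarith [show (1:ℝ) < 10 ^ 16 by norm_num]
    rw [Real.log_mul (by norm_num) hn0.ne'] at h1
    have := Real.log_two_lt_d9
    linarith
  have hsqrt : Real.sqrt n = u ^ 4 := by
    rw [← hu8, show u ^ 8 = (u ^ 4) ^ 2 by ring]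
    exact Real.sqrt_sq (by positivity)
  have hth := Chebyshev.theta_ge n
  have hthX := Chebyshev.theta_le_log4_mul_x (x := (X : ℝ)) (by positivity)
  have hlog4 : Real.log 4 = 2 * Real.log 2 := by
    rw [show (4 : ℝ) = 2 ^ 2 by norm_num, Real.log_pow]; norm_num
  have hdiff : Chebyshev.theta n - Chebyshev.theta X ≤ c * Real.log n := by
    rw [Chebyshev.theta_eq_sum_Icc, Chebyshev.theta_eq_sum_Icc, Nat.floor_natCast,
      Nat.floor_natCast]
    have hsub : (Icc 0 X).filter Nat.Prime ⊆ (Icc 0 n).filter Nat.Prime := by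
      apply filter_subset_filter
      apply Icc_subset_Icc_right
      omega
    have hs := sum_sdiff (f := fun p : ℕ => Real.log (p : ℝ)) hsub
    have hle : ∑ p ∈ ((Icc 0 n).filter Nat.Prime) \ ((Icc 0 X).filter Nat.Prime),
        Real.log (p : ℝ) ≤ c * Real.log n := by
      calc ∑ p ∈ ((Icc 0 n).filter Nat.Prime) \ ((Icc 0 X).filter Nat.Prime), Real.log (p : ℝ)
          ≤ ∑ p ∈ (Icc X (4 * X)).filter Nat.Prime, Real.log (p : ℝ) := by
            refine sum_le_sum_of_subset_of_nonneg ?_ ?_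
            · intro p hp
              rw [mem_sdiff, mem_filter, mem_filter, mem_Icc, mem_Icc] at hp
              rw [mem_filter, mem_Icc]
              have h1 := hp.1
              have h2 := hp.2
              push Not at h2
              refine ⟨⟨?_, h1.1.2⟩, h1.2⟩
              by_contra hlt
              exact h2 ⟨Nat.zero_le _, by omega⟩ h1.2
            · intro p _ _
              exact Real.log_natCast_nonneg p
        _ ≤ ∑ _p ∈ (Icc X (4 * X)).filter Nat.Prime, Real.log (n : ℝ) := by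
            refine sum_le_sum fun p hp => ?_
            rw [mem_filter, mem_Icc] at hp
            apply Real.log_le_log
            · exact_mod_cast hp.2.pos
            · exact_mod_cast hp.1.2
        _ = c * Real.log n := by rw [sum_const, nsmul_eq_mul]
    linarith
  have hl2 := Real.log_two_gt_d9
  have hsu : (2 : ℝ) * √(n : ℝ) * Real.log n ≤ 16 * u ^ 5 := by
    rw [hsqrt]
    calc 2 * u ^ 4 * Real.log n ≤ 2 * u ^ 4 * (8 * u) :=
          mul_le_mul_of_nonneg_left hlog (by positivity)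
      _ = 16 * u ^ 5 := by ring
  have hXu : (X : ℝ) = u ^ 8 / 4 := by rw [hu8, hnr]; ring
  have hmain : u ^ 8 * (Real.log 2 / 2) - 1 - 8 * u - 16 * u ^ 5 ≤ c * (8 * u) := by
    have h1 : (c : ℝ) * Real.log n ≤ c * (8 * u) :=
      mul_le_mul_of_nonneg_left hlog (Nat.cast_nonneg c)
    have h2 : Chebyshev.theta X ≤ 2 * Real.log 2 * (u ^ 8 / 4) := by
      rw [← hXu, ← hlog4]; exact hthX
    have h3 : u ^ 8 * Real.log 2 = n * Real.log 2 := by rw [hu8]
    linarith
  have hk2 : (k : ℝ) ≤ u ^ 2 := by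
    have h1 : (k : ℝ) ^ 4 ≤ (u ^ 2) ^ 4 := by
      have h2 : (k : ℝ) ^ 4 ≤ X := by exact_mod_cast hk
      rw [show (u ^ 2) ^ 4 = u ^ 8 by ring, hu8, hnr]
      linarith
    exact le_of_pow_le_pow_left₀ (by norm_num) (by positivity) h1
  have hk3 : (k : ℝ) ^ 3 ≤ u ^ 6 := by
    calc (k : ℝ) ^ 3 ≤ (u ^ 2) ^ 3 := pow_le_pow_left₀ (by positivity) hk2 3
      _ = u ^ 6 := by ring
  have hfin : (2 * (k : ℝ) ^ 3) ≤ c := by
    have h8u : 0 < 8 * u := by linarith
    refine le_of_mul_le_mul_right ?_ h8u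
    refine le_trans ?_ hmain
    have h1 : 2 * (k : ℝ) ^ 3 * (8 * u) ≤ 16 * u ^ 7 := by
      calc 2 * (k : ℝ) ^ 3 * (8 * u) ≤ 2 * u ^ 6 * (8 * u) := by gcongr
        _ = 16 * u ^ 7 := by ring
    have h2 : 34 * u ^ 7 ≤ u ^ 8 * (Real.log 2 / 2) := by
      have h7 : 0 < u ^ 7 := by positivity
      have : u ^ 8 = u * u ^ 7 := by ring
      rw [this]
      nlinarith
    have h3 : 1 + 8 * u + 16 * u ^ 5 ≤ 18 * u ^ 7 := by
      have h5 : 1 ≤ u ^ 5 := one_le_pow₀ (by linarith)
      have h6 : u ≤ u ^ 5 := by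
        calc u = u ^ 1 := (pow_one u).symm
          _ ≤ u ^ 5 := pow_le_pow_right₀ (by linarith) (by norm_num)
      have h7 : u ^ 7 = u ^ 5 * u ^ 2 := by ring
      have h8 : (10000 : ℝ) ≤ u ^ 2 := by nlinarith
      rw [h7]
      nlinarith
    linarith
  exact_mod_cast hfin

end Vale.Agent.P026.H517
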