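import Vale.Agent.P026.H517.Taylor

/-!
# The product of the linear sums
-/

namespace Vale.Agent.P026.H517

open Finset ComplexConjugate

/-- the good degrees -/
noncomputable def Gset (K : ℕ) (θ : ℝ) : Finset (Fin K) := by
  classical
  exact univ.filter fun i : Fin K => 1.25 * θ ≤ ((i.1 + 1 : ℕ) : ℝ) ∧ ((i.1 + 1 : ℕ) : ℝ) ≤ 2.75 * θ

lemma mem_Gset {K : ℕ} {θ : ℝ} {i : Fin K} : i ∈ Gset K θ ↔
    1.25 * θ ≤ ((i.1 + 1 : ℕ) : ℝ) ∧ ((i.1 + 1 : ℕ) : ℝ) ≤ 2.75 * θ := by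
  classical
  rw [Gset, mem_filter]
  simp only [mem_univ, true_and]

lemma card_Gset (K : ℕ) (θ : ℝ) (hθ : 1 / 2 ≤ θ) (hK : 2.75 * θ ≤ K) :
    0.75 * θ ≤ ((Gset K θ).card : ℝ) := by
  classical
  set a : ℕ := ⌈1.25 * θ⌉₊ with ha
  set b : ℕ := ⌊2.75 * θ⌋₊ with hb
  have ha1 : 1 ≤ a := Nat.one_le_ceil_iff.2 (by linarith)
  have hbK : b ≤ K := by
    have h1 : (b : ℝ) ≤ 2.75 * θ := Nat.floor_le (by linarith)
    have h2 : (b : ℝ) ≤ K := h1.trans hK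
    exact_mod_cast h2
  have hsub : Icc a b ⊆ (Gset K θ).image fun i : Fin K => i.1 + 1 := by
    intro j hj
    rw [mem_Icc] at hj
    rw [mem_image]
    refine ⟨⟨j - 1, by omega⟩, ?_, by simp only; omega⟩
    rw [mem_Gset]
    simp only
    rw [Nat.sub_add_cancel (by omega)]
    exact ⟨Nat.ceil_le.1 hj.1, (Nat.le_floor_iff (by linarith)).1 hj.2⟩
  have h1 : b + 1 - a ≤ (Gset K θ).card := by
    rw [← Nat.card_Icc]
    exact (card_le_card hsub).trans card_image_le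
  have h2 : (b : ℝ) + 1 - a ≤ ((Gset K θ).card : ℝ) := by
    rcases le_or_gt a (b + 1) with h | h
    · have : ((b + 1 - a : ℕ) : ℝ) = (b : ℝ) + 1 - a := by
        rw [Nat.cast_sub h]; push_cast; ring
      rw [← this]
      exact_mod_cast h1
    · have h3 : ((b + 1 : ℕ) : ℝ) < a := by exact_mod_cast h
      push_cast at h3
      have : (0 : ℝ) ≤ ((Gset K θ).card : ℝ) := by positivity
      linarith
  have h3 : (a : ℝ) < 1.25 * θ + 1 := Nat.ceil_lt_add_one (by linarith)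
  have h4 : 2.75 * θ < (b : ℝ) + 1 := Nat.lt_floor_add_one _
  rcases le_or_gt (4 / 3) θ with h5 | h5
  · linarith
  · -- one integer suffices
    have h6 : a ≤ b := by
      rcases le_or_gt θ 0.8 with h7 | h7
      · have h8 : a ≤ 1 := Nat.ceil_le.2 (by norm_num; linarith)
        have h9 : 1 ≤ b := (Nat.le_floor_iff (by linarith)).2 (by norm_num; linarith)
        omega
      · have h8 : a ≤ 2 := Nat.ceil_le.2 (by norm_num; linarith)
        have h9 : 2 ≤ b := (Nat.le_floor_iff (by linarith)).2 (by norm_num; linarith)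
        omega
    have h7 : (a : ℝ) ≤ b := by exact_mod_cast h6
    linarith

lemma sum_w_le (K : ℕ) (θ l : ℝ) (hθ : 1 / 2 ≤ θ) (hl : 0 < l) (hK : 2.75 * θ ≤ K) :
    ∑ i ∈ Gset K θ, (8 * ((i.1 + 1 : ℕ) : ℝ) - 0.1 * θ * l)
      ≤ 8 * (K : ℝ) ^ 2 - 0.075 * θ ^ 2 * l := by
  classical
  have h1 := card_Gset K θ hθ hK
  have h2 : ((Gset K θ).card : ℝ) ≤ K := by
    have : (Gset K θ).card ≤ K := (card_le_univ _).trans (by rw [Fintype.card_fin])
    exact_mod_cast this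
  calc ∑ i ∈ Gset K θ, (8 * ((i.1 + 1 : ℕ) : ℝ) - 0.1 * θ * l)
      ≤ ∑ _i ∈ Gset K θ, (8 * (K : ℝ) - 0.1 * θ * l) := by
        refine sum_le_sum fun i _ => ?_
        have : ((i.1 + 1 : ℕ) : ℝ) ≤ K := by exact_mod_cast i.2
        linarith
    _ = (Gset K θ).card * (8 * (K : ℝ)) - (Gset K θ).card * (0.1 * θ * l) := by
        rw [sum_const, nsmul_eq_mul]; ring
    _ ≤ K * (8 * (K : ℝ)) - 0.75 * θ * (0.1 * θ * l) := by
        refine sub_le_sub (mul_le_mul_of_nonneg_right h2 (by positivity)) ?_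
        exact mul_le_mul_of_nonneg_right h1 (by positivity)
    _ = 8 * (K : ℝ) ^ 2 - 0.075 * θ ^ 2 * l := by ring

lemma sum_two_mul (K : ℕ) : ∑ i : Fin K, 2 * (i.1 + 1) = K * (K + 1) := by
  rw [Fin.sum_univ_eq_sum_range (fun i => 2 * (i + 1)) K]
  induction K with
  | zero => simp
  | succ K ih => rw [sum_range_succ, ih]; ring

lemma prod_WW_le (K s M : ℕ) (l θ t u : ℝ) (hθ : 1 / 2 ≤ θ) (hl : 0 < l) (hK : 2.75 * θ ≤ K)
    (ht : t = Real.exp (θ * l)) (hu1 : Real.exp l ≤ u) (hu2 : u ≤ Real.exp (l + 2))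
    (hs : 1 ≤ s) (hM1 : 1 ≤ M) (hM : Real.exp (0.45 * l - 1) ≤ M) :
    ∏ i : Fin K, WW (gam t u i.1) (s * M ^ (i.1 + 1))
      ≤ (9 * (s : ℝ) ^ 2) ^ K * (M : ℝ) ^ (K * (K + 1))
        * Real.exp (8 * (K : ℝ) ^ 2 - 0.075 * θ ^ 2 * l) := by
  classical
  have hu0 : 0 < u := lt_of_lt_of_le (Real.exp_pos _) hu1
  have ht0 : 0 < t := by rw [ht]; exact Real.exp_pos _
  have hMr : (1 : ℝ) ≤ M := by exact_mod_cast hM1
  have hsr : (1 : ℝ) ≤ s := by exact_mod_cast hs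
  have hterm : ∀ i : Fin K, WW (gam t u i.1) (s * M ^ (i.1 + 1))
      ≤ (9 * (s : ℝ) ^ 2) * ((M : ℝ) ^ (2 * (i.1 + 1))) *
        Real.exp (if i ∈ Gset K θ then (8 * ((i.1 + 1 : ℕ) : ℝ) - 0.1 * θ * l) else 0) := by
    intro i
    have hL : (1 : ℝ) ≤ ((s * M ^ (i.1 + 1) : ℕ) : ℝ) := by
      push_cast
      exact one_le_mul_of_one_le_of_one_le hsr (one_le_pow₀ hMr)
    have hLsq : (2 * ((s * M ^ (i.1 + 1) : ℕ) : ℝ) + 1) ^ 2
        ≤ (9 * (s : ℝ) ^ 2) * ((M : ℝ) ^ (2 * (i.1 + 1))) := by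
      have h1 : 2 * ((s * M ^ (i.1 + 1) : ℕ) : ℝ) + 1 ≤ 3 * ((s * M ^ (i.1 + 1) : ℕ) : ℝ) := by
        linarith
      calc (2 * ((s * M ^ (i.1 + 1) : ℕ) : ℝ) + 1) ^ 2
          ≤ (3 * ((s * M ^ (i.1 + 1) : ℕ) : ℝ)) ^ 2 :=
            pow_le_pow_left₀ (by positivity) h1 2
        _ = (9 * (s : ℝ) ^ 2) * ((M : ℝ) ^ (2 * (i.1 + 1))) := by
            push_cast
            ring
    split_ifs with hi
    · rw [mem_Gset] at hi
      have h1 := sav l θ t u (gam t u i.1) (i.1 + 1) (s * M ^ (i.1 + 1)) hl (by linarith) ht hu1 hu2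
        (by omega) hi.1 hi.2 ?_ ?_
      · exact h1.trans (mul_le_mul_of_nonneg_right hLsq (Real.exp_pos _).le)
      · have h2 : Real.exp ((0.45 * l - 1) * ((i.1 + 1 : ℕ) : ℝ)) ≤ (M : ℝ) ^ (i.1 + 1) := by
          rw [mul_comm, Real.exp_nat_mul]
          exact pow_le_pow_left₀ (Real.exp_pos _).le hM _
        refine h2.trans ?_
        push_cast
        exact le_mul_of_one_le_left (by positivity) hsr
      · rw [abs_gam t u ht0 hu0]
        push_cast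
        rfl
    · rw [Real.exp_zero, mul_one]
      exact (WW_triv _ _).trans hLsq
  calc ∏ i : Fin K, WW (gam t u i.1) (s * M ^ (i.1 + 1))
      ≤ ∏ i : Fin K, ((9 * (s : ℝ) ^ 2) * ((M : ℝ) ^ (2 * (i.1 + 1))) *
        Real.exp (if i ∈ Gset K θ then (8 * ((i.1 + 1 : ℕ) : ℝ) - 0.1 * θ * l) else 0)) :=
        prod_le_prod (fun i _ => WW_nonneg _ _) fun i _ => hterm i
    _ = (9 * (s : ℝ) ^ 2) ^ K * (M : ℝ) ^ (K * (K + 1)) *
        Real.exp (∑ i : Fin K, (if i ∈ Gset K θ then (8 * ((i.1 + 1 : ℕ) : ℝ) - 0.1 * θ * l)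
          else 0)) := by
        rw [prod_mul_distrib, prod_mul_distrib, prod_const, card_univ, Fintype.card_fin,
          prod_pow_eq_pow_sum, sum_two_mul, Real.exp_sum]
    _ ≤ _ := by
        refine mul_le_mul_of_nonneg_left ?_ (by positivity)
        apply Real.exp_le_exp.2
        rw [sum_ite_mem, univ_inter]
        exact sum_w_le K θ l hθ hl hK

end Vale.Agent.P026.H517
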