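import Vale.Agent.P026.H517.Count
import Vale.Agent.P026.H517.Linnik

/-!
# The p-adic step, counting part
-/

namespace Vale.Agent.P026.H517

open Finset

/-- tuples with pairwise distinct residues mod `p` -/
def Dist (p k P : ℕ) : Finset (Fin k → ℕ) :=
  (Tup k (range P)).filter fun x => ∀ i j, i ≠ j → (x i : ZMod p) ≠ (x j : ZMod p)

/-- residue class -/
def cls (p P a : ℕ) : Finset ℕ := (range P).filter fun x => x % p = a

/-- the good pairs -/
def goodPairs (p k P a : ℕ) : Finset ((Fin k → ℕ) × (Fin k → ℕ)) :=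
  (Dist p k P ×ˢ Dist p k P).filter fun z => ∀ j ∈ Icc 1 k,
    ((p : ℤ) ^ j) ∣ (∑ i, ((z.1 i : ℤ) - a) ^ j - ∑ i, ((z.2 i : ℤ) - a) ^ j)

lemma card_goodPairs {p k P a : ℕ} [Fact p.Prime] (hk : 0 < k) (hkp : k < p) (hP : P ≤ p ^ k) :
    (goodPairs p k P a).card ≤ P ^ k * (k ^ k * p ^ (k * (k - 1) / 2)) := by
  classical
  have hpp : p.Prime := Fact.out
  have hne : NeZero (p ^ k) := ⟨(pow_pos hpp.pos k).ne'⟩
  have hmaps : ∀ z ∈ goodPairs p k P a, z.2 ∈ Tup k (range P) := by
    intro z hz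
    rw [goodPairs, mem_filter, mem_product, Dist, mem_filter, mem_filter] at hz
    exact hz.1.2.1
  have h := card_le_mul_card_image_of_maps_to hmaps (k ^ k * p ^ (k * (k - 1) / 2)) ?_
  · rw [Fintype.card_piFinset, prod_const, card_univ, Fintype.card_fin, card_range] at h
    rw [mul_comm]
    exact h
  · intro y hy
    let c : Fin k → ZMod (p ^ k) := fun j => ∑ i, ((y i : ZMod (p ^ k)) - (a : ZMod (p ^ k))) ^ (j.1 + 1)
    refine le_trans ?_ (linnik hk hkp c)
    refine card_le_card_of_injOn (fun z i => ((z.1 i : ZMod (p ^ k)) - (a : ZMod (p ^ k)))) ?_ ?_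
    · intro z hz
      rw [mem_coe, mem_filter, goodPairs, mem_filter, mem_product, Dist, mem_filter,
        mem_filter] at hz
      obtain ⟨⟨⟨⟨h1, h2⟩, _, _⟩, h3⟩, h4⟩ := hz
      rw [mem_coe, mem_filter]
      refine ⟨mem_univ _, ?_, ?_⟩
      · intro i j hij heq
        apply h2 i j hij
        simp only [map_sub, map_natCast, red] at heq
        exact sub_left_inj.1 heq
      · intro j
        have h5 := h3 (j.1 + 1) (mem_Icc.2 ⟨by omega, by omega⟩)
        obtain ⟨q, hq⟩ := h5
        have h6 : (p : ZMod (p ^ k)) ^ (k - (j.1 + 1)) * (p : ZMod (p ^ k)) ^ (j.1 + 1) = 0 := by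
          rw [← pow_add, Nat.sub_add_cancel (by omega)]
          have := ZMod.natCast_self (p ^ k)
          push_cast at this
          exact this
        have h7 := congrArg (Int.cast : ℤ → ZMod (p ^ k)) hq
        push_cast at h7
        simp only [c]
        rw [← h4, h7, ← mul_assoc, h6, zero_mul]
    · intro z hz z' hz' heq
      rw [mem_coe, mem_filter, goodPairs, mem_filter, mem_product, Dist, mem_filter,
        mem_filter] at hz hz'
      obtain ⟨⟨⟨⟨h1, h2⟩, _, _⟩, h3⟩, h4⟩ := hz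
      obtain ⟨⟨⟨⟨h1', h2'⟩, _, _⟩, h3'⟩, h4'⟩ := hz'
      refine Prod.ext ?_ (h4.trans h4'.symm)
      funext i
      have h5 := congrFun heq i
      simp only [sub_left_inj] at h5
      rw [Fintype.mem_piFinset] at h1 h1'
      have a1 : z.1 i < p ^ k := lt_of_lt_of_le (mem_range.1 (h1 i)) hP
      have a2 : z'.1 i < p ^ k := lt_of_lt_of_le (mem_range.1 (h1' i)) hP
      have := congrArg ZMod.val h5
      rwa [ZMod.val_cast_of_lt a1, ZMod.val_cast_of_lt a2] at this

/-- vector of power sums, in `ℤ` -/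
def Phi (k s : ℕ) (w : Fin s → ℕ) : Fin k → ℤ := fun j => ∑ i, (w i : ℤ) ^ (j.1 + 1)

lemma card_Phi_shift (k s : ℕ) (X : Finset ℕ) (h : Fin k → ℤ) :
    ((Tup s X ×ˢ Tup s X).filter fun z => Phi k s z.1 + h = Phi k s z.2).card ≤ J k s X := by
  refine (card_shift_le (Tup s X) (Phi k s) h).trans (le_of_eq ?_)
  rw [J]
  congr 1
  ext z
  simp only [mem_filter, and_congr_right_iff]
  intro _
  constructor
  · intro h j hj
    rw [mem_Icc] at hj
    have := congrFun h ⟨j - 1, by omega⟩
    simp only [Phi, Nat.sub_add_cancel hj.1] at this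
    exact_mod_cast this
  · intro h
    funext j
    have := h (j.1 + 1) (mem_Icc.2 ⟨by omega, by omega⟩)
    simp only [Phi]
    exact_mod_cast this

lemma card_step {p k P a s : ℕ} [Fact p.Prime] (hk : 0 < k) (hkp : k < p) (hP : P ≤ p ^ k)
    (ha : a < p) :
    (((Dist p k P ×ˢ Tup s (cls p P a)) ×ˢ (Dist p k P ×ˢ Tup s (cls p P a))).filter fun w =>
      ∀ j ∈ Icc 1 k, ∑ i, w.1.1 i ^ j + ∑ i, w.1.2 i ^ j
        = ∑ i, w.2.1 i ^ j + ∑ i, w.2.2 i ^ j).card
      ≤ J k s (range (P / p + 1)) * (P ^ k * (k ^ k * p ^ (k * (k - 1) / 2))) := by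
  classical
  have hpp : p.Prime := Fact.out
  -- the key identity
  have key : ∀ w : ((Fin k → ℕ) × (Fin s → ℕ)) × ((Fin k → ℕ) × (Fin s → ℕ)),
      w.1.2 ∈ Tup s (cls p P a) → w.2.2 ∈ Tup s (cls p P a) →
      (∀ j ∈ Icc 1 k, ∑ i, w.1.1 i ^ j + ∑ i, w.1.2 i ^ j
        = ∑ i, w.2.1 i ^ j + ∑ i, w.2.2 i ^ j) →
      ∀ j ∈ Icc 1 k, ∑ i, ((w.1.1 i : ℤ) - a) ^ j - ∑ i, ((w.2.1 i : ℤ) - a) ^ j
        = (p : ℤ) ^ j * (∑ i, ((w.2.2 i / p : ℕ) : ℤ) ^ j - ∑ i, ((w.1.2 i / p : ℕ) : ℤ) ^ j) := by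
    intro w h1 h2 h3 j hj
    have h4 := psum_translate k (Sum.elim (fun i => (w.1.1 i : ℤ)) (fun i => (w.1.2 i : ℤ)))
      (Sum.elim (fun i => (w.2.1 i : ℤ)) (fun i => (w.2.2 i : ℤ))) (-(a : ℤ)) ?_ j hj
    · simp only [Fintype.sum_sum_type, Sum.elim_inl, Sum.elim_inr] at h4
      have h5 : ∀ v : Fin s → ℕ, v ∈ Tup s (cls p P a) →
          ∑ i, ((v i : ℤ) + -(a : ℤ)) ^ j = (p : ℤ) ^ j * ∑ i, ((v i / p : ℕ) : ℤ) ^ j := by
        intro v hv
        rw [mul_sum]
        refine sum_congr rfl fun i _ => ?_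
        rw [← mul_pow]
        congr 1
        rw [Fintype.mem_piFinset] at hv
        have h6 := (mem_filter.1 (hv i)).2
        have h7 := Nat.div_add_mod (v i) p
        rw [h6] at h7
        have h8 : (v i : ℤ) = (p : ℤ) * ((v i / p : ℕ) : ℤ) + a := by
          exact_mod_cast h7.symm
        linarith
      rw [h5 _ h1, h5 _ h2] at h4
      simp only [← sub_eq_add_neg] at h4
      linarith
    · intro j hj
      simp only [Fintype.sum_sum_type, Sum.elim_inl, Sum.elim_inr]
      exact_mod_cast h3 j hj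
  refine le_trans (card_le_mul_card_image_of_maps_to (t := goodPairs p k P a)
    (f := fun w => (w.1.1, w.2.1)) ?_ (J k s (range (P / p + 1))) ?_)
    (Nat.mul_le_mul_left _ (card_goodPairs hk hkp hP))
  · intro w hw
    rw [mem_filter, mem_product, mem_product, mem_product] at hw
    rw [goodPairs, mem_filter, mem_product]
    refine ⟨⟨hw.1.1.1, hw.1.2.1⟩, ?_⟩
    intro j hj
    rw [key w hw.1.1.2 hw.1.2.2 hw.2 j hj]
    exact dvd_mul_right _ _
  · intro z _
    by_cases hne : ((((Dist p k P ×ˢ Tup s (cls p P a)) ×ˢ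
        (Dist p k P ×ˢ Tup s (cls p P a))).filter fun w =>
      ∀ j ∈ Icc 1 k, ∑ i, w.1.1 i ^ j + ∑ i, w.1.2 i ^ j
        = ∑ i, w.2.1 i ^ j + ∑ i, w.2.2 i ^ j).filter fun w => (w.1.1, w.2.1) = z).Nonempty
    · obtain ⟨w0, hw0⟩ := hne
      rw [mem_filter, mem_filter, mem_product, mem_product, mem_product] at hw0
      let q : (Fin s → ℕ) → (Fin s → ℕ) := fun v i => v i / p
      let h : Fin k → ℤ := Phi k s (q w0.2.2) - Phi k s (q w0.1.2)
      refine le_trans ?_ (card_Phi_shift k s (range (P / p + 1)) h)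
      refine card_le_card_of_injOn (fun w => (q w.1.2, q w.2.2)) ?_ ?_
      · intro w hw
        rw [mem_coe, mem_filter, mem_filter, mem_product, mem_product, mem_product] at hw
        rw [mem_coe, mem_filter, mem_product]
        have hq : ∀ v : Fin s → ℕ, v ∈ Tup s (cls p P a) → q v ∈ Tup s (range (P / p + 1)) := by
          intro v hv
          rw [Fintype.mem_piFinset] at hv ⊢
          intro i
          rw [mem_range]
          have := mem_range.1 (mem_filter.1 (hv i)).1
          exact Nat.lt_succ_of_le (Nat.div_le_div_right this.le)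
        refine ⟨⟨hq _ hw.1.1.1.2, hq _ hw.1.1.2.2⟩, ?_⟩
        funext j
        have e1 := key w hw.1.1.1.2 hw.1.1.2.2 hw.1.2 (j.1 + 1)
          (mem_Icc.2 ⟨by omega, by omega⟩)
        have e0 := key w0 hw0.1.1.1.2 hw0.1.1.2.2 hw0.1.2 (j.1 + 1)
          (mem_Icc.2 ⟨by omega, by omega⟩)
        have e2 : w.1.1 = w0.1.1 := by
          have := congrArg Prod.fst (hw.2.trans hw0.2.symm)
          exact this
        have e3 : w.2.1 = w0.2.1 := by
          have := congrArg Prod.snd (hw.2.trans hw0.2.symm)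
          exact this
        rw [e2, e3, e0] at e1
        have hp0 : (p : ℤ) ^ (j.1 + 1) ≠ 0 := pow_ne_zero _ (by exact_mod_cast hpp.ne_zero)
        have e4 := mul_left_cancel₀ hp0 e1
        simp only [Pi.add_apply, Pi.sub_apply, Phi, h, q]
        linarith
      · intro w hw w' hw' heq
        rw [mem_coe, mem_filter, mem_filter, mem_product, mem_product, mem_product] at hw hw'
        have e2 : w.1.1 = w'.1.1 := by
          have := congrArg Prod.fst (hw.2.trans hw'.2.symm)
          exact this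
        have e3 : w.2.1 = w'.2.1 := by
          have := congrArg Prod.snd (hw.2.trans hw'.2.symm)
          exact this
        have hq : ∀ v v' : Fin s → ℕ, v ∈ Tup s (cls p P a) → v' ∈ Tup s (cls p P a) →
            q v = q v' → v = v' := by
          intro v v' hv hv' hqq
          rw [Fintype.mem_piFinset] at hv hv'
          funext i
          have h1 := (mem_filter.1 (hv i)).2
          have h2 := (mem_filter.1 (hv' i)).2
          have h3 := congrFun hqq i
          simp only [q] at h3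
          rw [← Nat.div_add_mod (v i) p, ← Nat.div_add_mod (v' i) p, h1, h2, h3]
        have e4 := congrArg Prod.fst heq
        have e5 := congrArg Prod.snd heq
        simp only at e4 e5
        have e6 := hq _ _ hw.1.1.1.2 hw'.1.1.1.2 e4
        have e7 := hq _ _ hw.1.1.2.2 hw'.1.1.2.2 e5
        exact Prod.ext (Prod.ext e2 e6) (Prod.ext e3 e7)
    · rw [not_nonempty_iff_eq_empty] at hne
      rw [hne, card_empty]
      exact Nat.zero_le _

end Vale.Agent.P026.H517
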