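import Vale.Agent.P026.H517.StepA
import Vale.Agent.P026.H517.Fourier

/-!
# The p-adic step, Fourier part
-/

namespace Vale.Agent.P026.H517

open Finset ComplexConjugate

set_option linter.unusedSectionVars false

section

variable {k R : ℕ} [NeZero R]

lemma card_le_sum_norm {ι κ : Type*} (A : Finset ι) (B : Finset κ) (u : ι → Fin k → ZMod R)
    (v : κ → Fin k → ZMod R) :
    (R : ℝ) ^ k * (((A ×ˢ B).filter fun z => u z.1 = v z.2).card : ℝ)
      ≤ ∑ α : Fin k → ZMod R, ‖FS A u α‖ * ‖FS B v α‖ := by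
  have h := sum_FS_mul_conj A B u v
  have h2 : ‖(R : ℂ) ^ k * (((A ×ˢ B).filter fun z => u z.1 = v z.2).card : ℂ)‖
      = (R : ℝ) ^ k * (((A ×ˢ B).filter fun z => u z.1 = v z.2).card : ℝ) := by
    rw [norm_mul, norm_pow, Complex.norm_natCast, Complex.norm_natCast]
  rw [← h2, ← h]
  refine (norm_sum_le _ _).trans (le_of_eq (sum_congr rfl fun α _ => ?_))
  rw [norm_mul, Complex.norm_conj]

/-- the map for pairs -/
def uu (k R s : ℕ) (z : (Fin k → ℕ) × (Fin s → ℕ)) : Fin k → ZMod R :=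
  ∑ i, nu k R (z.1 i) + ∑ i, nu k R (z.2 i)

lemma uu_eq_iff {s P : ℕ} {z z' : (Fin k → ℕ) × (Fin s → ℕ)}
    (h1 : ∀ i, z.1 i < P) (h2 : ∀ i, z.2 i < P) (h1' : ∀ i, z'.1 i < P) (h2' : ∀ i, z'.2 i < P)
    (hR : (k + s) * P ^ k < R) :
    uu k R s z = uu k R s z' ↔ ∀ j ∈ Icc 1 k, ∑ i, z.1 i ^ j + ∑ i, z.2 i ^ j
        = ∑ i, z'.1 i ^ j + ∑ i, z'.2 i ^ j := by
  have hb : ∀ z : (Fin k → ℕ) × (Fin s → ℕ), (∀ i, z.1 i < P) → (∀ i, z.2 i < P) →
      ∀ j ∈ Icc 1 k, ∑ i, z.1 i ^ j + ∑ i, z.2 i ^ j < R := by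
    intro z hz1 hz2 j hj
    rw [mem_Icc] at hj
    refine lt_of_le_of_lt ?_ hR
    rw [add_mul]
    have key : ∀ (n : ℕ) (z : Fin n → ℕ), (∀ i, z i < P) → ∑ i, z i ^ j ≤ n * P ^ k := by
      intro n z hz
      calc ∑ i, z i ^ j ≤ ∑ _i : Fin n, P ^ k := by
            refine sum_le_sum fun i _ => ?_
            calc z i ^ j ≤ P ^ j := Nat.pow_le_pow_left (hz i).le j
              _ ≤ P ^ k := Nat.pow_le_pow_right (by have := hz i; omega) hj.2
        _ = n * P ^ k := by simp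
    exact add_le_add (key _ _ hz1) (key _ _ hz2)
  have key : ∀ (z : (Fin k → ℕ) × (Fin s → ℕ)) (j : Fin k),
      (uu k R s z) j = ((∑ i, z.1 i ^ (j.1 + 1) + ∑ i, z.2 i ^ (j.1 + 1) : ℕ) : ZMod R) := by
    intro z j
    rw [uu, Pi.add_apply, Finset.sum_apply, Finset.sum_apply]
    push_cast
    rfl
  constructor
  · intro h j hj
    have hj' := mem_Icc.1 hj
    have h3 := congrFun h ⟨j - 1, by omega⟩
    rw [key, key] at h3
    simp only [Nat.sub_add_cancel hj'.1] at h3
    exact (natCast_eq_iff_of_lt (hb _ h1 h2 j hj) (hb _ h1' h2' j hj)).1 h3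
  · intro h
    funext j
    rw [key, key, h (j.1 + 1) (mem_Icc.2 ⟨by omega, by omega⟩)]

lemma FS_uu (s : ℕ) (B : Finset (Fin k → ℕ)) (Y : Finset ℕ) (α : Fin k → ZMod R) :
    FS (B ×ˢ Tup s Y) (uu k R s) α
      = FS B (fun x => ∑ i, nu k R (x i)) α * FS Y (nu k R) α ^ s := by
  rw [← FS_tup, ← FS_prod]
  rfl

lemma ex_add_left (α β h : Fin k → ZMod R) : ex (α + β) h = ex α h * ex β h := by
  rw [ex, ex, ex, ← AddChar.map_add_eq_mul]
  congr 1
  simp [dotp, add_mul, sum_add_distrib]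

lemma FS_diag (i j : Fin k) (hij : i ≠ j) (X : Finset ℕ) (α : Fin k → ZMod R) :
    FS ((Tup k X).filter fun x => x i = x j) (fun x => ∑ l, nu k R (x l)) α
      = FS X (nu k R) (α + α) * FS X (nu k R) α ^ (k - 2) := by
  classical
  rw [FS, ← sum_fiberwise_of_maps_to (t := X) (g := fun x : Fin k → ℕ => x i)
    (fun x hx => (Fintype.mem_piFinset.1 (mem_filter.1 hx).1) i)]
  rw [FS, sum_mul]
  refine sum_congr rfl fun c hc => ?_
  have hset : ((Tup k X).filter fun x => x i = x j).filter (fun x => x i = c)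
      = Fintype.piFinset fun l => if l = i ∨ l = j then {c} else X := by
    ext x
    rw [mem_filter, mem_filter, Fintype.mem_piFinset, Fintype.mem_piFinset]
    constructor
    · rintro ⟨⟨h1, h2⟩, h3⟩ l
      split_ifs with hl
      · rw [mem_singleton]
        rcases hl with rfl | rfl
        · exact h3
        · rw [← h2, h3]
      · exact h1 l
    · intro h
      have hi := h i
      have hj := h j
      simp only [true_or, or_true, if_true, mem_singleton] at hi hj
      refine ⟨⟨fun l => ?_, by rw [hi, hj]⟩, hi⟩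
      by_cases hl : l = i ∨ l = j
      · have := h l
        rw [if_pos hl, mem_singleton] at this
        rw [this]; exact hc
      · have := h l
        rwa [if_neg hl] at this
  rw [hset]
  have h1 : ∀ x : Fin k → ℕ, ex α (∑ l, nu k R (x l)) = ∏ l, ex α (nu k R (x l)) :=
    fun x => ex_sum _ _ _
  simp_rw [h1]
  rw [← Finset.prod_univ_sum (fun l : Fin k => if l = i ∨ l = j then ({c} : Finset ℕ) else X)
    (fun _ y => ex α (nu k R y))]
  have h2 : ∀ l : Fin k, ∑ y ∈ (if l = i ∨ l = j then ({c} : Finset ℕ) else X), ex α (nu k R y)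
      = if l = i ∨ l = j then ex α (nu k R c) else FS X (nu k R) α := by
    intro l
    split_ifs
    · rw [sum_singleton]
    · rfl
  simp_rw [h2]
  rw [prod_ite, prod_const, prod_const]
  have h3 : (univ.filter fun l : Fin k => l = i ∨ l = j) = {i, j} := by
    ext l; simp
  have h4 : (univ.filter fun l : Fin k => ¬ (l = i ∨ l = j)).card = k - 2 := by
    have := card_filter_add_card_filter_not (s := (univ : Finset (Fin k)))
      (fun l : Fin k => l = i ∨ l = j)
    rw [h3, card_pair hij, card_univ, Fintype.card_fin] at this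
    omega
  rw [h4, h3, card_pair hij, ex_add_left, sq]

lemma sum_double (hodd : Odd R) (g : (Fin k → ZMod R) → ℝ) :
    ∑ α : Fin k → ZMod R, g (α + α) = ∑ α : Fin k → ZMod R, g α := by
  have hu : IsUnit (2 : ZMod R) := by
    have h : Nat.Coprime 2 R := (Nat.coprime_two_left).2 hodd
    have := (ZMod.unitOfCoprime 2 h).isUnit
    simpa using this
  have hinj : Function.Injective (fun α : Fin k → ZMod R => α + α) := by
    intro α β h
    funext j
    have h1 := congrFun h j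
    simp only [Pi.add_apply, ← two_mul] at h1
    exact hu.mul_left_cancel h1
  exact Fintype.sum_bijective _ ((Fintype.bijective_iff_injective_and_card _).2 ⟨hinj, rfl⟩) _ _
    fun α => rfl

lemma mul_pow_le_add (a b : ℝ) (ha : 0 ≤ a) (hb : 0 ≤ b) (n : ℕ) :
    a * b ^ n ≤ a ^ (n + 1) + b ^ (n + 1) := by
  rcases le_total a b with h | h
  · calc a * b ^ n ≤ b * b ^ n := mul_le_mul_of_nonneg_right h (pow_nonneg hb n)
      _ = b ^ (n + 1) := by ring
      _ ≤ a ^ (n + 1) + b ^ (n + 1) := le_add_of_nonneg_left (pow_nonneg ha _)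
  · calc a * b ^ n ≤ a * a ^ n := mul_le_mul_of_nonneg_left (pow_le_pow_left₀ hb h n) ha
      _ = a ^ (n + 1) := by ring
      _ ≤ a ^ (n + 1) + b ^ (n + 1) := le_add_of_nonneg_right (pow_nonneg hb _)

lemma pow_le_div_add (b H : ℝ) (hb : 0 ≤ b) (hH : 0 < H) (n : ℕ) :
    b ^ n ≤ b ^ (n + 1) / H + H ^ n := by
  rcases le_total b H with h | h
  · exact (pow_le_pow_left₀ hb h n).trans (le_add_of_nonneg_left (by positivity))
  · refine le_trans ?_ (le_add_of_nonneg_right (by positivity))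
    rw [le_div_iff₀ hH, pow_succ]
    exact mul_le_mul_of_nonneg_left h (pow_nonneg hb n)

lemma sum_double_pow_le (hodd : Odd R) (f : (Fin k → ZMod R) → ℝ) (hf : ∀ α, 0 ≤ f α) (n : ℕ)
    (H : ℝ) (hH : 0 < H) :
    ∑ α : Fin k → ZMod R, f (α + α) * f α ^ n
      ≤ 2 * ((∑ α : Fin k → ZMod R, f α ^ (n + 2)) / H + (R : ℝ) ^ k * H ^ (n + 1)) := by
  have hcard : ∑ _α : Fin k → ZMod R, H ^ (n + 1) = (R : ℝ) ^ k * H ^ (n + 1) := by
    rw [sum_const, card_univ, Fintype.card_fun, ZMod.card, Fintype.card_fin, nsmul_eq_mul]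
    push_cast
    rfl
  calc ∑ α : Fin k → ZMod R, f (α + α) * f α ^ n
      ≤ ∑ α : Fin k → ZMod R, (f (α + α) ^ (n + 1) + f α ^ (n + 1)) :=
        sum_le_sum fun α _ => mul_pow_le_add _ _ (hf _) (hf _) n
    _ = 2 * ∑ α : Fin k → ZMod R, f α ^ (n + 1) := by
        rw [sum_add_distrib, sum_double hodd (fun α => f α ^ (n + 1)), two_mul]
    _ ≤ 2 * ∑ α : Fin k → ZMod R, (f α ^ (n + 2) / H + H ^ (n + 1)) := by
        refine mul_le_mul_of_nonneg_left (sum_le_sum fun α _ => ?_) (by norm_num)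
        exact pow_le_div_add _ _ (hf _) hH (n + 1)
    _ = _ := by
        rw [sum_add_distrib, hcard, sum_div]

end

end Vale.Agent.P026.H517
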