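import Vale.Agent.P026.H517.StepB

/-!
# Reduction to well conditioned solutions
-/

namespace Vale.Agent.P026.H517

open Finset ComplexConjugate

/-- the Vinogradov system for pairs -/
def Eqn (k s : ℕ) (w : ((Fin k → ℕ) × (Fin s → ℕ)) × ((Fin k → ℕ) × (Fin s → ℕ))) : Prop :=
  ∀ j ∈ Icc 1 k, ∑ i, w.1.1 i ^ j + ∑ i, w.1.2 i ^ j
        = ∑ i, w.2.1 i ^ j + ∑ i, w.2.2 i ^ j

instance (k s : ℕ) (w : ((Fin k → ℕ) × (Fin s → ℕ)) × ((Fin k → ℕ) × (Fin s → ℕ))) :
    Decidable (Eqn k s w) := by unfold Eqn; infer_instance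

/-- general count -/
def Cnt (k s : ℕ) (B B' : Finset (Fin k → ℕ)) (Y : Finset ℕ) : ℕ :=
  (((B ×ˢ Tup s Y) ×ˢ (B' ×ˢ Tup s Y)).filter fun w => Eqn k s w).card

/-- injective tuples -/
def Inj (k : ℕ) (X : Finset ℕ) : Finset (Fin k → ℕ) :=
  (Tup k X).filter fun x => ∀ i j, i ≠ j → x i ≠ x j

/-- diagonal tuples -/
def Dg (k : ℕ) (X : Finset ℕ) (q : Fin k × Fin k) : Finset (Fin k → ℕ) :=
  (Tup k X).filter fun x => x q.1 = x q.2

lemma exists_R (N : ℕ) : ∃ R : ℕ, Odd R ∧ N < R := ⟨2 * N + 1, ⟨N, rfl⟩, by omega⟩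

lemma Cnt_eq {k s P R : ℕ} [NeZero R] {B B' : Finset (Fin k → ℕ)} {Y : Finset ℕ}
    (hB : B ⊆ Tup k (range P)) (hB' : B' ⊆ Tup k (range P)) (hY : Y ⊆ range P)
    (hR : (k + s) * P ^ k < R) :
    Cnt k s B B' Y = (((B ×ˢ Tup s Y) ×ˢ (B' ×ˢ Tup s Y)).filter fun w =>
      uu k R s w.1 = uu k R s w.2).card := by
  rw [Cnt]
  congr 1
  ext w
  simp only [mem_filter, mem_product, and_congr_right_iff]
  intro hw
  have e1 := fun i => mem_range.1 (Fintype.mem_piFinset.1 (hB hw.1.1) i)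
  have e2 := fun i => mem_range.1 (hY (Fintype.mem_piFinset.1 hw.1.2 i))
  have e3 := fun i => mem_range.1 (Fintype.mem_piFinset.1 (hB' hw.2.1) i)
  have e4 := fun i => mem_range.1 (hY (Fintype.mem_piFinset.1 hw.2.2 i))
  exact (uu_eq_iff e1 e2 e3 e4 hR).symm

lemma Cnt_full (k s P : ℕ) :
    Cnt k s (Tup k (range P)) (Tup k (range P)) (range P) = J k (k + s) (range P) := by
  obtain ⟨R, hodd, hR⟩ := exists_R ((k + s) * P ^ k)
  have : NeZero R := ⟨by omega⟩
  have h1 := Cnt_eq (k := k) (s := s) (P := P) (R := R) (B := Tup k (range P))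
    (B' := Tup k (range P)) (Y := range P) subset_rfl subset_rfl subset_rfl hR
  have h2 := sum_norm_FS_sq (Tup k (range P) ×ˢ Tup s (range P)) (uu k R s)
  have h3 := J_eq (k := k) (R := R) (m := k + s) (P := P) (X := range P)
    (fun x hx => mem_range.1 hx) hR
  rw [← h1] at h2
  simp_rw [FS_uu, FS_tup] at h2
  have h4 : ∀ α : Fin k → ZMod R,
      ‖FS (range P) (nu k R) α ^ k * FS (range P) (nu k R) α ^ s‖ ^ 2
        = ‖FS (range P) (nu k R) α‖ ^ (2 * (k + s)) := by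
    intro α
    rw [← pow_add, norm_pow, ← pow_mul, mul_comm]
  simp_rw [h4] at h2
  rw [← h3] at h2
  have hRk : (R : ℝ) ^ k ≠ 0 := pow_ne_zero _ (by exact_mod_cast (by omega : R ≠ 0))
  have := mul_left_cancel₀ hRk h2
  exact_mod_cast this.symm

lemma Cnt_Dg_left (k s P : ℕ) (q : Fin k × Fin k) (hq : q.1 ≠ q.2) (H : ℝ) (hH : 0 < H) :
    (Cnt k s (Dg k (range P) q) (Tup k (range P)) (range P) : ℝ)
      ≤ 2 * ((J k (k + s) (range P) : ℝ) / H + H ^ (2 * (k + s) - 1)) := by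
  obtain ⟨R, hodd, hR⟩ := exists_R ((k + s) * P ^ k)
  have : NeZero R := ⟨by omega⟩
  have hk2 : 2 ≤ k := by
    have h1 := q.1.2
    have h2 := q.2.2
    have h3 : q.1.1 ≠ q.2.1 := fun h => hq (Fin.ext h)
    omega
  have h1 := Cnt_eq (k := k) (s := s) (P := P) (R := R) (B := Dg k (range P) q)
    (B' := Tup k (range P)) (Y := range P) (filter_subset _ _) subset_rfl subset_rfl hR
  have h2 := card_le_sum_norm (Dg k (range P) q ×ˢ Tup s (range P))
    (Tup k (range P) ×ˢ Tup s (range P)) (uu k R s) (uu k R s)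
  rw [← h1] at h2
  have h3 := J_eq (k := k) (R := R) (m := k + s) (P := P) (X := range P)
    (fun x hx => mem_range.1 hx) hR
  have h4 : ∀ α : Fin k → ZMod R,
      ‖FS (Dg k (range P) q ×ˢ Tup s (range P)) (uu k R s) α‖ *
        ‖FS (Tup k (range P) ×ˢ Tup s (range P)) (uu k R s) α‖
      = ‖FS (range P) (nu k R) (α + α)‖ * ‖FS (range P) (nu k R) α‖ ^ (2 * (k + s) - 2) := by
    intro α
    rw [FS_uu, FS_uu, FS_tup, Dg, FS_diag q.1 q.2 hq]
    rw [norm_mul, norm_mul, norm_mul, norm_pow, norm_pow, norm_pow]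
    have : 2 * (k + s) - 2 = (k - 2) + s + (k + s) := by omega
    rw [this]
    ring
  simp_rw [h4] at h2
  have h5 := sum_double_pow_le hodd (fun α => ‖FS (range P) (nu k R) α‖) (fun α => norm_nonneg _)
    (2 * (k + s) - 2) H hH
  have e1 : 2 * (k + s) - 2 + 2 = 2 * (k + s) := by omega
  have e2 : 2 * (k + s) - 2 + 1 = 2 * (k + s) - 1 := by omega
  rw [e1, e2] at h5
  rw [← h3] at h5
  have hRk : 0 < (R : ℝ) ^ k := pow_pos (by exact_mod_cast (by omega : 0 < R)) k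
  have h6 := h2.trans h5
  have h7 : 2 * ((R : ℝ) ^ k * (J k (k + s) (range P) : ℝ) / H + (R : ℝ) ^ k * H ^ (2 * (k + s) - 1))
      = (R : ℝ) ^ k * (2 * ((J k (k + s) (range P) : ℝ) / H + H ^ (2 * (k + s) - 1))) := by ring
  rw [h7] at h6
  exact le_of_mul_le_mul_left h6 hRk

lemma Cnt_symm (k s : ℕ) (B B' : Finset (Fin k → ℕ)) (Y : Finset ℕ) :
    Cnt k s B B' Y = Cnt k s B' B Y := by
  rw [Cnt, Cnt]
  refine card_bij (fun w _ => w.swap) ?_ ?_ ?_
  · intro w hw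
    rw [mem_filter, mem_product] at hw ⊢
    exact ⟨⟨hw.1.2, hw.1.1⟩, fun j hj => (hw.2 j hj).symm⟩
  · intro w _ w' _ h
    exact Prod.swap_injective h
  · intro w hw
    rw [mem_filter, mem_product] at hw
    refine ⟨w.swap, ?_, Prod.swap_swap w⟩
    rw [mem_filter, mem_product]
    exact ⟨⟨hw.1.2, hw.1.1⟩, fun j hj => (hw.2 j hj).symm⟩

lemma J_le_inj (k s P : ℕ) (hk : 0 < k) :
    (J k (k + s) (range P) : ℝ)
      ≤ 2 * (Cnt k s (Inj k (range P)) (Inj k (range P)) (range P) : ℝ)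
        + (8 * (k : ℝ) ^ 2) ^ (2 * (k + s)) := by
  classical
  have hk0 : (0 : ℝ) < k := by exact_mod_cast hk
  set T := Tup k (range P) with hT
  set Q : Finset (Fin k × Fin k) := univ.filter fun q => q.1 ≠ q.2 with hQ
  have hcover : ((T ×ˢ Tup s (range P)) ×ˢ (T ×ˢ Tup s (range P))).filter (fun w => Eqn k s w)
      ⊆ (((Inj k (range P) ×ˢ Tup s (range P)) ×ˢ (Inj k (range P) ×ˢ Tup s (range P))).filter
          fun w => Eqn k s w)
        ∪ ((Q.biUnion fun q => (((Dg k (range P) q ×ˢ Tup s (range P)) ×ˢ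
            (T ×ˢ Tup s (range P))).filter fun w => Eqn k s w))
        ∪ (Q.biUnion fun q => (((T ×ˢ Tup s (range P)) ×ˢ
            (Dg k (range P) q ×ˢ Tup s (range P))).filter fun w => Eqn k s w))) := by
    intro w hw
    rw [mem_filter, mem_product, mem_product, mem_product] at hw
    rw [mem_union, mem_union]
    by_cases h1 : ∀ i j, i ≠ j → w.1.1 i ≠ w.1.1 j
    · by_cases h2 : ∀ i j, i ≠ j → w.2.1 i ≠ w.2.1 j
      · left
        rw [mem_filter, mem_product, mem_product, mem_product, Inj, mem_filter, mem_filter]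
        exact ⟨⟨⟨⟨hw.1.1.1, h1⟩, hw.1.1.2⟩, ⟨hw.1.2.1, h2⟩, hw.1.2.2⟩, hw.2⟩
      · right; right
        push Not at h2
        obtain ⟨i, j, hij, he⟩ := h2
        rw [mem_biUnion]
        refine ⟨(i, j), ?_, ?_⟩
        · rw [hQ, mem_filter]; exact ⟨mem_univ _, hij⟩
        · rw [mem_filter, mem_product, mem_product, mem_product, Dg, mem_filter]
          exact ⟨⟨⟨hw.1.1.1, hw.1.1.2⟩, ⟨hw.1.2.1, he⟩, hw.1.2.2⟩, hw.2⟩
    · right; left
      push Not at h1
      obtain ⟨i, j, hij, he⟩ := h1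
      rw [mem_biUnion]
      refine ⟨(i, j), ?_, ?_⟩
      · rw [hQ, mem_filter]; exact ⟨mem_univ _, hij⟩
      · rw [mem_filter, mem_product, mem_product, mem_product, Dg, mem_filter]
        exact ⟨⟨⟨⟨hw.1.1.1, he⟩, hw.1.1.2⟩, ⟨hw.1.2.1, hw.1.2.2⟩⟩, hw.2⟩
  have hc : J k (k + s) (range P) ≤ Cnt k s (Inj k (range P)) (Inj k (range P)) (range P)
      + (∑ q ∈ Q, Cnt k s (Dg k (range P) q) T (range P)
        + ∑ q ∈ Q, Cnt k s T (Dg k (range P) q) (range P)) := by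
    rw [← Cnt_full]
    refine (card_le_card hcover).trans ?_
    refine (card_union_le _ _).trans (Nat.add_le_add le_rfl ?_)
    refine (card_union_le _ _).trans (Nat.add_le_add ?_ ?_)
    · exact card_biUnion_le
    · exact card_biUnion_le
  have hQcard : Q.card ≤ k ^ 2 := by
    refine (card_le_univ _).trans ?_
    rw [Fintype.card_prod, Fintype.card_fin, sq]
  set H : ℝ := 8 * (k : ℝ) ^ 2 with hH
  have hHpos : 0 < H := by positivity
  set D : ℝ := 2 * ((J k (k + s) (range P) : ℝ) / H + H ^ (2 * (k + s) - 1)) with hD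
  have hD0 : 0 ≤ D := by positivity
  have hb1 : (∑ q ∈ Q, Cnt k s (Dg k (range P) q) T (range P) : ℝ) ≤ (k : ℝ) ^ 2 * D := by
    calc (∑ q ∈ Q, Cnt k s (Dg k (range P) q) T (range P) : ℝ) ≤ ∑ _q ∈ Q, D := by
          refine sum_le_sum fun q hq => ?_
          rw [hQ, mem_filter] at hq
          exact Cnt_Dg_left k s P q hq.2 H hHpos
      _ = Q.card * D := by rw [sum_const, nsmul_eq_mul]
      _ ≤ (k : ℝ) ^ 2 * D := by
          refine mul_le_mul_of_nonneg_right ?_ hD0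
          exact_mod_cast hQcard
  have hb2 : (∑ q ∈ Q, Cnt k s T (Dg k (range P) q) (range P) : ℝ) ≤ (k : ℝ) ^ 2 * D := by
    simp_rw [Cnt_symm k s T]
    exact hb1
  have hc' : (J k (k + s) (range P) : ℝ)
      ≤ (Cnt k s (Inj k (range P)) (Inj k (range P)) (range P) : ℝ)
        + ((k : ℝ) ^ 2 * D + (k : ℝ) ^ 2 * D) := by
    have hc2 : ((J k (k + s) (range P) : ℕ) : ℝ)
        ≤ ((Cnt k s (Inj k (range P)) (Inj k (range P)) (range P)
      + (∑ q ∈ Q, Cnt k s (Dg k (range P) q) T (range P)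
        + ∑ q ∈ Q, Cnt k s T (Dg k (range P) q) (range P)) : ℕ) : ℝ) := by exact_mod_cast hc
    push_cast at hc2
    exact hc2.trans (add_le_add le_rfl (add_le_add hb1 hb2))
  have h5 : (k : ℝ) ^ 2 * D + (k : ℝ) ^ 2 * D
      = (J k (k + s) (range P) : ℝ) / 2 + H ^ (2 * (k + s)) / 2 := by
    have e1 : H ^ (2 * (k + s)) = H ^ (2 * (k + s) - 1) * H := by
      rw [← pow_succ]
      congr 1
      omega
    rw [e1, hD, hH]
    field_simp
    ring
  rw [h5] at hc'
  linarith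

end Vale.Agent.P026.H517
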