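import Vale.Agent.P026.H517.StepC

/-!
# Choice of the prime and the p-adic recursion
-/

namespace Vale.Agent.P026.H517

open Finset ComplexConjugate

lemma exists_sep {k P X0 : ℕ} (hk : 0 < k) (hX0 : 2 ≤ X0) (hP : P ≤ X0 ^ k) (PP : Finset ℕ)
    (hpr : ∀ p ∈ PP, p.Prime) (hge : ∀ p ∈ PP, X0 ≤ p) (hcard : 2 * k ^ 3 ≤ PP.card)
    {x y : Fin k → ℕ} (hx : x ∈ Inj k (range P)) (hy : y ∈ Inj k (range P)) :
    ∃ p ∈ PP, x ∈ Dist p k P ∧ y ∈ Dist p k P := by
  classical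
  rw [Inj, mem_filter] at hx hy
  by_contra hcon
  push Not at hcon
  let Q : Finset (Fin k × Fin k) := (univ : Finset (Fin k)).offDiag
  let F : Fin k × Fin k → ℕ := fun q =>
    ((x q.1 : ℤ) - x q.2).natAbs * ((y q.1 : ℤ) - y q.2).natAbs
  have hxl : ∀ i, x i < P := fun i => mem_range.1 (Fintype.mem_piFinset.1 hx.1 i)
  have hyl : ∀ i, y i < P := fun i => mem_range.1 (Fintype.mem_piFinset.1 hy.1 i)
  have hF0 : ∀ q ∈ Q, F q ≠ 0 := by
    intro q hq
    have hq' : q.1 ≠ q.2 := by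
      have := (mem_offDiag.1 hq).2.2
      exact this
    simp only [F]
    refine mul_ne_zero ?_ ?_
    · rw [Int.natAbs_ne_zero, sub_ne_zero]
      exact_mod_cast hx.2 _ _ hq'
    · rw [Int.natAbs_ne_zero, sub_ne_zero]
      exact_mod_cast hy.2 _ _ hq'
  have hFle : ∀ q ∈ Q, F q ≤ P ^ 2 := by
    intro q _
    have h1 := hxl q.1
    have h2 := hxl q.2
    have h3 := hyl q.1
    have h4 := hyl q.2
    simp only [F]
    rw [sq]
    refine Nat.mul_le_mul ?_ ?_ <;> omega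
  have hdvd : ∀ p ∈ PP, p ∣ ∏ q ∈ Q, F q := by
    intro p hp
    have hpp := hpr p hp
    have h1 := hcon p hp
    have key : ∀ z : Fin k → ℕ, z ∈ Tup k (range P) → z ∉ Dist p k P →
        ∃ i j, i ≠ j ∧ p ∣ ((z i : ℤ) - z j).natAbs := by
      intro z hz hnot
      rw [Dist, mem_filter] at hnot
      push Not at hnot
      obtain ⟨i, j, hij, he⟩ := hnot hz
      refine ⟨i, j, hij, ?_⟩
      rw [← Int.natCast_dvd_natCast, Int.dvd_natAbs]
      have : ((z i : ℤ) : ZMod p) = ((z j : ℤ) : ZMod p) := by exact_mod_cast he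
      have h2 := (ZMod.intCast_eq_intCast_iff_dvd_sub (z j : ℤ) (z i : ℤ) p).1 this.symm
      exact h2
    by_cases hxd : x ∈ Dist p k P
    · obtain ⟨i, j, hij, hd⟩ := key y hy.1 (h1 hxd)
      refine dvd_trans ?_ (dvd_prod_of_mem F (a := (i, j)) (mem_offDiag.2 ⟨mem_univ _, mem_univ _, hij⟩))
      exact dvd_mul_of_dvd_right hd _
    · obtain ⟨i, j, hij, hd⟩ := key x hx.1 hxd
      refine dvd_trans ?_ (dvd_prod_of_mem F (a := (i, j)) (mem_offDiag.2 ⟨mem_univ _, mem_univ _, hij⟩))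
      exact dvd_mul_of_dvd_left hd _
  have hprod : ∏ p ∈ PP, p ∣ ∏ q ∈ Q, F q :=
    prod_primes_dvd _ (fun p hp => (hpr p hp).prime) hdvd
  have hpos : 0 < ∏ q ∈ Q, F q := Nat.pos_of_ne_zero (prod_ne_zero_iff.2 hF0)
  have h1 := Nat.le_of_dvd hpos hprod
  have h2 : X0 ^ (2 * k ^ 3) ≤ ∏ p ∈ PP, p := by
    calc X0 ^ (2 * k ^ 3) ≤ X0 ^ PP.card := Nat.pow_le_pow_right (by omega) hcard
      _ = ∏ _p ∈ PP, X0 := by rw [prod_const]
      _ ≤ ∏ p ∈ PP, p := prod_le_prod' hge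
  have h3 : ∏ q ∈ Q, F q ≤ X0 ^ (2 * k * (k * k - k)) := by
    calc ∏ q ∈ Q, F q ≤ ∏ _q ∈ Q, P ^ 2 := prod_le_prod' hFle
      _ = (P ^ 2) ^ (k * k - k) := by
          rw [prod_const, offDiag_card, card_univ, Fintype.card_fin]
      _ ≤ ((X0 ^ k) ^ 2) ^ (k * k - k) :=
          Nat.pow_le_pow_left (Nat.pow_le_pow_left hP 2) _
      _ = X0 ^ (2 * k * (k * k - k)) := by
          rw [← pow_mul, ← pow_mul]
          congr 1
          ring
  have h4 := h2.trans (h1.trans h3)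
  have h5 := (Nat.pow_le_pow_iff_right (by omega : 1 < X0)).1 h4
  have h6 : k * k - k < k * k := Nat.sub_lt (Nat.mul_pos hk hk) hk
  have h7 : 2 * k * (k * k - k) < 2 * k * (k * k) := Nat.mul_lt_mul_of_pos_left h6 (by omega)
  have h8 : 2 * k * (k * k) = 2 * k ^ 3 := by ring
  omega

lemma Cnt_inj_le {k s P X0 : ℕ} (hk : 0 < k) (hX0 : 2 ≤ X0) (hP : P ≤ X0 ^ k) (PP : Finset ℕ)
    (hpr : ∀ p ∈ PP, p.Prime) (hge : ∀ p ∈ PP, X0 ≤ p) (hcard : 2 * k ^ 3 ≤ PP.card) :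
    Cnt k s (Inj k (range P)) (Inj k (range P)) (range P)
      ≤ ∑ p ∈ PP, Cnt k s (Dist p k P) (Dist p k P) (range P) := by
  classical
  refine le_trans (card_le_card ?_) card_biUnion_le
  intro w hw
  rw [mem_filter, mem_product, mem_product, mem_product] at hw
  obtain ⟨p, hp, h1, h2⟩ := exists_sep hk hX0 hP PP hpr hge hcard hw.1.1.1 hw.1.2.1
  rw [mem_biUnion]
  refine ⟨p, hp, ?_⟩
  rw [mem_filter, mem_product, mem_product, mem_product]
  exact ⟨⟨⟨h1, hw.1.1.2⟩, h2, hw.1.2.2⟩, hw.2⟩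

lemma Cnt_Dist_le {k s P p : ℕ} [Fact p.Prime] (hk : 0 < k) (hs : 0 < s) (hkp : k < p)
    (hP : P ≤ p ^ k) :
    Cnt k s (Dist p k P) (Dist p k P) (range P)
      ≤ p ^ (2 * s) * (J k s (range (P / p + 1)) * (P ^ k * (k ^ k * p ^ (k * (k - 1) / 2)))) := by
  have hpp : p.Prime := Fact.out
  obtain ⟨R, hodd, hR⟩ := exists_R ((k + s) * P ^ k)
  have : NeZero R := ⟨by omega⟩
  have hRk : 0 < (R : ℝ) ^ k := pow_pos (by exact_mod_cast (by omega : 0 < R)) k
  have h1 := Cnt_eq (k := k) (s := s) (P := P) (R := R) (B := Dist p k P)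
    (B' := Dist p k P) (Y := range P) (filter_subset _ _) (filter_subset _ _) subset_rfl hR
  have h1' : ∀ a, Cnt k s (Dist p k P) (Dist p k P) (cls p P a) = _ :=
    fun a => Cnt_eq (k := k) (s := s) (P := P) (R := R) (B := Dist p k P)
    (B' := Dist p k P) (Y := cls p P a) (filter_subset _ _) (filter_subset _ _)
    (filter_subset _ _) hR
  have h2 := sum_norm_FS_sq (Dist p k P ×ˢ Tup s (range P)) (uu k R s)
  have h2' : ∀ a, _ := fun a => sum_norm_FS_sq (Dist p k P ×ˢ Tup s (cls p P a)) (uu k R s)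
  rw [← h1] at h2
  simp_rw [← h1'] at h2'
  have hpw : ∀ α : Fin k → ZMod R,
      ‖FS (Dist p k P ×ˢ Tup s (range P)) (uu k R s) α‖ ^ 2
      ≤ (p : ℝ) ^ (2 * s - 1) * ∑ a ∈ range p,
        ‖FS (Dist p k P ×ˢ Tup s (cls p P a)) (uu k R s) α‖ ^ 2 := by
    intro α
    simp_rw [FS_uu, norm_mul, mul_pow]
    rw [mul_sum]
    simp_rw [mul_left_comm ((p : ℝ) ^ (2 * s - 1))]
    rw [← mul_sum]
    refine mul_le_mul_of_nonneg_left ?_ (by positivity)
    have h3 : FS (range P) (nu k R) α = ∑ a ∈ range p, FS (cls p P a) (nu k R) α := by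
      rw [FS, ← sum_fiberwise_of_maps_to (t := range p) (g := fun x => x % p)
        (fun x _ => mem_range.2 (Nat.mod_lt x hpp.pos))]
      rfl
    have h4 := pow_sum_div_card_le_sum_pow (s := range p)
      (f := fun a => ‖FS (cls p P a) (nu k R) α‖) (fun a _ => norm_nonneg _) (2 * s - 1)
    rw [card_range, div_le_iff₀ (pow_pos (by exact_mod_cast hpp.pos) _)] at h4
    have e1 : 2 * s - 1 + 1 = 2 * s := by omega
    rw [e1] at h4
    have e2 : ∀ z : ℂ, ‖z ^ s‖ ^ 2 = ‖z‖ ^ (2 * s) := by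
      intro z
      rw [norm_pow, ← pow_mul, mul_comm]
    simp_rw [e2]
    rw [h3]
    refine le_trans (pow_le_pow_left₀ (norm_nonneg _) (norm_sum_le _ _) _) ?_
    refine h4.trans (le_of_eq ?_)
    rw [mul_comm, mul_sum]
  have h5 : (R : ℝ) ^ k * (Cnt k s (Dist p k P) (Dist p k P) (range P) : ℝ)
      ≤ (R : ℝ) ^ k * ((p : ℝ) ^ (2 * s - 1) *
        ∑ a ∈ range p, (Cnt k s (Dist p k P) (Dist p k P) (cls p P a) : ℝ)) := by
    rw [← h2]
    refine (sum_le_sum fun α _ => hpw α).trans ?_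
    rw [← mul_sum, sum_comm]
    simp_rw [h2']
    rw [← mul_sum]
    apply le_of_eq
    ring
  have h6 := le_of_mul_le_mul_left h5 hRk
  have h7 : Cnt k s (Dist p k P) (Dist p k P) (range P)
      ≤ p ^ (2 * s - 1) * ∑ a ∈ range p, Cnt k s (Dist p k P) (Dist p k P) (cls p P a) := by
    exact_mod_cast h6
  refine h7.trans ?_
  calc p ^ (2 * s - 1) * ∑ a ∈ range p, Cnt k s (Dist p k P) (Dist p k P) (cls p P a)
      ≤ p ^ (2 * s - 1) * ∑ _a ∈ range p,
        (J k s (range (P / p + 1)) * (P ^ k * (k ^ k * p ^ (k * (k - 1) / 2)))) := by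
        refine Nat.mul_le_mul le_rfl (sum_le_sum fun a ha => ?_)
        exact card_step hk hkp hP (mem_range.1 ha)
    _ = _ := by
        rw [sum_const, card_range, smul_eq_mul, ← mul_assoc, ← pow_succ]
        congr 2
        omega

end Vale.Agent.P026.H517
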