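import Vale.Agent.P026.H517.StepD
import Vale.Agent.P026.H517.Primes

/-!
# The recursion, and the base case
-/

namespace Vale.Agent.P026.H517

open Finset

lemma J_base (k : ℕ) (X : Finset ℕ) : J k k X ≤ X.card ^ k * k ^ k := by
  classical
  have hmaps : ∀ z ∈ ((Tup k X ×ˢ Tup k X).filter fun z =>
    ∀ j ∈ Icc 1 k, ∑ i, z.1 i ^ j = ∑ i, z.2 i ^ j), z.1 ∈ Tup k X := by
    intro z hz
    rw [mem_filter, mem_product] at hz
    exact hz.1.1
  have h := card_le_mul_card_image_of_maps_to hmaps (k ^ k) ?_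
  · rw [Fintype.card_piFinset, prod_const, card_univ, Fintype.card_fin] at h
    rw [J, mul_comm]
    exact h
  · intro x _
    have hsub : (((Tup k X ×ˢ Tup k X).filter fun z =>
        ∀ j ∈ Icc 1 k, ∑ i, z.1 i ^ j = ∑ i, z.2 i ^ j).filter fun z => z.1 = x)
        ⊆ (univ : Finset (Fin k → Fin k)).image fun σ => (x, fun i => x (σ i)) := by
      intro z hz
      rw [mem_filter, mem_filter] at hz
      obtain ⟨⟨_, h2⟩, h3⟩ := hz
      have h4 : ∀ i, ∃ j, z.2 i = x j := by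
        intro i
        have hu : ∀ j : ℕ, 1 ≤ j → j ≤ k → IsUnit (j : ℚ) := by
          intro j h1 _
          rw [isUnit_iff_ne_zero]
          exact_mod_cast (by omega : j ≠ 0)
        have h5 := prod_eq_of_psum_eq (A := ℚ) (fun i => (x i : ℚ)) (fun i => (z.2 i : ℚ)) hu
          (fun j h1 h2' => by
            have := h2 j (mem_Icc.2 ⟨h1, h2'⟩)
            rw [h3] at this
            exact_mod_cast this) (z.2 i : ℚ)
        have h6 : ∏ j, ((z.2 i : ℚ) - (z.2 j : ℚ)) = 0 :=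
          prod_eq_zero (mem_univ i) (sub_self _)
        rw [h6, prod_eq_zero_iff] at h5
        obtain ⟨j, _, hj⟩ := h5
        exact ⟨j, by exact_mod_cast sub_eq_zero.1 hj⟩
      choose σ hσ using h4
      rw [mem_image]
      exact ⟨σ, mem_univ _, Prod.ext h3.symm (funext fun i => (hσ i).symm)⟩
    refine (card_le_card hsub).trans (card_image_le.trans (le_of_eq ?_))
    rw [card_univ, Fintype.card_fun, Fintype.card_fin]

lemma J_mono {k m : ℕ} {X Y : Finset ℕ} (h : X ⊆ Y) : J k m X ≤ J k m Y := by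
  refine card_le_card ?_
  intro z hz
  rw [mem_filter, mem_product, Fintype.mem_piFinset, Fintype.mem_piFinset] at hz ⊢
  exact ⟨⟨fun i => h (hz.1.1 i), fun i => h (hz.1.2 i)⟩, hz.2⟩

lemma J_triv (k m : ℕ) (X : Finset ℕ) : J k m X ≤ X.card ^ (2 * m) := by
  refine (card_filter_le _ _).trans (le_of_eq ?_)
  rw [card_product, Fintype.card_piFinset, prod_const, card_univ, Fintype.card_fin, two_mul,
    pow_add]

lemma J_rec {k s P X0 : ℕ} (hk : 2 ≤ k) (hs : 0 < s) (hX0 : 10 ^ 16 ≤ X0) (hk4 : k ^ 4 ≤ X0)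
    (hP : P ≤ X0 ^ k) :
    (J k (k + s) (range P) : ℝ)
      ≤ 4 * (k : ℝ) ^ 3 * ((4 * (X0 : ℝ)) ^ (2 * s) * (J k s (range (P / X0 + 1)) *
          ((P : ℝ) ^ k * ((k : ℝ) ^ k * (4 * (X0 : ℝ)) ^ (k * (k - 1) / 2)))))
        + (8 * (k : ℝ) ^ 2) ^ (2 * (k + s)) := by
  classical
  obtain ⟨PP, hsub, hcard⟩ := exists_subset_card_eq (prime_supply X0 k hX0 hk4)
  have hpr : ∀ p ∈ PP, p.Prime := fun p hp => (mem_filter.1 (hsub hp)).2
  have hge : ∀ p ∈ PP, X0 ≤ p := fun p hp => (mem_Icc.1 (mem_filter.1 (hsub hp)).1).1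
  have hle : ∀ p ∈ PP, p ≤ 4 * X0 := fun p hp => (mem_Icc.1 (mem_filter.1 (hsub hp)).1).2
  have h1 := J_le_inj k s P (by omega)
  have h2 := Cnt_inj_le (s := s) (by omega : 0 < k) (by omega : 2 ≤ X0) hP PP hpr hge
    (le_of_eq hcard.symm)
  have hkX : k < X0 := by
    have : k ^ 1 < k ^ 4 := Nat.pow_lt_pow_right (by omega) (by norm_num)
    rw [pow_one] at this
    omega
  have h3 : ∀ p ∈ PP, Cnt k s (Dist p k P) (Dist p k P) (range P)
      ≤ (4 * X0) ^ (2 * s) * (J k s (range (P / X0 + 1)) *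
        (P ^ k * (k ^ k * (4 * X0) ^ (k * (k - 1) / 2)))) := by
    intro p hp
    have : Fact p.Prime := ⟨hpr p hp⟩
    have hkp : k < p := lt_of_lt_of_le hkX (hge p hp)
    have hPp : P ≤ p ^ k := hP.trans (Nat.pow_le_pow_left (hge p hp) k)
    refine (Cnt_Dist_le (by omega) hs hkp hPp).trans ?_
    refine Nat.mul_le_mul (Nat.pow_le_pow_left (hle p hp) _) ?_
    refine Nat.mul_le_mul (J_mono ?_) ?_
    · intro x hx
      rw [mem_range] at hx ⊢
      have := Nat.div_le_div_left (a := P) (hge p hp) (by omega)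
      omega
    · refine Nat.mul_le_mul le_rfl (Nat.mul_le_mul le_rfl ?_)
      exact Nat.pow_le_pow_left (hle p hp) _
  have h4 := h2.trans (sum_le_sum h3)
  rw [sum_const, hcard, smul_eq_mul] at h4
  have h5 : (Cnt k s (Inj k (range P)) (Inj k (range P)) (range P) : ℝ)
      ≤ 2 * (k : ℝ) ^ 3 * ((4 * (X0 : ℝ)) ^ (2 * s) * (J k s (range (P / X0 + 1)) *
          ((P : ℝ) ^ k * ((k : ℝ) ^ k * (4 * (X0 : ℝ)) ^ (k * (k - 1) / 2))))) := by
    exact_mod_cast h4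
  linarith

/-- the exponent -/
noncomputable def EE (k l : ℕ) : ℝ :=
  2 * l * k - k * (k + 1) / 2 + (k : ℝ) ^ 2 / 2 * (1 - 1 / k) ^ l

lemma EE_one {k : ℕ} (hk : 0 < k) : EE k 1 = k := by
  have : (k : ℝ) ≠ 0 := by exact_mod_cast hk.ne'
  rw [EE]
  field_simp
  push_cast
  ring

lemma EE_succ {k : ℕ} (hk : 0 < k) (l : ℕ) :
    EE k (l + 1) = (2 * (l * k : ℕ) + ((k * (k - 1) / 2 : ℕ) : ℝ)) / k + k
      + (1 - 1 / k) * EE k l := by
  have h0 : (k : ℝ) ≠ 0 := by exact_mod_cast hk.ne'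
  have h1 : ((k * (k - 1) / 2 : ℕ) : ℝ) = (k : ℝ) * (k - 1) / 2 := by
    rw [Nat.cast_div (Nat.even_mul_pred_self k).two_dvd (by norm_num)]
    push_cast [Nat.cast_sub hk]
    ring
  rw [EE, EE, h1, pow_succ (1 - 1 / (k : ℝ)) l]
  generalize (1 - 1 / (k : ℝ)) ^ l = g
  push_cast
  field_simp
  ring

lemma EE_nonneg {k : ℕ} (hk : 0 < k) {l : ℕ} (hl : 1 ≤ l) : 0 ≤ EE k l := by
  have h0 : (0 : ℝ) < k := by exact_mod_cast hk
  have hk1 : (1 : ℝ) ≤ k := by exact_mod_cast hk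
  have hl1 : (1 : ℝ) ≤ l := by exact_mod_cast hl
  have h1 : 1 + (l : ℝ) * (-(1 / k)) ≤ (1 + -(1 / (k : ℝ))) ^ l := by
    apply one_add_mul_le_pow
    have : 1 / (k : ℝ) ≤ 1 := by
      rw [div_le_one h0]; exact hk1
    linarith
  have h2 : (1 - 1 / (k : ℝ)) ^ l = (1 + -(1 / (k : ℝ))) ^ l := by ring_nf
  rw [EE, h2]
  have h3 : (k : ℝ) ^ 2 / 2 * (1 + (l : ℝ) * (-(1 / k))) ≤
      (k : ℝ) ^ 2 / 2 * (1 + -(1 / (k : ℝ))) ^ l :=
    mul_le_mul_of_nonneg_left h1 (by positivity)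
  have h4 : (k : ℝ) ^ 2 / 2 * (1 + (l : ℝ) * (-(1 / k))) = (k : ℝ) ^ 2 / 2 - l * k / 2 := by
    field_simp
    ring
  rw [h4] at h3
  nlinarith

lemma pow_factor_mem {k : ℕ} (hk : 0 < k) (l : ℕ) :
    0 ≤ (1 - 1 / (k : ℝ)) ^ l ∧ (1 - 1 / (k : ℝ)) ^ l ≤ 1 := by
  have h0 : (0 : ℝ) < k := by exact_mod_cast hk
  have hk1 : (1 : ℝ) ≤ k := by exact_mod_cast hk
  have h1 : 1 / (k : ℝ) ≤ 1 := by rw [div_le_one h0]; exact hk1
  have h2 : 0 < 1 / (k : ℝ) := by positivity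
  exact ⟨pow_nonneg (by linarith) l, pow_le_one₀ (by linarith) (by linarith)⟩

lemma EE_le {k : ℕ} (hk : 0 < k) (l : ℕ) : EE k l ≤ 2 * l * k + k ^ 2 := by
  have h0 : (0 : ℝ) < k := by exact_mod_cast hk
  have h1 := pow_factor_mem hk l
  rw [EE]
  have : (k : ℝ) ^ 2 / 2 * (1 - 1 / k) ^ l ≤ (k : ℝ) ^ 2 / 2 * 1 :=
    mul_le_mul_of_nonneg_left h1.2 (by positivity)
  nlinarith

lemma EE_ge {k : ℕ} (hk : 0 < k) (l : ℕ) : 2 * l * k - k ^ 2 ≤ EE k l := by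
  have h0 : (1 : ℝ) ≤ k := by exact_mod_cast hk
  have h1 := pow_factor_mem hk l
  rw [EE]
  have : 0 ≤ (k : ℝ) ^ 2 / 2 * (1 - 1 / k) ^ l := mul_nonneg (by positivity) h1.1
  nlinarith

end Vale.Agent.P026.H517
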