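import Vale.Agent.P026.H517.WBound

/-!
# Shifts, Taylor expansion, and the saving in one linear sum
-/

namespace Vale.Agent.P026.H517

open Finset ComplexConjugate

lemma norm_EI_sub_le (x y : ℝ) : ‖EI x - EI y‖ ≤ |x - y| := by
  have h1 : EI x - EI y = EI y * (EI (x - y) - 1) := by
    rw [mul_sub, mul_one, ← EI_add]
    congr 2
    ring
  rw [h1, norm_mul, norm_EI, one_mul]
  have h2 := Real.norm_exp_I_mul_ofReal_sub_one_le (x := x - y)
  rw [Real.norm_eq_abs] at h2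
  rwa [EI, mul_comm]

lemma shift_one (f : ℕ → ℂ) {N N' : ℕ} (h : N ≤ N') :
    ∑ n ∈ Ioc N N', f (n + 1) - ∑ n ∈ Ioc N N', f n = f (N' + 1) - f (N + 1) := by
  induction N', h using Nat.le_induction with
  | base => simp
  | succ N' hN ih =>
    rw [Finset.sum_Ioc_succ_top (by omega), Finset.sum_Ioc_succ_top (by omega)]
    linear_combination ih

lemma shift_sum (g : ℕ → ℂ) (hg : ∀ n, ‖g n‖ ≤ 1) {N N' : ℕ} (h : N ≤ N') (k : ℕ) :
    ‖∑ n ∈ Ioc N N', g (n + k) - ∑ n ∈ Ioc N N', g n‖ ≤ 2 * k := by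
  induction k with
  | zero => simp
  | succ k ih =>
    have h1 := shift_one (fun n => g (n + k)) h
    have h2 : ∑ n ∈ Ioc N N', g (n + (k + 1)) - ∑ n ∈ Ioc N N', g n
        = (∑ n ∈ Ioc N N', g (n + k) - ∑ n ∈ Ioc N N', g n)
          + (g (N' + 1 + k) - g (N + 1 + k)) := by
      rw [← h1]
      have : ∀ n, g (n + (k + 1)) = g (n + 1 + k) := fun n => by congr 1; ring
      simp_rw [this]
      ring
    rw [h2]
    refine (norm_add_le _ _).trans ?_
    have h3 : ‖g (N' + 1 + k) - g (N + 1 + k)‖ ≤ 2 := by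
      refine (norm_sub_le _ _).trans ?_
      linarith [hg (N' + 1 + k), hg (N + 1 + k)]
    push_cast
    linarith

lemma avg_bound (g : ℕ → ℂ) (hg : ∀ n, ‖g n‖ ≤ 1) {N N' : ℕ} (h : N ≤ N') (M : ℕ) (hM : 1 ≤ M)
    (B : ℝ) (hB : ∀ n ∈ Ioc N N',
      ‖∑ x ∈ range M, ∑ y ∈ range M, g (n + x * y)‖ ≤ (M : ℝ) ^ 2 * B) :
    ‖∑ n ∈ Ioc N N', g n‖ ≤ ((N' : ℝ) - N) * B + 2 * (M : ℝ) ^ 2 := by
  have hM0 : (0 : ℝ) < M := by exact_mod_cast hM
  set S := ∑ n ∈ Ioc N N', g n with hS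
  have h1 : ((M : ℂ) ^ 2) * S = ∑ n ∈ Ioc N N', ∑ x ∈ range M, ∑ y ∈ range M, g (n + x * y)
      - ∑ x ∈ range M, ∑ y ∈ range M, (∑ n ∈ Ioc N N', g (n + x * y) - S) := by
    have h2 : ∑ n ∈ Ioc N N', ∑ x ∈ range M, ∑ y ∈ range M, g (n + x * y)
        = ∑ x ∈ range M, ∑ y ∈ range M, ∑ n ∈ Ioc N N', g (n + x * y) := by
      rw [sum_comm]
      refine sum_congr rfl fun x _ => ?_
      rw [sum_comm]
    rw [h2]
    simp_rw [sum_sub_distrib]
    simp only [sum_const, card_range, nsmul_eq_mul]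
    ring
  have h2 : ‖∑ n ∈ Ioc N N', ∑ x ∈ range M, ∑ y ∈ range M, g (n + x * y)‖
      ≤ ((N' : ℝ) - N) * ((M : ℝ) ^ 2 * B) := by
    refine (norm_sum_le _ _).trans ?_
    refine (sum_le_sum hB).trans ?_
    rw [sum_const, Nat.card_Ioc, nsmul_eq_mul, Nat.cast_sub h]
  have h3 : ‖∑ x ∈ range M, ∑ y ∈ range M, (∑ n ∈ Ioc N N', g (n + x * y) - S)‖
      ≤ (M : ℝ) ^ 2 * (2 * (M : ℝ) ^ 2) := by
    refine (norm_sum_le _ _).trans ?_
    calc ∑ x ∈ range M, ‖∑ y ∈ range M, (∑ n ∈ Ioc N N', g (n + x * y) - S)‖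
        ≤ ∑ _x ∈ range M, (M : ℝ) * (2 * (M : ℝ) ^ 2) := by
          refine sum_le_sum fun x hx => ?_
          refine (norm_sum_le _ _).trans ?_
          calc ∑ y ∈ range M, ‖∑ n ∈ Ioc N N', g (n + x * y) - S‖
              ≤ ∑ _y ∈ range M, 2 * (M : ℝ) ^ 2 := by
                refine sum_le_sum fun y hy => ?_
                refine (shift_sum g hg h (x * y)).trans ?_
                have hx' : (x : ℝ) ≤ M := by exact_mod_cast (mem_range.1 hx).le
                have hy' : (y : ℝ) ≤ M := by exact_mod_cast (mem_range.1 hy).le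
                push_cast
                have : (x : ℝ) * y ≤ M * M := mul_le_mul hx' hy' (by positivity) (by positivity)
                nlinarith
            _ = (M : ℝ) * (2 * (M : ℝ) ^ 2) := by rw [sum_const, card_range, nsmul_eq_mul]
      _ = (M : ℝ) ^ 2 * (2 * (M : ℝ) ^ 2) := by
          rw [sum_const, card_range, nsmul_eq_mul]
          ring
  have h4 : (M : ℝ) ^ 2 * ‖S‖ ≤ (M : ℝ) ^ 2 * (((N' : ℝ) - N) * B + 2 * (M : ℝ) ^ 2) := by
    have h5 : (M : ℝ) ^ 2 * ‖S‖ = ‖((M : ℂ) ^ 2) * S‖ := by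
      rw [norm_mul, norm_pow, Complex.norm_natCast]
    rw [h5, h1]
    refine (norm_sub_le _ _).trans ?_
    refine (add_le_add h2 h3).trans (le_of_eq ?_)
    ring
  exact le_of_mul_le_mul_left h4 (by positivity)

/-- Taylor coefficients -/
noncomputable def gam (t u : ℝ) (i : ℕ) : ℝ := -(t * (-1) ^ (i + 1) / ((i + 1) * u ^ (i + 1)))

lemma abs_gam (t u : ℝ) (ht : 0 < t) (hu : 0 < u) (i : ℕ) :
    |gam t u i| = t / ((i + 1) * u ^ (i + 1)) := by
  rw [gam, abs_neg, abs_div, abs_mul, abs_pow, abs_neg, abs_one, one_pow, mul_one,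
    abs_of_pos ht, abs_of_pos (by positivity)]

lemma taylor (t u : ℝ) (ht : 0 ≤ t) (hu : 0 < u) (K x y : ℕ)
    (hv : ((x : ℝ) * y) / u ≤ 1 / 2) :
    ‖EI (t * Real.log (1 + (x : ℝ) * y / u))
      - EI (Bf (fun i : Fin K => gam t u i) (nz K x) (nz K y))‖
      ≤ 2 * t * (((x : ℝ) * y) / u) ^ (K + 1) := by
  refine (norm_EI_sub_le _ _).trans ?_
  set v : ℝ := ((x : ℝ) * y) / u with hvdef
  have hv0 : 0 ≤ v := by positivity
  have h1 := Real.abs_log_sub_add_sum_range_le (x := -v) (by rw [abs_neg, abs_of_nonneg hv0]; linarith) K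
  rw [abs_neg, abs_of_nonneg hv0, sub_neg_eq_add] at h1
  have h2 : Bf (fun i : Fin K => gam t u i) (nz K x) (nz K y)
      = -(t * ∑ i ∈ range K, (-v) ^ (i + 1) / (i + 1)) := by
    rw [Bf, Finset.sum_range, mul_sum, ← sum_neg_distrib]
    refine sum_congr rfl fun i _ => ?_
    simp only [gam, nz]
    push_cast
    rw [hvdef, neg_pow ((x : ℝ) * y / u), div_pow, mul_pow]
    have : u ^ (i.1 + 1) ≠ 0 := (pow_pos hu _).ne'
    field_simp
  rw [h2]
  have h3 : t * Real.log (1 + v) - -(t * ∑ i ∈ range K, (-v) ^ (i + 1) / (i + 1))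
      = t * (∑ i ∈ range K, (-v) ^ (i + 1) / ((i : ℝ) + 1) + Real.log (1 + v)) := by ring
  rw [h3, abs_mul, abs_of_nonneg ht]
  have h4 : v ^ (K + 1) / (1 - v) ≤ 2 * v ^ (K + 1) := by
    rw [div_le_iff₀ (by linarith)]
    have : 0 ≤ v ^ (K + 1) := by positivity
    nlinarith
  calc t * |∑ i ∈ range K, (-v) ^ (i + 1) / ((i : ℝ) + 1) + Real.log (1 + v)|
      ≤ t * (2 * v ^ (K + 1)) := mul_le_mul_of_nonneg_left (h1.trans h4) ht
    _ = 2 * t * v ^ (K + 1) := by ring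

lemma exp_two_le : Real.exp 2 ≤ 7.5 := by
  have h4 := Real.exp_one_lt_d9
  have h5 : Real.exp 2 = Real.exp 1 * Real.exp 1 := by rw [← Real.exp_add]; norm_num
  rw [h5]
  nlinarith [Real.exp_pos 1]

lemma two_pi_le_exp_two : 2 * Real.pi ≤ Real.exp 2 := by
  have h3 := Real.pi_lt_d2
  have h4 := Real.exp_one_gt_d9
  have h5 : Real.exp 2 = Real.exp 1 * Real.exp 1 := by rw [← Real.exp_add]; norm_num
  rw [h5]
  nlinarith

lemma exp35_ge (j : ℝ) (hj : 1 ≤ j) : (28 : ℝ) ≤ Real.exp (3.5 * j) := by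
  have h4 := Real.exp_one_gt_d9
  have h5 : Real.exp 3.5 ≤ Real.exp (3.5 * j) := Real.exp_le_exp.2 (by linarith)
  have h6 : Real.exp 3.5 = Real.exp 1 ^ 3 * Real.exp 0.5 := by
    rw [← Real.exp_nat_mul, ← Real.exp_add]; norm_num
  have h7 : 1 + 0.5 ≤ Real.exp 0.5 := by linarith [Real.add_one_le_exp (0.5 : ℝ)]
  have h8 : (2.7 : ℝ) ^ 3 ≤ Real.exp 1 ^ 3 := pow_le_pow_left₀ (by norm_num) (by linarith) 3
  have h9 : (2.7 : ℝ) ^ 3 * (1 + 0.5) ≤ Real.exp 1 ^ 3 * Real.exp 0.5 :=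
    mul_le_mul h8 h7 (by norm_num) (by positivity)
  rw [h6] at h5
  refine le_trans ?_ (h9.trans h5)
  norm_num

lemma sav_b3 (l θ t u g : ℝ) (j : ℕ) (ht : t = Real.exp (θ * l))
    (hu0 : 0 < u) (hu2 : u ≤ Real.exp (l + 2)) (hj : 1 ≤ j)
    (hg : |g| = t / (j * u ^ j)) :
    1 / (|g| / (2 * Real.pi)) ≤ Real.exp (2 + 3 * j + j * l - θ * l) := by
  have ht0 : 0 < t := by rw [ht]; exact Real.exp_pos _
  have hj0 : (0 : ℝ) < j := by exact_mod_cast hj
  have hpi := Real.pi_pos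
  have e1 : u ^ j ≤ Real.exp (j * (l + 2)) := by
    rw [Real.exp_nat_mul]
    exact pow_le_pow_left₀ hu0.le hu2 j
  have e2 : 1 / (|g| / (2 * Real.pi)) = 2 * Real.pi * j * u ^ j / t := by
    rw [hg]
    field_simp
  have e4 : (j : ℝ) ≤ Real.exp j := by linarith [Real.add_one_le_exp (j : ℝ)]
  rw [e2, div_le_iff₀ ht0]
  calc 2 * Real.pi * j * u ^ j ≤ Real.exp 2 * Real.exp j * Real.exp (j * (l + 2)) := by
        refine mul_le_mul (mul_le_mul two_pi_le_exp_two e4 hj0.le (by positivity)) e1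
          (by positivity) (by positivity)
    _ = Real.exp (2 + 3 * j + j * l - θ * l) * t := by
        rw [ht, ← Real.exp_add, ← Real.exp_add, ← Real.exp_add]
        congr 1
        ring

lemma sav_b2 (l θ t u g : ℝ) (j : ℕ) (ht : t = Real.exp (θ * l))
    (hu0 : 0 < u) (hu1 : Real.exp l ≤ u) (hj : 1 ≤ j)
    (hg : |g| = t / (j * u ^ j)) :
    |g| / (2 * Real.pi) ≤ Real.exp (θ * l - j * l) := by
  have ht0 : 0 < t := by rw [ht]; exact Real.exp_pos _
  have hj1 : (1 : ℝ) ≤ j := by exact_mod_cast hj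
  have hpi := Real.pi_gt_three
  have e1 : Real.exp (j * l) ≤ u ^ j := by
    rw [Real.exp_nat_mul]
    exact pow_le_pow_left₀ (Real.exp_pos _).le hu1 j
  rw [hg, Real.exp_sub, ← ht, div_div]
  refine div_le_div_of_nonneg_left ht0.le (Real.exp_pos _) ?_
  have e3 : 0 < u ^ j := by positivity
  calc Real.exp (j * l) ≤ u ^ j := e1
    _ = 1 * u ^ j * 1 := by ring
    _ ≤ j * u ^ j * (2 * Real.pi) := by
        refine mul_le_mul (mul_le_mul_of_nonneg_right hj1 e3.le) (by linarith) (by norm_num)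
          (by positivity)

lemma sav_sum (l θ δ α β : ℝ) (j : ℕ) (hl : 0 < l) (hθ : 0 < θ) (hj : 1 ≤ j)
    (h1 : 1.25 * θ ≤ j) (h2 : j ≤ 2.75 * θ)
    (b1 : δ ≤ Real.exp (-(0.225 * l * j) + j / 2))
    (b2 : α ≤ Real.exp (θ * l - j * l))
    (b4 : β ≤ Real.exp (-(0.675 * l * j) + 3 * j / 2 + (2 + 3 * j + j * l - θ * l))) :
    4 * δ + α + 3 * β ≤ Real.exp (8 * j - 0.1 * θ * l) := by
  have hj1 : (1 : ℝ) ≤ j := by exact_mod_cast hj
  set X : ℝ := Real.exp (-(0.1 * θ * l)) with hX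
  have hXpos : 0 < X := Real.exp_pos _
  have e : 1.25 * (θ * l) ≤ j * l := by
    have := mul_le_mul_of_nonneg_right h1 hl.le
    linarith
  have e' : j * l ≤ 2.75 * (θ * l) := by
    have := mul_le_mul_of_nonneg_right h2 hl.le
    linarith
  have e2 : 0 < θ * l := by positivity
  have c1 : δ ≤ Real.exp (4.5 * j) * X := by
    refine b1.trans ?_
    rw [hX, ← Real.exp_add]
    apply Real.exp_le_exp.2
    linarith
  have c2 : α ≤ Real.exp (4.5 * j) * X := by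
    refine b2.trans ?_
    rw [hX, ← Real.exp_add]
    apply Real.exp_le_exp.2
    linarith
  have c3 : β ≤ Real.exp 2 * (Real.exp (4.5 * j) * X) := by
    refine b4.trans ?_
    rw [hX, ← Real.exp_add, ← Real.exp_add]
    apply Real.exp_le_exp.2
    linarith
  have e2lt := exp_two_le
  have e3 := exp35_ge j hj1
  have hY : 0 < Real.exp (4.5 * j) * X := by positivity
  calc 4 * δ + α + 3 * β
      ≤ 4 * (Real.exp (4.5 * j) * X) + Real.exp (4.5 * j) * X
        + 3 * (Real.exp 2 * (Real.exp (4.5 * j) * X)) := by linarith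
    _ = (5 + 3 * Real.exp 2) * (Real.exp (4.5 * j) * X) := by ring
    _ ≤ 28 * (Real.exp (4.5 * j) * X) := mul_le_mul_of_nonneg_right (by linarith) hY.le
    _ ≤ Real.exp (3.5 * j) * (Real.exp (4.5 * j) * X) := mul_le_mul_of_nonneg_right e3 hY.le
    _ = Real.exp (8 * j - 0.1 * θ * l) := by
        rw [hX, ← Real.exp_add, ← Real.exp_add]
        congr 1
        ring

/-- the saving in one good linear sum -/
lemma sav (l θ t u g : ℝ) (j L : ℕ) (hl : 0 < l) (hθ : 0 < θ) (ht : t = Real.exp (θ * l))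
    (hu1 : Real.exp l ≤ u) (hu2 : u ≤ Real.exp (l + 2)) (hj : 1 ≤ j)
    (h1 : 1.25 * θ ≤ j) (h2 : j ≤ 2.75 * θ) (hL : Real.exp ((0.45 * l - 1) * j) ≤ L)
    (hg : |g| = t / (j * u ^ j)) :
    WW g L ≤ (2 * (L : ℝ) + 1) ^ 2 * Real.exp (8 * j - 0.1 * θ * l) := by
  have hL0 : (0 : ℝ) < L := lt_of_lt_of_le (Real.exp_pos _) hL
  have hL1 : 1 ≤ L := by
    have : 0 < L := by exact_mod_cast hL0
    omega
  have hu0 : 0 < u := lt_of_lt_of_le (Real.exp_pos _) hu1
  have ht0 : 0 < t := by rw [ht]; exact Real.exp_pos _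
  have hj0 : (0 : ℝ) < j := by exact_mod_cast hj
  have hpi := Real.pi_pos
  have hg0 : g ≠ 0 := by
    intro h
    rw [h, abs_zero] at hg
    have : 0 < t / (j * u ^ j) := by positivity
    linarith
  set δ : ℝ := (Real.sqrt L)⁻¹ with hδ
  have hδ0 : 0 < δ := by rw [hδ]; exact inv_pos.2 (Real.sqrt_pos.2 hL0)
  have hδ2 : δ ^ 2 * L = 1 := by
    rw [hδ, inv_pow, Real.sq_sqrt hL0.le]
    field_simp
  set α : ℝ := |g| / (2 * Real.pi) with hα
  have hα0 : 0 < α := by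
    rw [hα]
    have := abs_pos.2 hg0
    positivity
  refine (WW_le g hg0 L hL1 δ α hδ0 hδ2 hα).trans ?_
  refine mul_le_mul_of_nonneg_left ?_ (by positivity)
  -- bounds
  have b1 : δ ≤ Real.exp (-(0.225 * l * j) + j / 2) := by
    have e1 : Real.exp (-(0.225 * l * j) + j / 2)
        = (Real.sqrt (Real.exp ((0.45 * l - 1) * j)))⁻¹ := by
      rw [← Real.exp_half, ← Real.exp_neg]
      congr 1
      ring
    rw [e1, hδ]
    exact inv_anti₀ (Real.sqrt_pos.2 (Real.exp_pos _)) (Real.sqrt_le_sqrt hL)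
  have b2 : α ≤ Real.exp (θ * l - j * l) := sav_b2 l θ t u g j ht hu0 hu1 hj hg
  have b3 : 1 / α ≤ Real.exp (2 + 3 * j + j * l - θ * l) := sav_b3 l θ t u g j ht hu0 hu2 hj hg
  have b4 : δ / (α * L)
      ≤ Real.exp (-(0.675 * l * j) + 3 * j / 2 + (2 + 3 * j + j * l - θ * l)) := by
    have e1 : δ / (α * L) = δ ^ 3 * (1 / α) := by
      have : (L : ℝ) = 1 / δ ^ 2 := by
        rw [eq_div_iff (by positivity)]
        linarith
      rw [this]
      field_simp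
    rw [e1, Real.exp_add]
    refine mul_le_mul ?_ b3 (by positivity) (by positivity)
    calc δ ^ 3 ≤ Real.exp (-(0.225 * l * j) + j / 2) ^ 3 := pow_le_pow_left₀ hδ0.le b1 3
      _ = Real.exp (-(0.675 * l * j) + 3 * j / 2) := by
          rw [← Real.exp_nat_mul]
          congr 1
          push_cast
          ring
  have := sav_sum l θ δ α (δ / (α * L)) j hl hθ hj h1 h2 b1 b2 b4
  calc 4 * δ + α + 3 * δ / (α * L) = 4 * δ + α + 3 * (δ / (α * L)) := by ring
    _ ≤ _ := this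

end Vale.Agent.P026.H517
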