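import Vale.Agent.P026.H517.StepE

/-!
# Vinogradov's mean value theorem (classical form, with explicit dependence on the degree)
-/

namespace Vale.Agent.P026.H517

open Finset

lemma big_main (k s tri L0 : ℕ) (hk : 2 ≤ k) (htri : tri ≤ k ^ 2) (hs : s ≤ L0 * k ^ 2)
    (A1 A2 Jv Pk P1 P2 C E PE : ℝ) (hA1 : 0 ≤ A1) (hA2 : 0 ≤ A2) (hJ : 0 ≤ Jv) (hPk : 0 ≤ Pk)
    (hP1 : 0 ≤ P1) (hP2 : 0 ≤ P2) (hC : 0 ≤ C)
    (hA : A1 * A2 ≤ (8 : ℝ) ^ (2 * s + tri) * P1) (hE : E ≤ (2 * s + k ^ 2 : ℕ))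
    (hJv : Jv ≤ C * ((2 : ℝ) ^ E * P2)) (hPE : PE = P1 * Pk * P2) :
    4 * (k : ℝ) ^ 3 * (A1 * (Jv * (Pk * ((k : ℝ) ^ k * A2))))
      ≤ (k : ℝ) ^ ((10 + 8 * L0) * k ^ 2) * C * PE := by
  have hK2 : (2 : ℝ) ≤ k := by exact_mod_cast hk
  have hK1 : (1 : ℝ) ≤ k := by linarith
  have hKpos : (0 : ℝ) < k := by linarith
  have h2E : (2 : ℝ) ^ E ≤ (k : ℝ) ^ (2 * s + k ^ 2) := by
    calc (2 : ℝ) ^ E ≤ (2 : ℝ) ^ ((2 * s + k ^ 2 : ℕ) : ℝ) :=
          Real.rpow_le_rpow_of_exponent_le (by norm_num) hE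
      _ = (2 : ℝ) ^ (2 * s + k ^ 2) := Real.rpow_natCast _ _
      _ ≤ (k : ℝ) ^ (2 * s + k ^ 2) := pow_le_pow_left₀ (by norm_num) hK2 _
  have h8 : (8 : ℝ) ^ (2 * s + tri) ≤ (k : ℝ) ^ (3 * (2 * s + tri)) := by
    rw [pow_mul]
    refine pow_le_pow_left₀ (by norm_num) ?_ _
    calc (8 : ℝ) = 2 ^ 3 := by norm_num
      _ ≤ (k : ℝ) ^ 3 := pow_le_pow_left₀ (by norm_num) hK2 3
  have h4 : (4 : ℝ) ≤ (k : ℝ) ^ 2 := by nlinarith
  have hAA : A1 * A2 ≤ (k : ℝ) ^ (3 * (2 * s + tri)) * P1 :=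
    hA.trans (mul_le_mul_of_nonneg_right h8 hP1)
  have hJJ : Jv ≤ C * ((k : ℝ) ^ (2 * s + k ^ 2) * P2) :=
    hJv.trans (mul_le_mul_of_nonneg_left (mul_le_mul_of_nonneg_right h2E hP2) hC)
  have hexp : 5 + k + 3 * (2 * s + tri) + (2 * s + k ^ 2) ≤ (10 + 8 * L0) * k ^ 2 := by
    have h5 : 4 ≤ k ^ 2 := by nlinarith
    have h6 : k ≤ k ^ 2 := by nlinarith
    have h7 : (10 + 8 * L0) * k ^ 2 = 10 * k ^ 2 + 8 * (L0 * k ^ 2) := by ring
    rw [h7]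
    omega
  calc 4 * (k : ℝ) ^ 3 * (A1 * (Jv * (Pk * ((k : ℝ) ^ k * A2))))
      = (4 * ((k : ℝ) ^ 3 * (k : ℝ) ^ k)) * ((A1 * A2) * (Jv * Pk)) := by ring
    _ ≤ ((k : ℝ) ^ 2 * ((k : ℝ) ^ 3 * (k : ℝ) ^ k)) *
        (((k : ℝ) ^ (3 * (2 * s + tri)) * P1) * ((C * ((k : ℝ) ^ (2 * s + k ^ 2) * P2)) * Pk)) := by
        refine mul_le_mul (mul_le_mul_of_nonneg_right h4 (by positivity)) ?_ (by positivity)
          (by positivity)
        exact mul_le_mul hAA (mul_le_mul_of_nonneg_right hJJ hPk) (by positivity)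
          (by positivity)
    _ = (k : ℝ) ^ (5 + k + 3 * (2 * s + tri) + (2 * s + k ^ 2)) * (C * PE) := by
        rw [hPE, pow_add, pow_add, pow_add, show (5 : ℕ) = 2 + 3 by norm_num, pow_add]
        ring
    _ ≤ (k : ℝ) ^ ((10 + 8 * L0) * k ^ 2) * (C * PE) := by
        refine mul_le_mul_of_nonneg_right (pow_le_pow_right₀ hK1 hexp) ?_
        rw [hPE]
        positivity
    _ = _ := by ring

lemma big_add (k s L0 : ℕ) (hk : 2 ≤ k) (hs : k + s ≤ L0 * k ^ 2) (C PE : ℝ)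
    (hC : 1 ≤ C) (hPE : 1 ≤ PE) :
    (8 * (k : ℝ) ^ 2) ^ (2 * (k + s)) ≤ (k : ℝ) ^ (10 * L0 * k ^ 2) * C * PE := by
  have hK2 : (2 : ℝ) ≤ k := by exact_mod_cast hk
  have hK1 : (1 : ℝ) ≤ k := by linarith
  have h6 : (8 : ℝ) ≤ (k : ℝ) ^ 3 := by
    calc (8 : ℝ) = 2 ^ 3 := by norm_num
      _ ≤ (k : ℝ) ^ 3 := pow_le_pow_left₀ (by norm_num) hK2 3
  have h5 : 8 * (k : ℝ) ^ 2 ≤ (k : ℝ) ^ 5 := by
    calc 8 * (k : ℝ) ^ 2 ≤ (k : ℝ) ^ 3 * (k : ℝ) ^ 2 :=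
          mul_le_mul_of_nonneg_right h6 (by positivity)
      _ = (k : ℝ) ^ 5 := by ring
  have h7 : 10 * (k + s) ≤ 10 * L0 * k ^ 2 := by
    have : 10 * L0 * k ^ 2 = 10 * (L0 * k ^ 2) := by ring
    rw [this]
    omega
  have hCPE : 1 ≤ C * PE := by nlinarith
  calc (8 * (k : ℝ) ^ 2) ^ (2 * (k + s)) ≤ ((k : ℝ) ^ 5) ^ (2 * (k + s)) :=
        pow_le_pow_left₀ (by positivity) h5 _
    _ = (k : ℝ) ^ (10 * (k + s)) := by rw [← pow_mul]; congr 1; ring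
    _ ≤ (k : ℝ) ^ (10 * L0 * k ^ 2) := pow_le_pow_right₀ hK1 h7
    _ = (k : ℝ) ^ (10 * L0 * k ^ 2) * 1 := by ring
    _ ≤ (k : ℝ) ^ (10 * L0 * k ^ 2) * (C * PE) :=
        mul_le_mul_of_nonneg_left hCPE (by positivity)
    _ = _ := by ring

lemma big_sum (k L0 a b : ℕ) (hk : 2 ≤ k) (PE : ℝ) (hPE : 0 ≤ PE)
    (hb : b = (11 + 10 * L0) * k ^ 2 + a) :
    (k : ℝ) ^ ((10 + 8 * L0) * k ^ 2) * (k : ℝ) ^ a * PE
      + (k : ℝ) ^ (10 * L0 * k ^ 2) * (k : ℝ) ^ a * PE ≤ (k : ℝ) ^ b * PE := by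
  have hK2 : (2 : ℝ) ≤ k := by exact_mod_cast hk
  have hK1 : (1 : ℝ) ≤ k := by linarith
  have hkk1 : (k : ℝ) ^ ((10 + 8 * L0) * k ^ 2) ≤ (k : ℝ) ^ ((10 + 10 * L0) * k ^ 2) :=
    pow_le_pow_right₀ hK1 (Nat.mul_le_mul (by omega) le_rfl)
  have hkk2 : (k : ℝ) ^ (10 * L0 * k ^ 2) ≤ (k : ℝ) ^ ((10 + 10 * L0) * k ^ 2) :=
    pow_le_pow_right₀ hK1 (Nat.mul_le_mul (by omega) le_rfl)
  have hkk3 : 2 * (k : ℝ) ^ ((10 + 10 * L0) * k ^ 2) ≤ (k : ℝ) ^ ((11 + 10 * L0) * k ^ 2) := by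
    calc 2 * (k : ℝ) ^ ((10 + 10 * L0) * k ^ 2) ≤ (k : ℝ) ^ (k ^ 2) *
          (k : ℝ) ^ ((10 + 10 * L0) * k ^ 2) := by
          refine mul_le_mul_of_nonneg_right ?_ (by positivity)
          calc (2 : ℝ) ≤ k := hK2
            _ ≤ (k : ℝ) ^ (k ^ 2) := le_self_pow₀ hK1 (by positivity)
      _ = (k : ℝ) ^ ((11 + 10 * L0) * k ^ 2) := by
          rw [← pow_add]; congr 1; ring
  have hCP : 0 ≤ (k : ℝ) ^ a * PE := by positivity
  calc (k : ℝ) ^ ((10 + 8 * L0) * k ^ 2) * (k : ℝ) ^ a * PE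
      + (k : ℝ) ^ (10 * L0 * k ^ 2) * (k : ℝ) ^ a * PE
      = ((k : ℝ) ^ ((10 + 8 * L0) * k ^ 2) + (k : ℝ) ^ (10 * L0 * k ^ 2))
        * ((k : ℝ) ^ a * PE) := by ring
    _ ≤ (k : ℝ) ^ ((11 + 10 * L0) * k ^ 2) * ((k : ℝ) ^ a * PE) := by
        refine mul_le_mul_of_nonneg_right ?_ hCP
        linarith
    _ = (k : ℝ) ^ b * PE := by rw [hb, pow_add, mul_assoc]

lemma small_case (k P X0 m : ℕ) (hk : 2 ≤ k) (hP : 1 ≤ P) (hPX : P ≤ X0 ^ k)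
    (hbig : ¬ (10 ^ 16 ≤ X0 ∧ k ^ 4 ≤ X0)) (E : ℝ) (hE : 2 * m - (k : ℝ) ^ 2 ≤ E) :
    (J k m (range P) : ℝ) ≤ (k : ℝ) ^ (58 * k ^ 3) * (P : ℝ) ^ E := by
  have hK2 : (2 : ℝ) ≤ k := by exact_mod_cast hk
  have hK1 : (1 : ℝ) ≤ k := by linarith
  have hP1 : (1 : ℝ) ≤ P := by exact_mod_cast hP
  have hP0 : (0 : ℝ) < P := by linarith
  have hPsmall : (P : ℝ) ≤ (k : ℝ) ^ (58 * k) := by
    have h1 : X0 ≤ 10 ^ 16 * k ^ 4 := by
      have hk4 : 0 < k ^ 4 := by positivity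
      rw [not_and_or] at hbig
      rcases hbig with h | h
      · push Not at h
        nlinarith
      · push Not at h
        nlinarith
    have h2 : (X0 : ℝ) ≤ (k : ℝ) ^ 58 := by
      calc (X0 : ℝ) ≤ 10 ^ 16 * (k : ℝ) ^ 4 := by exact_mod_cast h1
        _ ≤ (k : ℝ) ^ 54 * (k : ℝ) ^ 4 := by
            refine mul_le_mul_of_nonneg_right ?_ (by positivity)
            calc (10 : ℝ) ^ 16 ≤ 2 ^ 54 := by norm_num
              _ ≤ (k : ℝ) ^ 54 := pow_le_pow_left₀ (by norm_num) hK2 54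
        _ = (k : ℝ) ^ 58 := by rw [← pow_add]
    calc (P : ℝ) ≤ (X0 : ℝ) ^ k := by exact_mod_cast hPX
      _ ≤ ((k : ℝ) ^ 58) ^ k := pow_le_pow_left₀ (by positivity) h2 k
      _ = (k : ℝ) ^ (58 * k) := by rw [← pow_mul]
  have htriv := J_triv k m (range P)
  rw [card_range] at htriv
  have h3 : (J k m (range P) : ℝ) ≤ (P : ℝ) ^ (2 * m) := by
    exact_mod_cast htriv
  refine h3.trans ?_
  have h4 : (P : ℝ) ^ (2 * m) = (P : ℝ) ^ (((2 * m : ℕ) : ℝ) - E) * (P : ℝ) ^ E := by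
    rw [← Real.rpow_add hP0, ← Real.rpow_natCast]
    congr 1
    ring
  rw [h4]
  refine mul_le_mul_of_nonneg_right ?_ (by positivity)
  calc (P : ℝ) ^ (((2 * m : ℕ) : ℝ) - E)
      ≤ (P : ℝ) ^ ((k ^ 2 : ℕ) : ℝ) := by
        refine Real.rpow_le_rpow_of_exponent_le hP1 ?_
        push_cast
        linarith
    _ = (P : ℝ) ^ (k ^ 2) := Real.rpow_natCast _ _
    _ ≤ ((k : ℝ) ^ (58 * k)) ^ (k ^ 2) := pow_le_pow_left₀ hP0.le hPsmall _
    _ = (k : ℝ) ^ (58 * k ^ 3) := by rw [← pow_mul]; congr 1; ring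

lemma vmvt_aux (L0 k : ℕ) (hk : 2 ≤ k) (l : ℕ) : l + 1 ≤ L0 * k → ∀ P : ℕ, 1 ≤ P →
    (J k ((l + 1) * k) (range P) : ℝ)
      ≤ (k : ℝ) ^ (58 * k ^ 3 + (11 + 10 * L0) * k ^ 2 * l) * (P : ℝ) ^ (EE k (l + 1)) := by
  have hk0 : 0 < k := by omega
  have hK2 : (2 : ℝ) ≤ k := by exact_mod_cast hk
  have hK1 : (1 : ℝ) ≤ k := by linarith
  have hKpos : (0 : ℝ) < k := by linarith
  induction l with
  | zero =>
    intro _ P hP
    have h1 := J_base k (range P)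
    rw [card_range] at h1
    have h2 : EE k (0 + 1) = k := by rw [zero_add]; exact EE_one hk0
    rw [h2, Real.rpow_natCast]
    have h3 : (J k ((0 + 1) * k) (range P) : ℝ) ≤ (P : ℝ) ^ k * (k : ℝ) ^ k := by
      rw [zero_add, one_mul]
      exact_mod_cast h1
    refine h3.trans ?_
    rw [mul_comm]
    refine mul_le_mul_of_nonneg_right ?_ (by positivity)
    refine pow_le_pow_right₀ hK1 ?_
    have : k ≤ k ^ 3 := Nat.le_self_pow (by norm_num) k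
    omega
  | succ l ih =>
    intro hl P hP
    have hP1 : (1 : ℝ) ≤ P := by exact_mod_cast hP
    have hP0 : (0 : ℝ) < P := by linarith
    have hJeq : J k ((l + 1 + 1) * k) (range P) = J k (k + (l + 1) * k) (range P) := by
      congr 1; ring
    have hspos : 0 < (l + 1) * k := Nat.mul_pos (by omega) hk0
    set x : ℝ := (P : ℝ) ^ (1 / (k : ℝ)) with hx
    have hx1 : 1 ≤ x := Real.one_le_rpow hP1 (by positivity)
    have hx0 : 0 < x := by linarith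
    have hxk : x ^ k = P := by
      rw [hx, ← Real.rpow_natCast, ← Real.rpow_mul hP0.le, one_div_mul_cancel hKpos.ne',
        Real.rpow_one]
    obtain ⟨X0, hX0⟩ : ∃ X0, X0 = ⌈x⌉₊ := ⟨_, rfl⟩
    have hXx : x ≤ X0 := by rw [hX0]; exact Nat.le_ceil x
    have hX2 : (X0 : ℝ) ≤ 2 * x := by
      have := Nat.ceil_lt_add_one hx0.le
      rw [hX0]
      linarith
    have hPX : P ≤ X0 ^ k := by
      have : (P : ℝ) ≤ (X0 : ℝ) ^ k := by
        rw [← hxk]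
        exact pow_le_pow_left₀ hx0.le hXx k
      exact_mod_cast this
    have hPE1 : 1 ≤ (P : ℝ) ^ (EE k (l + 1 + 1)) :=
      Real.one_le_rpow hP1 (EE_nonneg hk0 (by omega))
    by_cases hbig : 10 ^ 16 ≤ X0 ∧ k ^ 4 ≤ X0
    · -- main case
      have hrec := J_rec (s := (l + 1) * k) hk hspos hbig.1 hbig.2 hPX
      have hX0pos : (0 : ℝ) < X0 := by linarith
      have hxP : x ≤ P := by
        rw [← hxk]
        exact le_self_pow₀ hx1 (by omega)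
      have hP'le : ((P / X0 + 1 : ℕ) : ℝ) ≤ 2 * (P / x) := by
        have h1 : ((P / X0 : ℕ) : ℝ) ≤ P / X0 := Nat.cast_div_le
        have h2 : (P : ℝ) / X0 ≤ P / x := div_le_div_of_nonneg_left hP0.le hx0 hXx
        have h3 : 1 ≤ (P : ℝ) / x := by rw [le_div_iff₀ hx0]; linarith
        push_cast
        linarith
      have hih := ih (by omega) (P / X0 + 1) (Nat.succ_le_succ (Nat.zero_le _))
      have hE0 : 0 ≤ EE k (l + 1) := EE_nonneg hk0 (by omega)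
      have hC1 : 1 ≤ (k : ℝ) ^ (58 * k ^ 3 + (11 + 10 * L0) * k ^ 2 * l) := one_le_pow₀ hK1
      have hPx : (P : ℝ) / x = (P : ℝ) ^ (1 - 1 / (k : ℝ)) := by
        rw [Real.rpow_sub hP0, Real.rpow_one]
      have hP'E : ((P / X0 + 1 : ℕ) : ℝ) ^ (EE k (l + 1))
          ≤ (2 : ℝ) ^ (EE k (l + 1)) * (P : ℝ) ^ ((1 - 1 / (k : ℝ)) * EE k (l + 1)) := by
        calc ((P / X0 + 1 : ℕ) : ℝ) ^ (EE k (l + 1)) ≤ (2 * ((P : ℝ) / x)) ^ (EE k (l + 1)) :=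
              Real.rpow_le_rpow (Nat.cast_nonneg _) hP'le hE0
          _ = _ := by
              rw [Real.mul_rpow (by norm_num) (by positivity), hPx, ← Real.rpow_mul hP0.le]
      have htrile : k * (k - 1) / 2 ≤ k ^ 2 := by
        rw [sq]
        exact (Nat.div_le_self _ _).trans (Nat.mul_le_mul le_rfl (by omega))
      have h4X : (4 * (X0 : ℝ)) ^ (2 * ((l + 1) * k)) * (4 * (X0 : ℝ)) ^ (k * (k - 1) / 2)
          ≤ (8 : ℝ) ^ (2 * ((l + 1) * k) + k * (k - 1) / 2)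
            * (P : ℝ) ^ ((2 * ((l + 1) * k : ℕ) + (k * (k - 1) / 2 : ℕ) : ℝ) / k) := by
        rw [← pow_add]
        calc (4 * (X0 : ℝ)) ^ (2 * ((l + 1) * k) + k * (k - 1) / 2)
            ≤ (8 * x) ^ (2 * ((l + 1) * k) + k * (k - 1) / 2) :=
              pow_le_pow_left₀ (by positivity) (by linarith) _
          _ = _ := by
              rw [mul_pow, hx, ← Real.rpow_natCast ((P : ℝ) ^ (1 / (k : ℝ))),
                ← Real.rpow_mul hP0.le]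
              congr 2
              push_cast
              ring
      have hslek : (l + 1) * k ≤ L0 * k ^ 2 := by
        rw [sq, ← mul_assoc]
        exact Nat.mul_le_mul (by omega) le_rfl
      have hslek' : k + (l + 1) * k ≤ L0 * k ^ 2 := by
        have : k + (l + 1) * k = (l + 1 + 1) * k := by ring
        rw [this, sq, ← mul_assoc]
        exact Nat.mul_le_mul hl le_rfl
      have hmain := big_main k ((l + 1) * k) (k * (k - 1) / 2) L0 hk htrile hslek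
        ((4 * (X0 : ℝ)) ^ (2 * ((l + 1) * k))) ((4 * (X0 : ℝ)) ^ (k * (k - 1) / 2))
        (J k ((l + 1) * k) (range (P / X0 + 1))) ((P : ℝ) ^ k)
        ((P : ℝ) ^ ((2 * ((l + 1) * k : ℕ) + (k * (k - 1) / 2 : ℕ) : ℝ) / k))
        ((P : ℝ) ^ ((1 - 1 / (k : ℝ)) * EE k (l + 1)))
        ((k : ℝ) ^ (58 * k ^ 3 + (11 + 10 * L0) * k ^ 2 * l)) (EE k (l + 1))
        ((P : ℝ) ^ (EE k (l + 1 + 1))) (by positivity) (by positivity) (Nat.cast_nonneg _)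
        (by positivity) (by positivity) (by positivity) (by positivity) h4X
        (by
          have := EE_le hk0 (l + 1)
          push_cast at this ⊢
          linarith)
        (hih.trans (mul_le_mul_of_nonneg_left hP'E (by positivity)))
        (by
          rw [EE_succ hk0, Real.rpow_add hP0, Real.rpow_add hP0, Real.rpow_natCast])
      have hadd := big_add k ((l + 1) * k) L0 hk hslek'
        ((k : ℝ) ^ (58 * k ^ 3 + (11 + 10 * L0) * k ^ 2 * l)) ((P : ℝ) ^ (EE k (l + 1 + 1)))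
        hC1 hPE1
      rw [hJeq]
      refine (hrec.trans (add_le_add hmain hadd)).trans ?_
      exact big_sum k L0 _ _ hk _ (by positivity) (by ring)
    · -- small case
      refine (small_case k P X0 ((l + 1 + 1) * k) hk hP hPX hbig (EE k (l + 1 + 1)) ?_).trans ?_
      · have := EE_ge hk0 (l + 1 + 1)
        push_cast at this ⊢
        linarith
      · refine mul_le_mul_of_nonneg_right ?_ (by positivity)
        exact pow_le_pow_right₀ hK1 (Nat.le_add_right _ _)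

theorem vmvt (L0 : ℕ) : ∃ A : ℕ, ∀ k : ℕ, 2 ≤ k → ∀ l : ℕ, 1 ≤ l → l ≤ L0 * k →
    ∀ P : ℕ, 1 ≤ P →
      (J k (l * k) (range P) : ℝ) ≤ (k : ℝ) ^ (A * k ^ 3) * (P : ℝ) ^ (EE k l) := by
  refine ⟨58 + (11 + 10 * L0) * L0, fun k hk l hl1 hl P hP => ?_⟩
  obtain ⟨l', rfl⟩ : ∃ l', l = l' + 1 := ⟨l - 1, by omega⟩
  refine (vmvt_aux L0 k hk l' hl P hP).trans ?_
  refine mul_le_mul_of_nonneg_right ?_ (by positivity)
  refine pow_le_pow_right₀ (by exact_mod_cast (by omega : 1 ≤ k)) ?_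
  have h1 : l' ≤ L0 * k := by omega
  calc 58 * k ^ 3 + (11 + 10 * L0) * k ^ 2 * l'
      ≤ 58 * k ^ 3 + (11 + 10 * L0) * k ^ 2 * (L0 * k) := by
        gcongr
    _ = (58 + (11 + 10 * L0) * L0) * k ^ 3 := by ring

end Vale.Agent.P026.H517
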