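import Vale.Agent.P026.H517.ProdW
import Vale.Agent.P026.H517.VMVT

/-!
# The bound for the short bilinear sum
-/

namespace Vale.Agent.P026.H517

open Finset ComplexConjugate

lemma pow_eq_exp (x : ℝ) (hx : 0 < x) (n : ℕ) : x ^ n = Real.exp (n * Real.log x) := by
  rw [Real.exp_nat_mul, Real.exp_log hx]

lemma factor_small (K : ℕ) (hK : 2 ≤ K) : (1 - 1 / (K : ℝ)) ^ (10 * K) ≤ 5 / 100000 := by
  have hK0 : (0 : ℝ) < K := by exact_mod_cast (by omega : 0 < K)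
  have hK1 : (1 : ℝ) ≤ K := by exact_mod_cast (by omega : 1 ≤ K)
  have h1 : (1 - 1 / (K : ℝ)) ^ K ≤ Real.exp (-1) := Real.one_sub_div_pow_le_exp_neg hK1
  have h0 : 0 ≤ 1 - 1 / (K : ℝ) := by
    rw [sub_nonneg, div_le_one hK0]; exact hK1
  have h2 : Real.exp (-1) ≤ 0.37 := by
    have := Real.exp_neg_one_lt_d9
    linarith
  rw [mul_comm, pow_mul]
  calc ((1 - 1 / (K : ℝ)) ^ K) ^ 10 ≤ (0.37 : ℝ) ^ 10 :=
        pow_le_pow_left₀ (pow_nonneg h0 K) (h1.trans h2) 10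
    _ ≤ 5 / 100000 := by norm_num

lemma exponent_ineq (A : ℕ) (K : ℝ) (l θ m q lk l9 : ℝ) (hθ : 1 / 2 ≤ θ) (hl : 0 < l)
    (hK2 : K ≤ 32 * θ) (hKge : 2 ≤ K)
    (hm0 : 0 ≤ m) (hm : m ≤ 0.45 * l) (hq0 : 0 ≤ q) (hq : q ≤ 5 / 100000 * K ^ 2)
    (hlk : lk ≤ K) (hlk0 : 0 ≤ lk) (hl9 : l9 ≤ 58 + 4 * K) :
    q * m + 2 * (A * K ^ 3 * lk) + K * l9 + (8 * K ^ 2 - 0.075 * θ ^ 2 * l)
      ≤ 400 * K ^ 4 * ((A + 1) - 1 / 10 ^ 10 * (l / θ ^ 2)) := by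
  have hK0 : 0 < K := by linarith
  have hθ0 : 0 < θ := by linarith
  have e1 : q * m ≤ 0.0231 * θ ^ 2 * l := by
    have h1 : K ^ 2 ≤ (32 * θ) ^ 2 := pow_le_pow_left₀ hK0.le hK2 2
    calc q * m ≤ (5 / 100000 * K ^ 2) * (0.45 * l) := mul_le_mul hq hm hm0 (by positivity)
      _ ≤ (5 / 100000 * (32 * θ) ^ 2) * (0.45 * l) := by gcongr
      _ ≤ 0.0231 * θ ^ 2 * l := by
          have : 0 < θ ^ 2 * l := by positivity
          nlinarith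
  have e2 : 2 * (A * K ^ 3 * lk) ≤ 2 * A * K ^ 4 := by
    have : (A : ℝ) * K ^ 3 * lk ≤ A * K ^ 3 * K := mul_le_mul_of_nonneg_left hlk (by positivity)
    calc 2 * (A * K ^ 3 * lk) ≤ 2 * (A * K ^ 3 * K) := by linarith
      _ = 2 * A * K ^ 4 := by ring
  have e3 : 400 * K ^ 4 * (1 / 10 ^ 10 * (l / θ ^ 2)) ≤ 0.042 * θ ^ 2 * l := by
    have h1 : K ^ 4 ≤ (32 * θ) ^ 4 := pow_le_pow_left₀ hK0.le hK2 4
    have h2 : 400 * K ^ 4 * (1 / 10 ^ 10 * (l / θ ^ 2))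
        ≤ 400 * (32 * θ) ^ 4 * (1 / 10 ^ 10 * (l / θ ^ 2)) := by
      refine mul_le_mul_of_nonneg_right ?_ (by positivity)
      linarith
    refine h2.trans (le_of_eq_of_le ?_ (?_ : 400 * 32 ^ 4 / 10 ^ 10 * (θ ^ 2 * l) ≤ _))
    · field_simp
    · have : 0 < θ ^ 2 * l := by positivity
      nlinarith
  have e4 : K * l9 ≤ 58 * K + 4 * K ^ 2 := by
    calc K * l9 ≤ K * (58 + 4 * K) := mul_le_mul_of_nonneg_left hl9 hK0.le
      _ = 58 * K + 4 * K ^ 2 := by ring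
  have e5 : K ≤ K ^ 4 := by
    calc K = K ^ 1 := (pow_one K).symm
      _ ≤ K ^ 4 := pow_le_pow_right₀ (by linarith) (by norm_num)
  have e6 : K ^ 2 ≤ K ^ 4 := pow_le_pow_right₀ (by linarith) (by norm_num)
  have e7 : 0 ≤ (A : ℝ) * K ^ 4 := by positivity
  have e8 : 0 < θ ^ 2 * l := by positivity
  have e9 : 400 * K ^ 4 * (((A : ℝ) + 1) - 1 / 10 ^ 10 * (l / θ ^ 2))
      = 400 * (A * K ^ 4) + 400 * K ^ 4 - 400 * K ^ 4 * (1 / 10 ^ 10 * (l / θ ^ 2)) := by ring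
  rw [e9]
  have e10 : 2 * (A : ℝ) * K ^ 4 = 2 * (A * K ^ 4) := by ring
  rw [e10] at e2
  linarith

lemma V_bound (A : ℕ)
    (hA : ∀ k : ℕ, 2 ≤ k → ∀ l : ℕ, 1 ≤ l → l ≤ 20 * k → ∀ P : ℕ, 1 ≤ P →
      (J k (l * k) (range P) : ℝ) ≤ (k : ℝ) ^ (A * k ^ 3) * (P : ℝ) ^ (EE k l))
    (K M : ℕ) (l θ t u : ℝ) (hθ : 1 / 2 ≤ θ) (hl : 0 < l) (hK : 2.75 * θ ≤ K)
    (hK2 : K ≤ 32 * θ) (hKge : 2 ≤ K)
    (ht : t = Real.exp (θ * l)) (hu1 : Real.exp l ≤ u) (hu2 : u ≤ Real.exp (l + 2))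
    (hM1 : 1 ≤ M) (hM : Real.exp (0.45 * l - 1) ≤ M) (hM' : (M : ℝ) ≤ Real.exp (0.45 * l)) :
    ‖∑ x ∈ range M, ∑ y ∈ range M, EI (Bf (fun i : Fin K => gam t u i.1) (nz K x) (nz K y))‖
      ≤ (M : ℝ) ^ 2 * Real.exp ((A + 1) - 1 / 10 ^ 10 * (l / θ ^ 2)) := by
  have hK0 : 0 < K := by omega
  have hKr : (2 : ℝ) ≤ K := by exact_mod_cast hKge
  have hKpos : (0 : ℝ) < K := by linarith
  have hMpos : (0 : ℝ) < M := by exact_mod_cast hM1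
  have hMr : (1 : ℝ) ≤ M := by exact_mod_cast hM1
  obtain ⟨s, hs⟩ : ∃ s : ℕ, s = 10 * K * K := ⟨_, rfl⟩
  have hs1 : 1 ≤ s := by rw [hs]; exact Nat.mul_pos (by omega) hK0
  have hspos : (0 : ℝ) < s := by exact_mod_cast hs1
  have hsr : (s : ℝ) = 10 * K ^ 2 := by rw [hs]; push_cast; ring
  set V := ‖∑ x ∈ range M, ∑ y ∈ range M,
    EI (Bf (fun i : Fin K => gam t u i.1) (nz K x) (nz K y))‖ with hV
  have hV0 : 0 ≤ V := norm_nonneg _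
  set x : ℝ := (A + 1) - 1 / 10 ^ 10 * (l / θ ^ 2) with hx
  set m : ℝ := Real.log M with hm
  have hm0 : 0 ≤ m := Real.log_nonneg hMr
  have hm1 : m ≤ 0.45 * l := by
    rw [hm, Real.log_le_iff_le_exp hMpos]
    exact hM'
  have hDH := double_holder (fun i : Fin K => gam t u i.1) s M hs1
  rw [← hV] at hDH
  have hJ2 := hA K hKge (20 * K) (by omega) le_rfl M hM1
  have hJ1 := hA K hKge (10 * K) (by omega) (by omega) M hM1
  have es2 : s + s = 20 * K * K := by rw [hs]; ring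
  rw [← es2] at hJ2
  rw [← hs] at hJ1
  have hW := prod_WW_le K s M l θ t u hθ hl hK ht hu1 hu2 hs1 hM1 hM
  -- everything as exponentials
  have f1 : ((M : ℝ) ^ (2 * s - 1)) ^ (2 * s) = Real.exp ((2 * s - 1) * (2 * s) * m) := by
    rw [← pow_mul, pow_eq_exp _ hMpos]
    congr 1
    rw [Nat.cast_mul, Nat.cast_sub (by omega)]
    push_cast
    ring
  have f2 : (((M : ℝ) ^ (2 * s)) ^ (s - 1)) ^ 2 = Real.exp (4 * s * (s - 1) * m) := by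
    rw [← pow_mul, ← pow_mul, pow_eq_exp _ hMpos]
    congr 1
    push_cast [Nat.cast_sub hs1]
    ring
  have f3 : ∀ e : ℝ, (K : ℝ) ^ (A * K ^ 3) * (M : ℝ) ^ e
      = Real.exp (A * K ^ 3 * Real.log K + e * m) := by
    intro e
    rw [Real.exp_add, pow_eq_exp _ hKpos, Real.rpow_def_of_pos hMpos]
    congr 2
    · push_cast; ring
    · rw [mul_comm]
  have f4 : (9 * (s : ℝ) ^ 2) ^ K * (M : ℝ) ^ (K * (K + 1))
        * Real.exp (8 * (K : ℝ) ^ 2 - 0.075 * θ ^ 2 * l)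
      = Real.exp (K * Real.log (9 * (s : ℝ) ^ 2) + K * (K + 1) * m
        + (8 * (K : ℝ) ^ 2 - 0.075 * θ ^ 2 * l)) := by
    rw [Real.exp_add, Real.exp_add, pow_eq_exp (9 * (s : ℝ) ^ 2) (by positivity),
      pow_eq_exp (M : ℝ) hMpos]
    push_cast
    rfl
  rw [f3] at hJ1 hJ2
  rw [f4] at hW
  have hbound : V ^ (2 * s * (2 * s)) ≤ Real.exp ((2 * s - 1) * (2 * s) * m)
      * Real.exp (4 * s * (s - 1) * m) * Real.exp (A * K ^ 3 * Real.log K + EE K (20 * K) * m)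
      * (Real.exp (A * K ^ 3 * Real.log K + EE K (10 * K) * m)
        * Real.exp (K * Real.log (9 * (s : ℝ) ^ 2) + K * (K + 1) * m
        + (8 * (K : ℝ) ^ 2 - 0.075 * θ ^ 2 * l))) := by
    rw [f1, f2] at hDH
    refine hDH.trans ?_
    refine mul_le_mul (mul_le_mul_of_nonneg_left hJ2 (by positivity)) ?_ ?_ (by positivity)
    · exact mul_le_mul hJ1 hW (prod_nonneg fun _ _ => WW_nonneg _ _) (Real.exp_pos _).le
    · exact mul_nonneg (Nat.cast_nonneg _) (prod_nonneg fun _ _ => WW_nonneg _ _)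
  rw [← Real.exp_add, ← Real.exp_add, ← Real.exp_add, ← Real.exp_add] at hbound
  have hRHS : ((M : ℝ) ^ 2 * Real.exp x) ^ (2 * s * (2 * s))
      = Real.exp (4 * s ^ 2 * (2 * m + x)) := by
    have : (M : ℝ) ^ 2 * Real.exp x = Real.exp (2 * m + x) := by
      rw [Real.exp_add, pow_eq_exp _ hMpos]
      push_cast
      rfl
    rw [this, ← Real.exp_nat_mul]
    congr 1
    push_cast
    ring
  have hn0 : 2 * s * (2 * s) ≠ 0 := by positivity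
  refine le_of_pow_le_pow_left₀ hn0 (by positivity) ?_
  rw [hRHS]
  refine hbound.trans (Real.exp_le_exp.2 ?_)
  -- the exponents
  obtain ⟨r, hr⟩ : ∃ r : ℝ, r = (1 - 1 / (K : ℝ)) ^ (10 * K) := ⟨_, rfl⟩
  have hr1 : r ≤ 5 / 100000 := by rw [hr]; exact factor_small K hKge
  have hr0 : 0 ≤ r := by rw [hr]; exact (pow_factor_mem hK0 _).1
  have hr2 : (1 - 1 / (K : ℝ)) ^ (20 * K) = r ^ 2 := by
    rw [hr, ← pow_mul]
    congr 1
    ring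
  have hEE : EE K (20 * K) + EE K (10 * K)
      = 60 * (K : ℝ) ^ 2 - K * (K + 1) + (K : ℝ) ^ 2 / 2 * (r ^ 2 + r) := by
    rw [EE, EE, hr2, ← hr]
    push_cast
    ring
  have hq0 : 0 ≤ (K : ℝ) ^ 2 / 2 * (r ^ 2 + r) := by positivity
  have hq1 : (K : ℝ) ^ 2 / 2 * (r ^ 2 + r) ≤ 5 / 100000 * (K : ℝ) ^ 2 := by
    have : r ^ 2 ≤ r := by nlinarith
    have h2 : (K : ℝ) ^ 2 / 2 * (r ^ 2 + r) ≤ (K : ℝ) ^ 2 / 2 * (2 * (5 / 100000)) :=
      mul_le_mul_of_nonneg_left (by linarith) (by positivity)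
    linarith
  have hlk : Real.log K ≤ K := (Real.log_le_sub_one_of_pos hKpos).trans (by linarith)
  have hlk0 : 0 ≤ Real.log K := Real.log_nonneg (by linarith)
  have hl9 : Real.log (9 * (s : ℝ) ^ 2) ≤ 58 + 4 * K := by
    have h1 : 9 * (s : ℝ) ^ 2 = (30 * (K : ℝ) ^ 2) ^ 2 := by rw [hsr]; ring
    rw [h1, Real.log_pow, Real.log_mul (by norm_num) (by positivity), Real.log_pow]
    have h2 : Real.log 30 ≤ 29 := by
      have := Real.log_le_sub_one_of_pos (show (0 : ℝ) < 30 by norm_num)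
      linarith
    push_cast
    linarith
  have hmain := exponent_ineq A K l θ m ((K : ℝ) ^ 2 / 2 * (r ^ 2 + r)) (Real.log K)
    (Real.log (9 * (s : ℝ) ^ 2)) hθ hl hK2 hKr hm0 hm1 hq0 hq1 hlk hlk0 hl9
  rw [← hx] at hmain
  have h4s : 4 * (s : ℝ) ^ 2 = 400 * (K : ℝ) ^ 4 := by rw [hsr]; ring
  have hexp : (2 * (s : ℝ) - 1) * (2 * s) * m + 4 * s * (s - 1) * m
      + (A * K ^ 3 * Real.log K + EE K (20 * K) * m)
      + (A * K ^ 3 * Real.log K + EE K (10 * K) * m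
        + (K * Real.log (9 * (s : ℝ) ^ 2) + K * (K + 1) * m
        + (8 * (K : ℝ) ^ 2 - 0.075 * θ ^ 2 * l)))
      = 8 * (s : ℝ) ^ 2 * m + ((K : ℝ) ^ 2 / 2 * (r ^ 2 + r) * m
        + 2 * (A * K ^ 3 * Real.log K) + K * Real.log (9 * (s : ℝ) ^ 2)
        + (8 * (K : ℝ) ^ 2 - 0.075 * θ ^ 2 * l)) := by
    have h1 : EE K (20 * K) * m + EE K (10 * K) * m
        = (60 * (K : ℝ) ^ 2 - K * (K + 1) + (K : ℝ) ^ 2 / 2 * (r ^ 2 + r)) * m := by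
      rw [← add_mul, hEE]
    have h2 : 6 * (s : ℝ) = 60 * (K : ℝ) ^ 2 := by rw [hsr]; ring
    rw [← h2] at h1
    linear_combination h1
  rw [hexp]
  have : 4 * (s : ℝ) ^ 2 * (2 * m + x) = 8 * (s : ℝ) ^ 2 * m + 400 * (K : ℝ) ^ 4 * x := by
    rw [← h4s]; ring
  rw [this]
  linarith

end Vale.Agent.P026.H517
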