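import Vale.Agent.P026.H517.Holder

/-!
# Bounding the linear sums
-/

namespace Vale.Agent.P026.H517

open Finset ComplexConjugate

lemma card_int_le (S : Finset ℤ) (L : ℝ) (hL : 0 ≤ L)
    (h : ∀ a ∈ S, ∀ b ∈ S, ((a - b : ℤ) : ℝ) ≤ L) : (S.card : ℝ) ≤ L + 1 := by
  rcases S.eq_empty_or_nonempty with rfl | hS
  · simp; linarith
  · have h1 : S ⊆ Icc (S.min' hS) (S.max' hS) := fun a ha =>
      mem_Icc.2 ⟨S.min'_le a ha, S.le_max' a ha⟩
    have h2 := card_le_card h1
    rw [Int.card_Icc] at h2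
    have h3 := h _ (S.max'_mem hS) _ (S.min'_mem hS)
    have h4 : S.min' hS ≤ S.max' hS := S.min'_le _ (S.max'_mem hS)
    have h5 : (((S.max' hS + 1 - S.min' hS).toNat : ℕ) : ℝ)
        = ((S.max' hS - S.min' hS : ℤ) : ℝ) + 1 := by
      have : ((S.max' hS + 1 - S.min' hS).toNat : ℤ) = S.max' hS - S.min' hS + 1 := by
        rw [Int.toNat_of_nonneg (by linarith)]
        ring
      exact_mod_cast congrArg (Int.cast : ℤ → ℝ) this
    calc (S.card : ℝ) ≤ (((S.max' hS + 1 - S.min' hS).toNat : ℕ) : ℝ) := by exact_mod_cast h2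
      _ = ((S.max' hS - S.min' hS : ℤ) : ℝ) + 1 := h5
      _ ≤ L + 1 := by linarith

lemma count_near (α : ℝ) (hα : α ≠ 0) (L : ℕ) (δ : ℝ) (hδ : 0 < δ) (hδ2 : δ ≤ 1 / 2) :
    (((Icc (-(L : ℤ)) L).filter fun m : ℤ => |α * m - round (α * m)| < δ).card : ℝ)
      ≤ (2 * δ / |α| + 1) * (2 * |α| * L + 3) := by
  classical
  have hα0 : 0 < |α| := abs_pos.2 hα
  set S := (Icc (-(L : ℤ)) L).filter fun m : ℤ => |α * m - round (α * m)| < δ with hS
  have h1 : ∀ a ∈ S.image (fun m : ℤ => round (α * m)),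
      (S.filter fun m : ℤ => round (α * m) = a).card ≤ ⌊2 * δ / |α|⌋₊ + 1 := by
    intro n _
    have hreal : ((S.filter fun m : ℤ => round (α * m) = n).card : ℝ) ≤ 2 * δ / |α| + 1 := by
      refine card_int_le _ _ (by positivity) ?_
      intro a ha b hb
      rw [mem_filter, hS, mem_filter] at ha hb
      have ha1 := ha.1.2
      have hb1 := hb.1.2
      rw [ha.2] at ha1
      rw [hb.2] at hb1
      have h2 : |α * ((a : ℝ) - b)| ≤ 2 * δ := by
        have : α * ((a : ℝ) - b) = (α * a - n) - (α * b - n) := by ring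
        rw [this]
        refine (abs_sub _ _).trans ?_
        linarith
      rw [abs_mul] at h2
      rw [le_div_iff₀ hα0]
      push_cast
      calc ((a : ℝ) - b) * |α| ≤ |(a : ℝ) - b| * |α| :=
            mul_le_mul_of_nonneg_right (le_abs_self _) hα0.le
        _ = |α| * |(a : ℝ) - b| := mul_comm _ _
        _ ≤ 2 * δ := h2
    have h3 : ((S.filter fun m : ℤ => round (α * m) = n).card : ℝ) - 1 ≤ 2 * δ / |α| := by linarith
    by_contra hcon
    push Not at hcon
    have h4 : ⌊2 * δ / |α|⌋₊ + 1 ≤ (S.filter fun m : ℤ => round (α * m) = n).card - 1 := by omega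
    have h5 : ((⌊2 * δ / |α|⌋₊ + 1 : ℕ) : ℝ)
        ≤ ((S.filter fun m : ℤ => round (α * m) = n).card : ℝ) - 1 := by
      have : 1 ≤ (S.filter fun m : ℤ => round (α * m) = n).card := by omega
      have h6 := (Nat.cast_le (α := ℝ)).2 h4
      rwa [Nat.cast_sub this, Nat.cast_one] at h6
    have h6 := Nat.lt_floor_add_one (2 * δ / |α|)
    push_cast at h5
    linarith
  have h2 := card_le_mul_card_image S _ h1
  have h3 : ((S.image fun m : ℤ => round (α * m)).card : ℝ) ≤ 2 * |α| * L + 1 + 1 := by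
    refine card_int_le _ _ (by positivity) ?_
    have key : ∀ n ∈ S.image (fun m : ℤ => round (α * m)), |(n : ℝ)| ≤ |α| * L + 1 / 2 := by
      intro n hn
      rw [mem_image] at hn
      obtain ⟨m, hm, rfl⟩ := hn
      rw [hS, mem_filter, mem_Icc] at hm
      have h4 : |(m : ℝ)| ≤ L := by
        rw [abs_le]
        exact ⟨by exact_mod_cast hm.1.1, by exact_mod_cast hm.1.2⟩
      have h5 : |(round (α * m) : ℝ)| ≤ |α * m| + |α * m - round (α * m)| := by
        have : (round (α * m) : ℝ) = α * m - (α * m - round (α * m)) := by ring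
        calc |(round (α * m) : ℝ)| = |α * m - (α * m - round (α * m))| := by rw [← this]
          _ ≤ _ := abs_sub _ _
      rw [abs_mul] at h5
      have h6 : |α| * |(m : ℝ)| ≤ |α| * L := mul_le_mul_of_nonneg_left h4 hα0.le
      linarith [hm.2]
    intro a ha b hb
    have h4 := abs_le.1 (key a ha)
    have h5 := abs_le.1 (key b hb)
    push_cast
    linarith [h4.1, h4.2, h5.1, h5.2]
  have h4 : (S.card : ℝ) ≤ ((⌊2 * δ / |α|⌋₊ + 1 : ℕ) : ℝ)
      * ((S.image fun m : ℤ => round (α * m)).card : ℝ) := by exact_mod_cast h2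
  have h5 : ((⌊2 * δ / |α|⌋₊ + 1 : ℕ) : ℝ) ≤ 2 * δ / |α| + 1 := by
    push_cast
    have := Nat.floor_le (show 0 ≤ 2 * δ / |α| by positivity)
    linarith
  calc (S.card : ℝ) ≤ _ := h4
    _ ≤ (2 * δ / |α| + 1) * (2 * |α| * L + 3) := by
        refine mul_le_mul h5 (by linarith) (by positivity) (by positivity)

lemma sum_EI_eq (x : ℝ) (L : ℕ) :
    ∑ l ∈ Icc (-(L : ℤ)) L, EI (x * l) = EI (-(x * L)) * ∑ i ∈ range (2 * L + 1), EI x ^ i := by
  have hpow : ∀ i : ℕ, EI x ^ i = EI (x * i) := by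
    intro i
    induction i with
    | zero => simp [EI_zero]
    | succ i ih =>
      rw [pow_succ, ih, ← EI_add]
      congr 1
      push_cast
      ring
  simp_rw [hpow]
  rw [mul_sum]
  refine sum_nbij' (fun l : ℤ => (l + L).toNat) (fun i : ℕ => (i : ℤ) - L) ?_ ?_ ?_ ?_ ?_
  · intro l hl
    rw [mem_Icc] at hl
    rw [mem_range]
    omega
  · intro i hi
    rw [mem_range] at hi
    rw [mem_Icc]
    omega
  · intro l hl
    rw [mem_Icc] at hl
    omega
  · intro i hi
    simp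
  · intro l hl
    rw [mem_Icc] at hl
    rw [← EI_add]
    congr 1
    have : (((l + L).toNat : ℕ) : ℝ) = (l : ℝ) + L := by
      have h : ((l + L).toNat : ℤ) = l + L := Int.toNat_of_nonneg (by omega)
      exact_mod_cast congrArg (Int.cast : ℤ → ℝ) h
    rw [this]
    ring

lemma norm_EI_sub_one_ge (x : ℝ) :
    4 * |x / (2 * Real.pi) - round (x / (2 * Real.pi))| ≤ ‖EI x - 1‖ := by
  set n : ℤ := round (x / (2 * Real.pi)) with hn
  set f : ℝ := x / (2 * Real.pi) - n with hf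
  have hpi := Real.pi_pos
  have hx : x = 2 * Real.pi * f + n * (2 * Real.pi) := by
    rw [hf]
    field_simp
    ring
  have h1 : EI x = EI (2 * Real.pi * f) := by
    rw [hx, EI_add]
    have : EI (n * (2 * Real.pi)) = 1 := by
      rw [EI]
      push_cast
      have := Complex.exp_int_mul_two_pi_mul_I n
      rw [← this]
      congr 1
      ring
    rw [this, mul_one]
  have h2 : ‖EI (2 * Real.pi * f) - 1‖ = ‖2 * Real.sin ((2 * Real.pi * f) / 2)‖ := by
    rw [← Complex.norm_exp_I_mul_ofReal_sub_one, EI, mul_comm]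
  rw [h1, h2]
  have h3 : |f| ≤ 1 / 2 := abs_sub_round _
  have h4 : (2 * Real.pi * f) / 2 = Real.pi * f := by ring
  rw [h4]
  have h5 : |Real.pi * f| ≤ Real.pi / 2 := by
    rw [abs_mul, abs_of_pos hpi]
    nlinarith
  have h6 := Real.mul_abs_le_abs_sin h5
  rw [abs_mul, abs_of_pos hpi] at h6
  rw [norm_mul, Real.norm_of_nonneg (by norm_num : (0 : ℝ) ≤ 2), Real.norm_eq_abs]
  have h7 : 2 / Real.pi * (Real.pi * |f|) = 2 * |f| := by field_simp
  rw [h7] at h6
  linarith

lemma norm_sum_EI_le (x δ : ℝ) (hδ : 0 < δ) (L : ℕ)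
    (h : δ ≤ |x / (2 * Real.pi) - round (x / (2 * Real.pi))|) :
    ‖∑ l ∈ Icc (-(L : ℤ)) L, EI (x * l)‖ ≤ 1 / (2 * δ) := by
  rw [sum_EI_eq, norm_mul, norm_EI, one_mul]
  have h1 := norm_EI_sub_one_ge x
  have h2 : 4 * δ ≤ ‖EI x - 1‖ := by linarith
  have hne : EI x ≠ 1 := by
    intro heq
    rw [heq, sub_self, norm_zero] at h2
    linarith
  rw [geom_sum_eq hne, norm_div]
  have h3 : ‖EI x ^ (2 * L + 1) - 1‖ ≤ 2 := by
    refine (norm_sub_le _ _).trans ?_
    rw [norm_pow, norm_EI, one_pow, norm_one]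
    norm_num
  calc ‖EI x ^ (2 * L + 1) - 1‖ / ‖EI x - 1‖ ≤ 2 / (4 * δ) :=
        div_le_div₀ (by norm_num) h3 (by positivity) h2
    _ = 1 / (2 * δ) := by field_simp; ring

lemma WW_nonneg (g : ℝ) (L : ℕ) : 0 ≤ WW g L := sum_nonneg fun _ _ => norm_nonneg _

lemma card_Icc_int (L : ℕ) : ((Icc (-(L : ℤ)) L).card : ℝ) = 2 * L + 1 := by
  rw [Int.card_Icc]
  have : ((L : ℤ) + 1 - -(L : ℤ)).toNat = 2 * L + 1 := by omega
  rw [this]
  push_cast
  ring

lemma norm_inner_triv (g : ℝ) (L : ℕ) (m : ℤ) :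
    ‖∑ l ∈ Icc (-(L : ℤ)) L, EI (g * l * m)‖ ≤ 2 * L + 1 := by
  refine (norm_sum_le _ _).trans ?_
  simp_rw [norm_EI]
  rw [sum_const, nsmul_eq_mul, mul_one, card_Icc_int]

lemma WW_triv (g : ℝ) (L : ℕ) : WW g L ≤ (2 * (L : ℝ) + 1) ^ 2 := by
  refine (sum_le_sum fun m _ => norm_inner_triv g L m).trans ?_
  rw [sum_const, nsmul_eq_mul, card_Icc_int]
  exact le_of_eq (by ring)

lemma WW_le_aux (g : ℝ) (hg : g ≠ 0) (L : ℕ) (δ : ℝ) (hδ : 0 < δ) (hδ2 : δ ≤ 1 / 2) :
    WW g L ≤ (2 * L + 1) * (1 / (2 * δ)) + ((2 * δ / (|g| / (2 * Real.pi)) + 1) *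
      (2 * (|g| / (2 * Real.pi)) * L + 3)) * (2 * L + 1) := by
  classical
  have hpi := Real.pi_pos
  set α : ℝ := g / (2 * Real.pi) with hα
  have hα0 : α ≠ 0 := div_ne_zero hg (by positivity)
  have hαabs : |α| = |g| / (2 * Real.pi) := by
    rw [hα, abs_div, abs_of_pos (by positivity : 0 < 2 * Real.pi)]
  rw [← hαabs]
  rw [WW, ← sum_filter_not_add_sum_filter (s := Icc (-(L : ℤ)) L)
    (p := fun m : ℤ => |α * m - round (α * m)| < δ)]
  refine add_le_add ?_ ?_
  · calc ∑ m ∈ (Icc (-(L : ℤ)) L).filter (fun m : ℤ => ¬ |α * m - round (α * m)| < δ),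
          ‖∑ l ∈ Icc (-(L : ℤ)) L, EI (g * l * m)‖
        ≤ ∑ _m ∈ (Icc (-(L : ℤ)) L).filter (fun m : ℤ => ¬ |α * m - round (α * m)| < δ),
          1 / (2 * δ) := by
          refine sum_le_sum fun m hm => ?_
          have h1 := (mem_filter.1 hm).2
          push Not at h1
          have h2 : ∀ l : ℤ, g * l * m = (g * m) * l := fun l => by ring
          simp_rw [h2]
          refine norm_sum_EI_le _ _ hδ L ?_
          have h3 : g * m / (2 * Real.pi) = α * m := by rw [hα]; ring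
          rw [h3]
          exact h1
      _ = (((Icc (-(L : ℤ)) L).filter (fun m : ℤ => ¬ |α * m - round (α * m)| < δ)).card : ℝ)
          * (1 / (2 * δ)) := by rw [sum_const, nsmul_eq_mul]
      _ ≤ (2 * L + 1) * (1 / (2 * δ)) := by
          refine mul_le_mul_of_nonneg_right ?_ (by positivity)
          rw [← card_Icc_int]
          exact_mod_cast card_filter_le _ _
  · calc ∑ m ∈ (Icc (-(L : ℤ)) L).filter (fun m : ℤ => |α * m - round (α * m)| < δ),
          ‖∑ l ∈ Icc (-(L : ℤ)) L, EI (g * l * m)‖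
        ≤ ∑ _m ∈ (Icc (-(L : ℤ)) L).filter (fun m : ℤ => |α * m - round (α * m)| < δ),
          (2 * (L : ℝ) + 1) := sum_le_sum fun m _ => norm_inner_triv g L m
      _ = (((Icc (-(L : ℤ)) L).filter (fun m : ℤ => |α * m - round (α * m)| < δ)).card : ℝ)
          * (2 * (L : ℝ) + 1) := by rw [sum_const, nsmul_eq_mul]
      _ ≤ _ := by
          refine mul_le_mul_of_nonneg_right ?_ (by positivity)
          exact count_near α hα0 L δ hδ hδ2

/-- the main bound for the linear sums -/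
lemma WW_le (g : ℝ) (hg : g ≠ 0) (L : ℕ) (hL : 1 ≤ L) (δ α : ℝ) (hδ0 : 0 < δ)
    (hδ : δ ^ 2 * L = 1) (hα : α = |g| / (2 * Real.pi)) :
    WW g L ≤ (2 * (L : ℝ) + 1) ^ 2 * (4 * δ + α + 3 * δ / (α * L)) := by
  have hL1 : (1 : ℝ) ≤ L := by exact_mod_cast hL
  have hL0 : (0 : ℝ) < L := by linarith
  have hpi := Real.pi_pos
  have hα0 : 0 < α := by
    rw [hα]
    have := abs_pos.2 hg
    positivity
  rcases le_or_gt δ (1 / 2) with h2 | h2
  · refine (WW_le_aux g hg L δ hδ0 h2).trans ?_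
    rw [← hα]
    have e1 : (2 * (L : ℝ) + 1) * (1 / (2 * δ)) ≤ (2 * (L : ℝ) + 1) ^ 2 * δ := by
      have h3 : 1 / (2 * δ) ≤ (2 * (L : ℝ) + 1) * δ := by
        rw [div_le_iff₀ (by positivity)]
        nlinarith
      calc (2 * (L : ℝ) + 1) * (1 / (2 * δ)) ≤ (2 * (L : ℝ) + 1) * ((2 * (L : ℝ) + 1) * δ) :=
            mul_le_mul_of_nonneg_left h3 (by positivity)
        _ = _ := by ring
    have e2 : (2 * δ / α + 1) * (2 * α * L + 3)
        ≤ (2 * (L : ℝ) + 1) * (3 * δ + α + 3 * δ / (α * L)) := by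
      have h3 : (2 * δ / α + 1) * (2 * α * L + 3) = 4 * δ * L + 6 * δ / α + 2 * α * L + 3 := by
        field_simp
        ring
      have h4 : 3 * δ / (α * L) * (2 * L + 1) = 6 * δ / α + 3 * δ / (α * L) := by
        field_simp
        ring
      have h5 : (2 * (L : ℝ) + 1) * (3 * δ + α + 3 * δ / (α * L))
          = 6 * δ * L + 3 * δ + 2 * α * L + α + (3 * δ / (α * L) * (2 * L + 1)) := by ring
      rw [h3, h5, h4]
      have h6 : 0 < 3 * δ / (α * L) := by positivity
      have h7 : 3 ≤ 2 * δ * L + 3 * δ := by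
        -- δ L = 1/δ ≥ 2
        have h8 : 2 ≤ δ * L := by
          have h9 : δ * (δ * L) = 1 := by rw [← hδ]; ring
          by_contra hc
          push Not at hc
          nlinarith
        nlinarith
      linarith
    calc (2 * (L : ℝ) + 1) * (1 / (2 * δ)) + (2 * δ / α + 1) * (2 * α * L + 3) * (2 * L + 1)
        ≤ (2 * (L : ℝ) + 1) ^ 2 * δ
          + (2 * (L : ℝ) + 1) * (3 * δ + α + 3 * δ / (α * L)) * (2 * L + 1) := by
          refine add_le_add e1 (mul_le_mul_of_nonneg_right e2 (by positivity))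
      _ = _ := by ring
  · refine (WW_triv g L).trans ?_
    have h3 : 0 < 3 * δ / (α * L) := by positivity
    calc (2 * (L : ℝ) + 1) ^ 2 = (2 * (L : ℝ) + 1) ^ 2 * 1 := (mul_one _).symm
      _ ≤ _ := mul_le_mul_of_nonneg_left (by linarith) (by positivity)

end Vale.Agent.P026.H517
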